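/-
Row 324 (S0582), PDE core, module CL.   Architect: helper325.   Blueprint: origin/helper325:docs/R324_CL.md, section C2.

Leaf CL.Barrier: the explicit supersolution.    `L2 > 0` a parameter (`= ℓ²`), `u = X = 1 - y²`, `ϱ² = L2 + u`, `s = u/ϱ² ∈ [0,1)`,
    σ = s^{1/4} (`clSg`),    ϖ₀ = ϱ^{-1/2} = (L2+u)^{-1/4} (`clV0`),    ϖ = ϖ₀ (2 - σ) = 2 (L2+u)^{-1/4} - u^{1/4} (L2+u)^{-1/2}  (`clVp`).
With `θ = 2 u d/du` (acting on functions of `u`):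
    θ ϖ₀ = -(s/2) ϖ₀,    θ s = 2 s (1-s),    θ (σ ϖ₀) = σ ϖ₀ (1/2 - s),
    θ ϖ  = - ϖ₀ (s + σ/2 - s σ)                         [ s + σ/2 - sσ ≥ σ/2  and  ≤ 3σ/2 ],
    θ² ϖ = - ϖ₀ [ s (2 - 5s/2) + σ ((1/2 - s)² - 2 s (1-s)) ]  ≤ σ ϖ₀        [ s ≤ σ ≤ 1 ].
For `F(u)`, `ϖ(y) = F(1-y²)`:  ϖ' = -2 y F',  ϖ'' = -2 F' + 4 y² F'',  hence
    X (X ϖ'' - D ϖ' - c ϖ) = y² θ²F + (y D - 2 y² - u) θF - (u c) F.
`cl_vp_ineq`:  `y D - 2y² - u ≥ (q+1) y² - q/40 - 1/10 ≥ 0.87 q`  (`y ≥ 19/20`, `|D - (q+3) y| ≤ q/40`, `u ≤ 39/400`),  `-(u c) F ≤ (q/40) σ · 2 ϖ₀`: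
    X (..) ≤ σ ϖ₀ (1 - 0.435 q + q/20) ≤ -(q/4) σ ϖ₀   for `q ≥ 100`.
`cl_vp_pole`:  ϖ(1) - ϖ(y) = 2 (L2^{-1/4} - (L2+u)^{-1/4}) + σ ϖ₀ ≥ σ ϖ₀ = u^{1/4} (L2+u)^{-1/2} ≥ (1-y)^{1/4} (L2+1)^{-1/2}  (`u ≥ 1-y` for `0 ≤ y ≤ 1`), and
    `(1-y)^{1/4} c > K (1-y)` as soon as `(1-y)^{3/4} < c/|K|`.
-/
import Mathlib

set_option autoImplicit false

namespace Claimed.Agent.R324.Core

open Set Filter Topology
open scoped ContDiff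

/-- `σ = (X/(L2+X))^{1/4}`: the gain at the poles. -/
noncomputable def clSg (L2 y : ℝ) : ℝ := ((1 - y ^ 2) / (L2 + (1 - y ^ 2))) ^ ((1 : ℝ) / 4)

/-- `ϖ₀ = (L2+X)^{-1/4}`. -/
noncomputable def clV0 (L2 y : ℝ) : ℝ := (L2 + (1 - y ^ 2)) ^ (-((1 : ℝ) / 4))

/-- the barrier `ϖ = ϖ₀ (2 - σ)`. -/
noncomputable def clVp (L2 y : ℝ) : ℝ := clV0 L2 y * (2 - clSg L2 y)

theorem cl_u_nonneg (y : ℝ) (hy : y ∈ Icc (-1 : ℝ) 1) : 0 ≤ 1 - y ^ 2 := by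
  have h1 := hy.1
  have h2 := hy.2
  nlinarith

theorem cl_sg_mem (L2 : ℝ) (hL : 0 < L2) (y : ℝ) (hy : y ∈ Icc (-1 : ℝ) 1) :
    0 ≤ clSg L2 y ∧ clSg L2 y < 1 ∧ (1 - y ^ 2) / (L2 + (1 - y ^ 2)) ≤ clSg L2 y := by
  have hu := cl_u_nonneg y hy
  have hA : 0 < L2 + (1 - y ^ 2) := by linarith
  have hs0 : 0 ≤ (1 - y ^ 2) / (L2 + (1 - y ^ 2)) := div_nonneg hu hA.le
  have hs1 : (1 - y ^ 2) / (L2 + (1 - y ^ 2)) < 1 := by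
    rw [div_lt_one hA]; linarith
  refine ⟨Real.rpow_nonneg hs0 _, Real.rpow_lt_one hs0 hs1 (by norm_num), ?_⟩
  have h := Real.rpow_le_rpow_of_exponent_ge' hs0 hs1.le (by norm_num : (0:ℝ) ≤ 1 / 4)
    (by norm_num : (1:ℝ) / 4 ≤ 1)
  rw [Real.rpow_one] at h
  exact h

theorem cl_v0_pos (L2 : ℝ) (hL : 0 < L2) (y : ℝ) (hy : y ∈ Icc (-1 : ℝ) 1) : 0 < clV0 L2 y := by
  have hu := cl_u_nonneg y hy
  exact Real.rpow_pos_of_pos (by linarith) _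

theorem cl_vp_bounds (L2 : ℝ) (hL : 0 < L2) (y : ℝ) (hy : y ∈ Icc (-1 : ℝ) 1) :
    clV0 L2 y ≤ clVp L2 y ∧ clVp L2 y ≤ 2 * clV0 L2 y := by
  obtain ⟨h0, h1, -⟩ := cl_sg_mem L2 hL y hy
  have hv := cl_v0_pos L2 hL y hy
  unfold clVp
  constructor <;> nlinarith

theorem cl_vp_continuousOn (L2 : ℝ) (hL : 0 < L2) : ContinuousOn (clVp L2) (Icc (-1 : ℝ) 1) := by
  have hA : ∀ y ∈ Icc (-1 : ℝ) 1, L2 + (1 - y ^ 2) ≠ 0 := by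
    intro y hy
    have hu := cl_u_nonneg y hy
    linarith
  have hcA : ContinuousOn (fun y : ℝ => L2 + (1 - y ^ 2)) (Icc (-1 : ℝ) 1) := by fun_prop
  have hcu : ContinuousOn (fun y : ℝ => (1 - y ^ 2)) (Icc (-1 : ℝ) 1) := by fun_prop
  have h0 : ContinuousOn (clV0 L2) (Icc (-1 : ℝ) 1) :=
    hcA.rpow_const (fun y hy => Or.inl (hA y hy))
  have h1 : ContinuousOn (clSg L2) (Icc (-1 : ℝ) 1) :=
    (hcu.div hcA hA).rpow_const (fun y _ => Or.inr (by norm_num))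
  exact h0.mul (continuousOn_const.sub h1)

theorem cl_vp_contDiffOn (L2 : ℝ) (hL : 0 < L2) : ContDiffOn ℝ ∞ (clVp L2) (Ioo (-1 : ℝ) 1) := by
  have hu : ∀ y ∈ Ioo (-1 : ℝ) 1, 0 < 1 - y ^ 2 := by
    intro y hy
    have h1 := hy.1
    have h2 := hy.2
    nlinarith
  have hA : ∀ y ∈ Ioo (-1 : ℝ) 1, L2 + (1 - y ^ 2) ≠ 0 := by
    intro y hy
    have := hu y hy
    linarith
  have hcA : ContDiffOn ℝ ∞ (fun y : ℝ => L2 + (1 - y ^ 2)) (Ioo (-1 : ℝ) 1) := by fun_prop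
  have hcu : ContDiffOn ℝ ∞ (fun y : ℝ => (1 - y ^ 2)) (Ioo (-1 : ℝ) 1) := by fun_prop
  have h0 : ContDiffOn ℝ ∞ (clV0 L2) (Ioo (-1 : ℝ) 1) :=
    hcA.rpow_const_of_ne hA
  have h1 : ContDiffOn ℝ ∞ (clSg L2) (Ioo (-1 : ℝ) 1) :=
    (hcu.div hcA hA).rpow_const_of_ne (fun y hy => by
      have h1 := hu y hy
      have h2 : 0 < L2 + (1 - y ^ 2) := by linarith
      exact (div_pos h1 h2).ne')
  exact h0.mul (contDiffOn_const.sub h1)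

/-- the profile as a function of `u`. -/
noncomputable def cl_F0 (L2 u : ℝ) : ℝ :=
  2 * (L2 + u) ^ (-((1 : ℝ) / 4)) - u ^ ((1 : ℝ) / 4) * (L2 + u) ^ (-((1 : ℝ) / 2))

noncomputable def cl_F1 (L2 u : ℝ) : ℝ :=
  -(1 / 2) * (L2 + u) ^ (-((5 : ℝ) / 4)) - (1 / 4) * u ^ (-((3 : ℝ) / 4)) * (L2 + u) ^ (-((1 : ℝ) / 2))
    + (1 / 2) * u ^ ((1 : ℝ) / 4) * (L2 + u) ^ (-((3 : ℝ) / 2))

noncomputable def cl_F2 (L2 u : ℝ) : ℝ :=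
  (5 / 8) * (L2 + u) ^ (-((9 : ℝ) / 4)) + (3 / 16) * u ^ (-((7 : ℝ) / 4)) * (L2 + u) ^ (-((1 : ℝ) / 2))
    + (1 / 4) * u ^ (-((3 : ℝ) / 4)) * (L2 + u) ^ (-((3 : ℝ) / 2))
    - (3 / 4) * u ^ ((1 : ℝ) / 4) * (L2 + u) ^ (-((5 : ℝ) / 2))

theorem cl_hasDerivAt_A (L2 u p : ℝ) (hA : 0 < L2 + u) :
    HasDerivAt (fun u : ℝ => (L2 + u) ^ p) (p * (L2 + u) ^ (p - 1)) u := by
  have h1 : HasDerivAt (fun u : ℝ => L2 + u) 1 u := (hasDerivAt_id u).const_add L2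
  have h := h1.rpow_const (p := p) (Or.inl hA.ne')
  simpa [mul_comm, mul_assoc] using h

theorem cl_hasDerivAt_u (u p : ℝ) (hu : 0 < u) :
    HasDerivAt (fun u : ℝ => u ^ p) (p * u ^ (p - 1)) u :=
  Real.hasDerivAt_rpow_const (Or.inl hu.ne')

theorem cl_F0_hasDerivAt (L2 u : ℝ) (hL : 0 < L2) (hu : 0 < u) :
    HasDerivAt (cl_F0 L2) (cl_F1 L2 u) u := by
  have hA : 0 < L2 + u := by linarith
  have h := ((cl_hasDerivAt_A L2 u (-((1 : ℝ) / 4)) hA).const_mul 2).sub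
    ((cl_hasDerivAt_u u ((1 : ℝ) / 4) hu).mul (cl_hasDerivAt_A L2 u (-((1 : ℝ) / 2)) hA))
  refine h.congr_deriv ?_
  unfold cl_F1
  norm_num
  ring

theorem cl_F1_hasDerivAt (L2 u : ℝ) (hL : 0 < L2) (hu : 0 < u) :
    HasDerivAt (cl_F1 L2) (cl_F2 L2 u) u := by
  have hA : 0 < L2 + u := by linarith
  have h := (((cl_hasDerivAt_A L2 u (-((5 : ℝ) / 4)) hA).const_mul (-(1 / 2))).sub
    (((cl_hasDerivAt_u u (-((3 : ℝ) / 4)) hu).const_mul (1 / 4)).mul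
      (cl_hasDerivAt_A L2 u (-((1 : ℝ) / 2)) hA))).add
    (((cl_hasDerivAt_u u ((1 : ℝ) / 4) hu).const_mul (1 / 2)).mul
      (cl_hasDerivAt_A L2 u (-((3 : ℝ) / 2)) hA))
  refine h.congr_deriv ?_
  unfold cl_F2
  norm_num
  ring


theorem cl_vp_eq_F0 (L2 : ℝ) (hL : 0 < L2) (y : ℝ) (hu : 0 ≤ 1 - y ^ 2) :
    clVp L2 y = cl_F0 L2 (1 - y ^ 2) := by
  have hA : 0 < L2 + (1 - y ^ 2) := by linarith
  unfold clVp clV0 clSg cl_F0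
  have h1 : ((1 - y ^ 2) / (L2 + (1 - y ^ 2))) ^ ((1 : ℝ) / 4)
      = (1 - y ^ 2) ^ ((1 : ℝ) / 4) * (L2 + (1 - y ^ 2)) ^ (-((1 : ℝ) / 4)) := by
    rw [Real.div_rpow hu hA.le, Real.rpow_neg hA.le]
    rfl
  have h2 : (L2 + (1 - y ^ 2)) ^ (-((1 : ℝ) / 2))
      = (L2 + (1 - y ^ 2)) ^ (-((1 : ℝ) / 4)) * (L2 + (1 - y ^ 2)) ^ (-((1 : ℝ) / 4)) := by
    rw [← Real.rpow_add hA]; norm_num
  rw [h1, h2]
  ring

theorem cl_vp_hasDerivAt (L2 : ℝ) (hL : 0 < L2) (y : ℝ) (hy : y ∈ Ioo (-1 : ℝ) 1) :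
    HasDerivAt (clVp L2) (cl_F1 L2 (1 - y ^ 2) * (-2 * y)) y := by
  have hu : 0 < 1 - y ^ 2 := by
    have h1 := hy.1
    have h2 := hy.2
    nlinarith
  have hin : HasDerivAt (fun y : ℝ => 1 - y ^ 2) (-2 * y) y := by
    have h := ((hasDerivAt_id y).pow 2).const_sub 1
    refine h.congr_deriv ?_
    simp
  have h := (cl_F0_hasDerivAt L2 (1 - y ^ 2) hL hu).comp y hin
  refine h.congr_of_eventuallyEq ?_
  filter_upwards [isOpen_Ioo.mem_nhds hy] with z hz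
  have hz1 := hz.1
  have hz2 := hz.2
  exact cl_vp_eq_F0 L2 hL z (by nlinarith)

theorem cl_vp_deriv (L2 : ℝ) (hL : 0 < L2) (y : ℝ) (hy : y ∈ Ioo (-1 : ℝ) 1) :
    deriv (clVp L2) y = cl_F1 L2 (1 - y ^ 2) * (-2 * y) :=
  (cl_vp_hasDerivAt L2 hL y hy).deriv

theorem cl_vp_deriv2 (L2 : ℝ) (hL : 0 < L2) (y : ℝ) (hy : y ∈ Ioo (-1 : ℝ) 1) :
    deriv (deriv (clVp L2)) y
      = cl_F2 L2 (1 - y ^ 2) * (-2 * y) * (-2 * y) + cl_F1 L2 (1 - y ^ 2) * (-2) := by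
  have hu : 0 < 1 - y ^ 2 := by
    have h1 := hy.1
    have h2 := hy.2
    nlinarith
  have hin : HasDerivAt (fun y : ℝ => 1 - y ^ 2) (-2 * y) y := by
    have h := ((hasDerivAt_id y).pow 2).const_sub 1
    refine h.congr_deriv ?_
    simp
  have h1 := (cl_F1_hasDerivAt L2 (1 - y ^ 2) hL hu).comp y hin
  have h2 : HasDerivAt (fun y : ℝ => -2 * y) (-2) y := by
    simpa using (hasDerivAt_id y).const_mul (-2 : ℝ)
  have h := h1.mul h2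
  have he : deriv (clVp L2) =ᶠ[𝓝 y] fun z => cl_F1 L2 (1 - z ^ 2) * (-2 * z) := by
    filter_upwards [isOpen_Ioo.mem_nhds hy] with z hz
    exact cl_vp_deriv L2 hL z hz
  rw [he.deriv_eq]
  exact h.deriv

/-- quarter powers. -/
theorem cl_rpow_quarter (x : ℝ) (hx : 0 < x) (k : ℕ) :
    x ^ (-((k : ℝ) / 4)) = ((x ^ ((1 : ℝ) / 4)) ^ k)⁻¹ := by
  rw [← Real.rpow_natCast, ← Real.rpow_mul hx.le, ← Real.rpow_neg hx.le]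
  congr 1
  ring

theorem cl_quarter_pow (x : ℝ) (hx : 0 ≤ x) : (x ^ ((1 : ℝ) / 4)) ^ 4 = x := by
  rw [← Real.rpow_natCast, ← Real.rpow_mul hx]
  norm_num

theorem cl_rpow_of (x : ℝ) (hx : 0 < x) (k : ℕ) (p : ℝ) (hp : p = -((k : ℝ) / 4)) :
    x ^ p = ((x ^ ((1 : ℝ) / 4)) ^ k)⁻¹ := by
  rw [hp]; exact cl_rpow_quarter x hx k

/-- the algebraic core of the supersolution inequality. -/
theorem cl_core (q y D c u V σ s T1 T2 P : ℝ) (hq : 100 ≤ q) (hy0 : 19 / 20 < y) (hy1 : y < 1)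
    (hu : u = 1 - y ^ 2)
    (hD : |D - (q + 3) * y| ≤ q / 40) (hc : -(q / 40) * σ ≤ u * c)
    (hV : 0 < V) (hσ0 : 0 ≤ σ) (hσ1 : σ < 1) (hs0 : 0 ≤ s) (hs1 : s < 1) (hsσ : s ≤ σ)
    (hP0 : 0 ≤ P) (hP : P ≤ 2 * V)
    (hT1 : T1 = -V * (s + σ / 2 - s * σ))
    (hT2 : T2 = -V * (s * (2 - 5 * s / 2) + σ * ((1 / 2 - s) ^ 2 - 2 * s * (1 - s)))) :
    y ^ 2 * T2 + (y * D - 2 * y ^ 2 - u) * T1 - (u * c) * P ≤ -(q / 4) * σ * V := by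
  have hW : 0 ≤ σ * V := mul_nonneg hσ0 hV.le
  have h1 : T1 ≤ -(σ * V) / 2 := by
    rw [hT1]
    have : 0 ≤ V * (s * (1 - σ)) := mul_nonneg hV.le (mul_nonneg hs0 (by linarith))
    nlinarith
  have h2 : T2 ≤ σ * V := by
    rw [hT2]
    have e1 : 0 ≤ s * (1 - s) := mul_nonneg hs0 (by linarith)
    have e2 : 0 ≤ σ * (s - 1 / 2) ^ 2 := mul_nonneg hσ0 (sq_nonneg _)
    have key : 0 ≤ s * (2 - 5 * s / 2) + σ * ((1 / 2 - s) ^ 2 - 2 * s * (1 - s)) + σ := by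
      nlinarith
    nlinarith
  have hy2 : 361 / 400 ≤ y ^ 2 := by nlinarith
  have hy2' : y ^ 2 ≤ 1 := by nlinarith
  have hDl : (q + 3) * y - q / 40 ≤ D := by
    have := (abs_le.mp hD).1
    linarith
  have h3 : 87 / 100 * q ≤ y * D - 2 * y ^ 2 - u := by
    have e1 : y * ((q + 3) * y - q / 40) ≤ y * D := mul_le_mul_of_nonneg_left hDl (by linarith)
    have e2 : q * y ≤ q := by nlinarith
    have e3 : q * (361 / 400) ≤ q * y ^ 2 := mul_le_mul_of_nonneg_left hy2 (by linarith)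
    rw [hu]
    nlinarith
  have h4 : -(u * c) * P ≤ q / 20 * (σ * V) := by
    have e1 : -(u * c) ≤ q / 40 * σ := by linarith
    have e2 : -(u * c) * P ≤ q / 40 * σ * P := mul_le_mul_of_nonneg_right e1 hP0
    have e3 : q / 40 * σ * P ≤ q / 40 * σ * (2 * V) :=
      mul_le_mul_of_nonneg_left hP (mul_nonneg (by linarith) hσ0)
    linarith
  have h5 : y ^ 2 * T2 ≤ σ * V := by
    have e1 : y ^ 2 * T2 ≤ y ^ 2 * (σ * V) := mul_le_mul_of_nonneg_left h2 (sq_nonneg _)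
    have e2 : y ^ 2 * (σ * V) ≤ 1 * (σ * V) := mul_le_mul_of_nonneg_right hy2' hW
    linarith
  have h6 : (y * D - 2 * y ^ 2 - u) * T1 ≤ -(87 / 200 * q) * (σ * V) := by
    have e1 : (y * D - 2 * y ^ 2 - u) * T1 ≤ (y * D - 2 * y ^ 2 - u) * (-(σ * V) / 2) :=
      mul_le_mul_of_nonneg_left h1 (by linarith)
    have e2 : 87 / 100 * q * (σ * V) ≤ (y * D - 2 * y ^ 2 - u) * (σ * V) :=
      mul_le_mul_of_nonneg_right h3 hW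
    linarith
  have h7 : 0 ≤ (q - 100) * (σ * V) := mul_nonneg (by linarith) hW
  nlinarith

/-- the supersolution inequality. -/
theorem cl_vp_ineq (q L2 : ℝ) (hq : 100 ≤ q) (hL : 0 < L2) (y D c : ℝ) (hy : y ∈ Ioo (19 / 20 : ℝ) 1)
    (hD : |D - (q + 3) * y| ≤ q / 40) (hc : -(q / 40) * clSg L2 y ≤ (1 - y ^ 2) * c) :
    (1 - y ^ 2) * ((1 - y ^ 2) * deriv (deriv (clVp L2)) y - D * deriv (clVp L2) y - c * clVp L2 y)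
      ≤ -(q / 4) * clSg L2 y * clV0 L2 y := by
  have hy' : y ∈ Ioo (-1 : ℝ) 1 := ⟨by linarith [hy.1], hy.2⟩
  have hyI : y ∈ Icc (-1 : ℝ) 1 := ⟨hy'.1.le, hy'.2.le⟩
  rw [cl_vp_deriv2 L2 hL y hy', cl_vp_deriv L2 hL y hy']
  obtain ⟨hσ0, hσ1, hsσ⟩ := cl_sg_mem L2 hL y hyI
  have hV := cl_v0_pos L2 hL y hyI
  obtain ⟨hP1, hP2⟩ := cl_vp_bounds L2 hL y hyI
  have hu : 0 < 1 - y ^ 2 := by
    have h1 := hy'.1
    have h2 := hy'.2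
    nlinarith
  have hA : 0 < L2 + (1 - y ^ 2) := by linarith
  have hs0 : 0 ≤ (1 - y ^ 2) / (L2 + (1 - y ^ 2)) := (div_pos hu hA).le
  have hs1 : (1 - y ^ 2) / (L2 + (1 - y ^ 2)) < 1 := by
    rw [div_lt_one hA]; linarith
  -- the quarter powers
  obtain ⟨a, ha⟩ : ∃ a, a = (1 - y ^ 2) ^ ((1 : ℝ) / 4) := ⟨_, rfl⟩
  obtain ⟨b, hb⟩ : ∃ b, b = (L2 + (1 - y ^ 2)) ^ ((1 : ℝ) / 4) := ⟨_, rfl⟩
  have ha0 : 0 < a := ha ▸ Real.rpow_pos_of_pos hu _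
  have hb0 : 0 < b := hb ▸ Real.rpow_pos_of_pos hA _
  have ha4 : a ^ 4 = 1 - y ^ 2 := by rw [ha]; exact cl_quarter_pow _ hu.le
  have hb4 : b ^ 4 = L2 + (1 - y ^ 2) := by rw [hb]; exact cl_quarter_pow _ hA.le
  have hVb : clV0 L2 y = b⁻¹ := by
    unfold clV0
    rw [cl_rpow_of _ hA 1 _ (by norm_num), ← hb, pow_one]
  have hσb : clSg L2 y = a * b⁻¹ := by
    unfold clSg
    rw [Real.div_rpow hu.le hA.le, ← ha, ← hb]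
    rfl
  have hsb : (1 - y ^ 2) / (L2 + (1 - y ^ 2)) = a ^ 4 * (b ^ 4)⁻¹ := by
    rw [ha4, hb4]; rfl
  have hF1 : cl_F1 L2 (1 - y ^ 2) = -(1 / 2) * (b ^ 5)⁻¹ - (1 / 4) * (a ^ 3)⁻¹ * (b ^ 2)⁻¹
      + (1 / 2) * a * (b ^ 6)⁻¹ := by
    unfold cl_F1
    rw [cl_rpow_of _ hA 5 (-((5 : ℝ) / 4)) (by norm_num), cl_rpow_of _ hA 2 (-((1 : ℝ) / 2)) (by norm_num),
      cl_rpow_of _ hA 6 (-((3 : ℝ) / 2)) (by norm_num), cl_rpow_of _ hu 3 (-((3 : ℝ) / 4)) (by norm_num),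
      ← ha, ← hb]
  have hF2 : cl_F2 L2 (1 - y ^ 2) = (5 / 8) * (b ^ 9)⁻¹ + (3 / 16) * (a ^ 7)⁻¹ * (b ^ 2)⁻¹
      + (1 / 4) * (a ^ 3)⁻¹ * (b ^ 6)⁻¹ - (3 / 4) * a * (b ^ 10)⁻¹ := by
    unfold cl_F2
    rw [cl_rpow_of _ hA 9 (-((9 : ℝ) / 4)) (by norm_num), cl_rpow_of _ hA 2 (-((1 : ℝ) / 2)) (by norm_num),
      cl_rpow_of _ hA 6 (-((3 : ℝ) / 2)) (by norm_num), cl_rpow_of _ hA 10 (-((5 : ℝ) / 2)) (by norm_num),
      cl_rpow_of _ hu 3 (-((3 : ℝ) / 4)) (by norm_num), cl_rpow_of _ hu 7 (-((7 : ℝ) / 4)) (by norm_num),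
      ← ha, ← hb]
  have hT1 : 2 * (1 - y ^ 2) * cl_F1 L2 (1 - y ^ 2)
      = -clV0 L2 y * ((1 - y ^ 2) / (L2 + (1 - y ^ 2)) + clSg L2 y / 2
        - (1 - y ^ 2) / (L2 + (1 - y ^ 2)) * clSg L2 y) := by
    rw [hsb, hVb, hσb, hF1, ← ha4]
    field_simp
    ring
  have hT2 : 4 * (1 - y ^ 2) * cl_F1 L2 (1 - y ^ 2) + 4 * (1 - y ^ 2) ^ 2 * cl_F2 L2 (1 - y ^ 2)
      = -clV0 L2 y * ((1 - y ^ 2) / (L2 + (1 - y ^ 2)) * (2 - 5 * ((1 - y ^ 2) / (L2 + (1 - y ^ 2))) / 2)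
        + clSg L2 y * ((1 / 2 - (1 - y ^ 2) / (L2 + (1 - y ^ 2))) ^ 2
          - 2 * ((1 - y ^ 2) / (L2 + (1 - y ^ 2))) * (1 - (1 - y ^ 2) / (L2 + (1 - y ^ 2))))) := by
    rw [hsb, hVb, hσb, hF1, hF2, ← ha4]
    field_simp
    ring
  have key := cl_core q y D c (1 - y ^ 2) (clV0 L2 y) (clSg L2 y) ((1 - y ^ 2) / (L2 + (1 - y ^ 2)))
    _ _ (clVp L2 y) hq hy.1 hy.2 rfl hD hc hV hσ0 hσ1 hs0 hs1 hsσ (by linarith) hP2 hT1 hT2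
  refine le_trans (le_of_eq ?_) key
  ring


/-- infinite slope at the pole. -/
theorem cl_vp_pole (L2 : ℝ) (hL : 0 < L2) (y₀ : ℝ) (h0 : 0 ≤ y₀) (h1 : y₀ < 1) (K : ℝ) :
    ∃ y ∈ Ioo y₀ 1, clVp L2 y + K * (1 - y) < clVp L2 1 := by
  obtain ⟨m, hm⟩ : ∃ m, m = (L2 + 1) ^ (-((1 : ℝ) / 4)) := ⟨_, rfl⟩
  have hm0 : 0 < m := hm ▸ Real.rpow_pos_of_pos (by linarith) _
  have hK : 0 < |K| + 1 := by positivity
  have hpos : 0 < min (min 1 (1 - y₀)) (m * m / (|K| + 1)) :=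
    lt_min (lt_min one_pos (by linarith)) (div_pos (mul_pos hm0 hm0) hK)
  obtain ⟨w, hw0, hw⟩ := exists_between hpos
  have hw1 : w < 1 := lt_of_lt_of_le hw ((min_le_left _ _).trans (min_le_left _ _))
  have hw2 : w < 1 - y₀ := lt_of_lt_of_le hw ((min_le_left _ _).trans (min_le_right _ _))
  have hw3 : w < m * m / (|K| + 1) := lt_of_lt_of_le hw (min_le_right _ _)
  have hw3' : w * (|K| + 1) < m * m := (lt_div_iff₀ hK).mp hw3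
  have hw4 : w ^ 4 ≤ w := by
    have e1 : w ^ 4 ≤ w ^ 1 := pow_le_pow_of_le_one hw0.le hw1.le (by norm_num)
    simpa using e1
  have hw40 : 0 < w ^ 4 := by positivity
  refine ⟨1 - w ^ 4, ⟨by linarith, by linarith⟩, ?_⟩
  obtain ⟨y, hy⟩ : ∃ y, y = 1 - w ^ 4 := ⟨_, rfl⟩
  rw [← hy]
  have hy0 : 0 ≤ y := by rw [hy]; linarith
  have hy1 : y < 1 := by rw [hy]; linarith
  have hyI : y ∈ Icc (-1 : ℝ) 1 := ⟨by linarith, hy1.le⟩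
  have hu : w ^ 4 ≤ 1 - y ^ 2 := by
    have : 1 - y ^ 2 = (1 - y) * (1 + y) := by ring
    rw [this]
    have e : 1 - y = w ^ 4 := by rw [hy]; ring
    rw [e]
    nlinarith
  have hu1 : 1 - y ^ 2 ≤ 1 := by nlinarith [sq_nonneg y]
  have hu0 : 0 < 1 - y ^ 2 := lt_of_lt_of_le hw40 hu
  have hA : 0 < L2 + (1 - y ^ 2) := by linarith
  -- value at the pole
  have hpole : clVp L2 1 = 2 * L2 ^ (-((1 : ℝ) / 4)) := by
    unfold clVp clV0 clSg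
    norm_num
    ring
  -- V0 between
  have hV1 : clV0 L2 y ≤ L2 ^ (-((1 : ℝ) / 4)) := by
    unfold clV0
    exact Real.rpow_le_rpow_of_nonpos hL (by linarith) (by norm_num)
  have hV2 : m ≤ clV0 L2 y := by
    unfold clV0
    rw [hm]
    exact Real.rpow_le_rpow_of_nonpos hA (by linarith) (by norm_num)
  have hσ : w * m ≤ clSg L2 y := by
    unfold clSg
    have e1 : w ^ 4 / (L2 + 1) ≤ (1 - y ^ 2) / (L2 + (1 - y ^ 2)) :=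
      div_le_div₀ hu0.le hu hA (by linarith)
    have e2 : (w ^ 4 / (L2 + 1)) ^ ((1 : ℝ) / 4) ≤ ((1 - y ^ 2) / (L2 + (1 - y ^ 2))) ^ ((1 : ℝ) / 4) :=
      Real.rpow_le_rpow (by positivity) e1 (by norm_num)
    refine le_trans (le_of_eq ?_) e2
    rw [Real.div_rpow hw40.le (by linarith), hm, Real.rpow_neg (by linarith), ← Real.rpow_natCast,
      ← Real.rpow_mul hw0.le]
    norm_num
    rfl
  have hprod : w * m * m ≤ clSg L2 y * clV0 L2 y :=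
    mul_le_mul hσ hV2 hm0.le (le_trans (by positivity) hσ)
  have hKw : K * (1 - y) < w * m * m := by
    have e : 1 - y = w ^ 4 := by rw [hy]; ring
    rw [e]
    have e1 : K * w ^ 4 ≤ |K| * w ^ 4 := mul_le_mul_of_nonneg_right (le_abs_self K) hw40.le
    have e2 : |K| * w ^ 4 ≤ |K| * (w * w) := by
      apply mul_le_mul_of_nonneg_left _ (abs_nonneg K)
      have : w ^ 4 = (w * w) * (w * w) := by ring
      rw [this]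
      have hww : w * w ≤ 1 := by nlinarith
      nlinarith [mul_pos hw0 hw0]
    have e3 : w * (w * (|K| + 1)) < w * (m * m) := mul_lt_mul_of_pos_left hw3' hw0
    nlinarith [mul_pos hw0 hw0]
  rw [hpole]
  unfold clVp
  nlinarith

end Claimed.Agent.R324.Core
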