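/-
Row 324 (S0582), PDE core, module CL.   Architect: helper325.   Blueprint: origin/helper325:docs/R324_CL.md, section C2.

Leaf CL.Bianchi: the contracted second Bianchi identity for `rfA, rfB, rfC` (= -2 Ric eigenvalues of `e^a dr² + e^β g_{S^q} + e^γ g_{S²}`).
Checked in exact rational arithmetic (truncated Taylor series, random data).

PROOF.  Pure calculus:  with `a₁ = a'`, `a₂ = a''`, `β₁..β₃`, `γ₁..γ₃` the derivatives at `r`,
  rfA  = e^{-a} (q β₂ + 2 γ₂ + q/2 β₁² + γ₁² - a₁ (q β₁/2 + γ₁)),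
  rfA' = -a₁ rfA + e^{-a} (q β₃ + 2 γ₃ + q β₁ β₂ + 2 γ₁ γ₂ - a₂ (q β₁/2 + γ₁) - a₁ (q β₂/2 + γ₂)),
  rfB' = -a₁ e^{-a}(β₂ - a₁β₁/2 + q/2 β₁² + β₁γ₁) + e^{-a}(β₃ - a₂β₁/2 - a₁β₂/2 + q β₁β₂ + β₂γ₁ + β₁γ₂) + 2(q-1) β₁ e^{-β},   etc.
then `ring` (treat `e^{-a}, e^{-β}, e^{-γ}` as atoms).  See R324/MP/Jet1.lean for the same kind of computation (HasDerivAt of `deriv`, `deriv (deriv ·)` for `ContDiffAt`).
-/
import Claimed.Agent.R324.Reduced

set_option autoImplicit false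

namespace Claimed.Agent.R324.Core

open Set Filter Topology
open scoped ContDiff

theorem cl_contDiffAt_deriv {f : ℝ → ℝ} {r : ℝ} {m : ℕ} (hf : ContDiffAt ℝ ((m + 1 : ℕ) : ℕ∞ω) f r) :
    ContDiffAt ℝ (m : ℕ∞ω) (deriv f) r :=
  ContDiffAt.derivWithin (m := (m : ℕ∞ω)) hf (by push_cast; exact le_rfl)

theorem cl_jets {f : ℝ → ℝ} {r : ℝ} (hf : ContDiffAt ℝ 3 f r) :
    HasDerivAt f (deriv f r) r ∧ HasDerivAt (deriv f) (deriv (deriv f) r) r ∧
      HasDerivAt (deriv (deriv f)) (deriv (deriv (deriv f)) r) r := by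
  have h2 : ContDiffAt ℝ ((2 : ℕ) : ℕ∞ω) (deriv f) r := cl_contDiffAt_deriv (m := 2) (by exact_mod_cast hf)
  have h1 : ContDiffAt ℝ ((1 : ℕ) : ℕ∞ω) (deriv (deriv f)) r := cl_contDiffAt_deriv (m := 1) h2
  exact ⟨(hf.differentiableAt (by norm_num)).hasDerivAt,
    (h2.differentiableAt (by norm_num)).hasDerivAt, (h1.differentiableAt (by norm_num)).hasDerivAt⟩

theorem cl_bianchi (q : ℝ) (a β γ : ℝ → ℝ) (r : ℝ)
    (ha : ContDiffAt ℝ 3 a r) (hβ : ContDiffAt ℝ 3 β r) (hγ : ContDiffAt ℝ 3 γ r) :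
    deriv (rfA q a β γ) r / 2 - q / 2 * deriv (rfB q a β γ) r - deriv (rfC q a β γ) r
      + q / 2 * deriv β r * (rfA q a β γ r - rfB q a β γ r)
      + deriv γ r * (rfA q a β γ r - rfC q a β γ r) = 0 := by
  obtain ⟨a0, a1, -⟩ := cl_jets ha
  obtain ⟨b0, b1, b2⟩ := cl_jets hβ
  obtain ⟨c0, c1, c2⟩ := cl_jets hγ
  have ea : HasDerivAt (fun x => Real.exp (-a x)) (Real.exp (-a r) * (-deriv a r)) r := a0.neg.exp
  have eb : HasDerivAt (fun x => Real.exp (-β x)) (Real.exp (-β r) * (-deriv β r)) r := b0.neg.exp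
  have ec : HasDerivAt (fun x => Real.exp (-γ x)) (Real.exp (-γ r) * (-deriv γ r)) r := c0.neg.exp
  have hA := (ea.mul ((((((b2.const_mul q).add (c2.const_mul 2)).add ((b1.pow 2).const_mul (q / 2))).add
    (c1.pow 2))).sub (a1.mul (((b1.const_mul q).div_const 2).add c1)))).deriv
  have hB := ((ea.mul ((((b2.sub ((a1.mul b1).div_const 2)).add ((b1.pow 2).const_mul (q / 2))).add
    (b1.mul c1)))).sub (eb.const_mul (2 * (q - 1)))).deriv
  have hC := ((ea.mul ((((c2.sub ((a1.mul c1).div_const 2)).add ((b1.const_mul (q / 2)).mul c1)).add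
    (c1.pow 2)))).sub (ec.const_mul 2)).deriv
  have hA' : deriv (rfA q a β γ) r = _ := hA
  have hB' : deriv (rfB q a β γ) r = _ := hB
  have hC' : deriv (rfC q a β γ) r = _ := hC
  rw [hA', hB', hC']
  simp only [rfA, rfB, rfC, Pi.add_apply, Pi.sub_apply, Pi.mul_apply, Pi.pow_apply, Nat.cast_ofNat,
    Nat.add_one_sub_one, pow_one]
  ring

end Claimed.Agent.R324.Core
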