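/-
Row 324 (S0582), PDE core, module CL.   Architect: helper325.   Blueprint: origin/helper325:docs/R324_CL.md, section C2.

Leaf CL.OdeOmega: the STATIC second order ODE satisfied by the total gauge field.   Everything is at a fixed time; functions of `y`; `X = 1 - y²`.
Metric  `e^{A₁} dy²/X + e^{h₂} X g_{S^q} + e^{C₁} g_{S²}`,  gauge field `X W ∂_y`,  `kA, kB, kC` = time derivatives of `A₁, h₂, C₁`,  `kA - kB = X kb`.
`-2 Ric` eigenvalues through the flow: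
    rB = kB - W (X h₂' - 2y),     rC = kC - X W C₁',     rA = kA - W (X A₁' + 2y) - 2 (X W)'.
Contracted Bianchi identity (hypothesis `hB`; it comes from `cl_bianchi` with `β' = h₂' - 2y/X`, `γ' = C₁'`):
    rA'/2 - (q/2) rB' - rC' + (q/2)(h₂' - 2y/X)(rA - rB) + C₁' (rA - rC) = 0.
SECOND hypothesis `hRA` (found by helper872; the first version of this file forgot it and was false): `rA` IS `-2 Ric_A` of the metric,
    e^{A₁} rA = X ( q (b₂ + b₁²/2 - a₁ b₁/2) + 2 (C₁'' + C₁'²/2 - a₁ C₁'/2) ),   b₁ = h₂' - 2y/X,  b₂ = b₁',  a₁ = A₁' + 2y/X.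
The lemma is `cl_ode_omega_fix`.
CLAIM: `om = e^{A₁/2} W` satisfies
    X om'' - ((q+3) y - X 𝔤) om' - 𝔠 om = e^{A₁/2} K,
    𝔤 = -A₁'/2 + (q/2) h₂' + C₁' + e^{A₁} W,
    𝔠 = 1 + y 𝔤 + (q/4) X h₂'² - q y h₂' + X C₁'²/2 + e^{A₁} kA/2,
    K = kA'/2 - (q/2) kB' - kC' + (q/2)(X h₂' - 2y) kb + C₁' (kA - kC).
No second derivative of the metric occurs (the term `A₁''` is removed by passing from `W` to `om`, the terms `h₂'', C₁''` cancel, `W W'` is hidden in `𝔤`).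
The identity was checked in exact rational arithmetic (truncated Taylor series, random data, `/tmp/r324/ode_check.py` = docs/R324_CL/ode_check.py on origin/helper325).

PROOF.  Introduce the jets at `y`:  `A₁', A₁''`, `h₂', h₂''`, `C₁', C₁''`, `W, W', W''`, `kA, kA'`, ... ;  `E = exp (A₁/2)`, `exp A₁ = E²`.
  om' = E (W' + A₁' W/2),     om'' = E (W'' + A₁' W' + A₁'' W/2 + A₁'² W/4),
  (X W)' = X W' - 2 y W,      (X W)'' = X W'' - 4 y W' - 2 W,
  rB' = kB' - W' (X h₂' - 2y) - W (X h₂'' - 2 y h₂' - 2),     rC' = kC' - (X W' - 2 y W) C₁' - X W C₁'',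
  rA' = kA' - W' (X A₁' + 2y) - W (X A₁'' - 2 y A₁' + 2) - 2 (X W'' - 4 y W' - 2 W).
Replace `kB` by `kA - X kb` in `rA - rB`.   Multiply `hB` by `-E` and compare: `field_simp; ring` (`X ≠ 0`), or `linear_combination (-E) * hB` after clearing `1/X`.
-/
import Mathlib

set_option autoImplicit false

namespace Claimed.Agent.R324.Core

open Set Filter Topology
open scoped ContDiff

/-- `rA` (static form). -/
noncomputable def clRA (A1 W kA : ℝ → ℝ) (y : ℝ) : ℝ :=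
  kA y - W y * ((1 - y ^ 2) * deriv A1 y + 2 * y) - 2 * deriv (fun z => (1 - z ^ 2) * W z) y

/-- `rB` (static form). -/
noncomputable def clRB (h2 W kB : ℝ → ℝ) (y : ℝ) : ℝ :=
  kB y - W y * ((1 - y ^ 2) * deriv h2 y - 2 * y)

/-- `rC` (static form). -/
noncomputable def clRC (C1 W kC : ℝ → ℝ) (y : ℝ) : ℝ :=
  kC y - (1 - y ^ 2) * W y * deriv C1 y

/-- `om = e^{A₁/2} W`. -/
noncomputable def clOm (A1 W : ℝ → ℝ) (y : ℝ) : ℝ := Real.exp (A1 y / 2) * W y

/-- `𝔤`. -/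
noncomputable def clG (q : ℝ) (A1 h2 C1 W : ℝ → ℝ) (y : ℝ) : ℝ :=
  -deriv A1 y / 2 + q / 2 * deriv h2 y + deriv C1 y + Real.exp (A1 y) * W y

/-- `𝔠`. -/
noncomputable def clC (q : ℝ) (A1 h2 C1 W kA : ℝ → ℝ) (y : ℝ) : ℝ :=
  1 + y * clG q A1 h2 C1 W y + q / 4 * (1 - y ^ 2) * (deriv h2 y) ^ 2 - q * y * deriv h2 y
    + (1 - y ^ 2) * (deriv C1 y) ^ 2 / 2 + Real.exp (A1 y) * kA y / 2

/-- `K`. -/
noncomputable def clK (q : ℝ) (h2 C1 kA kB kC kb : ℝ → ℝ) (y : ℝ) : ℝ :=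
  deriv kA y / 2 - q / 2 * deriv kB y - deriv kC y + q / 2 * ((1 - y ^ 2) * deriv h2 y - 2 * y) * kb y
    + deriv C1 y * (kA y - kC y)

theorem cl_hd1 {f : ℝ → ℝ} (hf : ContDiff ℝ ∞ f) (z : ℝ) : HasDerivAt f (deriv f z) z :=
  ((contDiff_infty_iff_deriv.1 hf).1 z).hasDerivAt

theorem cl_hd2 {f : ℝ → ℝ} (hf : ContDiff ℝ ∞ f) (z : ℝ) :
    HasDerivAt (deriv f) (deriv (deriv f) z) z :=
  cl_hd1 (contDiff_infty_iff_deriv.1 hf).2 z

theorem cl_hdX (z : ℝ) : HasDerivAt (fun z : ℝ => 1 - z ^ 2) (-(2 * z)) z := by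
  have := ((hasDerivAt_id z).pow 2).const_sub 1
  simpa using this

theorem cl_deriv_XW {W : ℝ → ℝ} (hW : ContDiff ℝ ∞ W) :
    deriv (fun z => (1 - z ^ 2) * W z) = fun z => -(2 * z) * W z + (1 - z ^ 2) * deriv W z := by
  funext z
  exact ((cl_hdX z).mul (cl_hd1 hW z)).deriv

theorem cl_deriv_om {A1 W : ℝ → ℝ} (hA1 : ContDiff ℝ ∞ A1) (hW : ContDiff ℝ ∞ W) :
    deriv (clOm A1 W) = fun z => Real.exp (A1 z / 2) * (deriv A1 z / 2) * W z
      + Real.exp (A1 z / 2) * deriv W z := by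
  funext z
  exact ((((cl_hd1 hA1 z).div_const 2).exp).mul (cl_hd1 hW z)).deriv

theorem cl_deriv2_om {A1 W : ℝ → ℝ} (hA1 : ContDiff ℝ ∞ A1) (hW : ContDiff ℝ ∞ W) (z : ℝ) :
    HasDerivAt (deriv (clOm A1 W))
      ((Real.exp (A1 z / 2) * (deriv A1 z / 2) * (deriv A1 z / 2)
          + Real.exp (A1 z / 2) * (deriv (deriv A1) z / 2)) * W z
        + Real.exp (A1 z / 2) * (deriv A1 z / 2) * deriv W z
        + (Real.exp (A1 z / 2) * (deriv A1 z / 2) * deriv W z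
          + Real.exp (A1 z / 2) * deriv (deriv W) z)) z := by
  rw [cl_deriv_om hA1 hW]
  have hE := ((cl_hd1 hA1 z).div_const 2).exp
  exact ((hE.mul ((cl_hd2 hA1 z).div_const 2)).mul (cl_hd1 hW z)).add (hE.mul (cl_hd2 hW z))

/-- CORRECTED form of `cl_ode_omega` (helper872): the identity needs the formula `hRA` of `rA = -2 Ric_A` in terms of the metric
(`LHS - RHS = -E hB + E W (RM - e^{A₁} rA / 2)`). -/
theorem cl_ode_omega_fix (q : ℝ) (A1 h2 C1 W kA kB kC kb : ℝ → ℝ)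
    (hA1 : ContDiff ℝ ∞ A1) (hh2 : ContDiff ℝ ∞ h2) (hC1 : ContDiff ℝ ∞ C1) (hW : ContDiff ℝ ∞ W)
    (hkA : ContDiff ℝ ∞ kA) (hkB : ContDiff ℝ ∞ kB) (hkC : ContDiff ℝ ∞ kC)
    (y : ℝ) (hy : 1 - y ^ 2 ≠ 0) (hkb : kA y - kB y = (1 - y ^ 2) * kb y)
    (hB : deriv (clRA A1 W kA) y / 2 - q / 2 * deriv (clRB h2 W kB) y - deriv (clRC C1 W kC) y
      + q / 2 * (deriv h2 y - 2 * y / (1 - y ^ 2)) * (clRA A1 W kA y - clRB h2 W kB y)
      + deriv C1 y * (clRA A1 W kA y - clRC C1 W kC y) = 0)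
    (hRA : Real.exp (A1 y) * clRA A1 W kA y = (1 - y ^ 2) *
      (q * ((deriv (deriv h2) y - 2 / (1 - y ^ 2) - 4 * y ^ 2 / (1 - y ^ 2) ^ 2)
            + (deriv h2 y - 2 * y / (1 - y ^ 2)) ^ 2 / 2
            - (deriv A1 y + 2 * y / (1 - y ^ 2)) * (deriv h2 y - 2 * y / (1 - y ^ 2)) / 2)
        + 2 * (deriv (deriv C1) y + (deriv C1 y) ^ 2 / 2
            - (deriv A1 y + 2 * y / (1 - y ^ 2)) * deriv C1 y / 2))) :
    (1 - y ^ 2) * deriv (deriv (clOm A1 W)) y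
        - ((q + 3) * y - (1 - y ^ 2) * clG q A1 h2 C1 W y) * deriv (clOm A1 W) y
        - clC q A1 h2 C1 W kA y * clOm A1 W y
      = Real.exp (A1 y / 2) * clK q h2 C1 kA kB kC kb y := by
  -- derivatives of rA, rB, rC
  have hXW := cl_deriv_XW hW
  have dXW : HasDerivAt (fun z => -(2 * z) * W z + (1 - z ^ 2) * deriv W z)
      (-2 * W y + -(2 * y) * deriv W y + (-(2 * y) * deriv W y + (1 - y ^ 2) * deriv (deriv W) y)) y := by
    have h1 : HasDerivAt (fun z : ℝ => -(2 * z)) (-2) y := by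
      have := ((hasDerivAt_id y).const_mul (-2))
      simp only [mul_one] at this
      refine this.congr_of_eventuallyEq (Eventually.of_forall fun z => ?_)
      simp
    exact (h1.mul (cl_hd1 hW y)).add ((cl_hdX y).mul (cl_hd2 hW y))
  have h2y : HasDerivAt (fun z : ℝ => 2 * z) 2 y := by
    have := (hasDerivAt_id y).const_mul 2
    simpa using this
  have dRA : deriv (clRA A1 W kA) y = deriv kA y
      - (deriv W y * ((1 - y ^ 2) * deriv A1 y + 2 * y)
          + W y * (-(2 * y) * deriv A1 y + (1 - y ^ 2) * deriv (deriv A1) y + 2))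
      - 2 * (-2 * W y + -(2 * y) * deriv W y + (-(2 * y) * deriv W y + (1 - y ^ 2) * deriv (deriv W) y)) := by
    have e : clRA A1 W kA = fun y => kA y - W y * ((1 - y ^ 2) * deriv A1 y + 2 * y)
        - 2 * (-(2 * y) * W y + (1 - y ^ 2) * deriv W y) := by
      funext z
      unfold clRA
      rw [hXW]
    rw [e]
    exact (((cl_hd1 hkA y).sub ((cl_hd1 hW y).mul (((cl_hdX y).mul (cl_hd2 hA1 y)).add h2y))).sub
      (dXW.const_mul 2)).deriv
  have dRB : deriv (clRB h2 W kB) y = deriv kB y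
      - (deriv W y * ((1 - y ^ 2) * deriv h2 y - 2 * y)
          + W y * (-(2 * y) * deriv h2 y + (1 - y ^ 2) * deriv (deriv h2) y - 2)) := by
    exact ((cl_hd1 hkB y).sub ((cl_hd1 hW y).mul (((cl_hdX y).mul (cl_hd2 hh2 y)).sub h2y))).deriv
  have dRC : deriv (clRC C1 W kC) y = deriv kC y
      - ((-(2 * y) * W y + (1 - y ^ 2) * deriv W y) * deriv C1 y
          + (1 - y ^ 2) * W y * deriv (deriv C1) y) := by
    exact ((cl_hd1 hkC y).sub (((cl_hdX y).mul (cl_hd1 hW y)).mul (cl_hd2 hC1 y))).deriv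
  have vRA : clRA A1 W kA y = kA y - W y * ((1 - y ^ 2) * deriv A1 y + 2 * y)
        - 2 * (-(2 * y) * W y + (1 - y ^ 2) * deriv W y) := by
    unfold clRA
    rw [hXW]
  rw [dRA, dRB, dRC, vRA] at hB
  rw [vRA] at hRA
  rw [(cl_deriv2_om hA1 hW y).deriv, cl_deriv_om hA1 hW]
  unfold clRB clRC at hB
  unfold clC clG clK clOm
  beta_reduce
  have hE : Real.exp (A1 y) = Real.exp (A1 y / 2) ^ 2 := by
    rw [← Real.exp_nat_mul]
    congr 1
    push_cast
    ring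
  rw [hE] at hRA ⊢
  have hkB' : kB y = kA y - (1 - y ^ 2) * kb y := by linarith
  rw [hkB'] at hB
  clear dRA dRB dRC vRA dXW hXW hE hkB' hkb
  generalize Real.exp (A1 y / 2) = E at *
  generalize deriv (deriv A1) y = A1pp at *
  generalize deriv A1 y = A1p at *
  generalize deriv (deriv h2) y = h2pp at *
  generalize deriv h2 y = h2p at *
  generalize deriv (deriv C1) y = C1pp at *
  generalize deriv C1 y = C1p at *
  generalize deriv (deriv W) y = Wpp at *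
  generalize deriv W y = Wp at *
  generalize W y = W0 at *
  generalize deriv kA y = kAp at *
  generalize deriv kB y = kBp at *
  generalize deriv kC y = kCp at *
  generalize kA y = kA0 at *
  generalize kC y = kC0 at *
  generalize kb y = kb0 at *
  field_simp at hB hRA
  have key : (1 - y ^ 2) * ((1 - y ^ 2) * ((E * (A1p / 2) * (A1p / 2) + E * (A1pp / 2)) * W0 + E * (A1p / 2) * Wp + (E * (A1p / 2) * Wp + E * Wpp)) -
        ((q + 3) * y - (1 - y ^ 2) * (-A1p / 2 + q / 2 * h2p + C1p + E ^ 2 * W0)) *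
          (E * (A1p / 2) * W0 + E * Wp) -
      (1 + y * (-A1p / 2 + q / 2 * h2p + C1p + E ^ 2 * W0) + q / 4 * (1 - y ^ 2) * h2p ^ 2 - q * y * h2p + (1 - y ^ 2) * C1p ^ 2 / 2 +
          E ^ 2 * kA0 / 2) *
        (E * W0) -
    E * (kAp / 2 - q / 2 * kBp - kCp + q / 2 * ((1 - y ^ 2) * h2p - 2 * y) * kb0 + C1p * (kA0 - kC0))) = 0 := by
    linear_combination (-(E / 2)) * hB + (-(E * W0 / 4)) * hRA
  have := (mul_eq_zero.1 key).resolve_left hy
  linarith

/-- the first order equation for `P = X om'`. -/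
theorem cl_ode_P (q : ℝ) (A1 h2 C1 W kA kB kC kb : ℝ → ℝ) (hA1 : ContDiff ℝ ∞ A1) (hW : ContDiff ℝ ∞ W) (y : ℝ)
    (hode : (1 - y ^ 2) * deriv (deriv (clOm A1 W)) y
        - ((q + 3) * y - (1 - y ^ 2) * clG q A1 h2 C1 W y) * deriv (clOm A1 W) y
        - clC q A1 h2 C1 W kA y * clOm A1 W y
      = Real.exp (A1 y / 2) * clK q h2 C1 kA kB kC kb y) :
    (1 - y ^ 2) * deriv (fun z => (1 - z ^ 2) * deriv (clOm A1 W) z) y
        - ((q + 1) * y - (1 - y ^ 2) * clG q A1 h2 C1 W y) * ((1 - y ^ 2) * deriv (clOm A1 W) y)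
      = (1 - y ^ 2) * (clC q A1 h2 C1 W kA y * clOm A1 W y
          + Real.exp (A1 y / 2) * clK q h2 C1 kA kB kC kb y) := by
  have h2' := (cl_deriv2_om hA1 hW y)
  have h3 : deriv (fun z => (1 - z ^ 2) * deriv (clOm A1 W) z) y
      = -(2 * y) * deriv (clOm A1 W) y + (1 - y ^ 2) * deriv (deriv (clOm A1 W)) y := by
    have := (cl_hdX y).mul h2'
    rw [← h2'.deriv] at this
    exact this.deriv
  rw [h3]
  linear_combination (1 - y ^ 2) * hode

end Claimed.Agent.R324.Core
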