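/-
Row 324 (S0582), PDE core, module CL (a posteriori bounds, barrier for the scalar curvature).   Architect: helper325.
Blueprint: origin/helper325:docs/R324_CL.md.

Definitions of the module.   Notation at a fixed time `t < 0`:   `X = 1 - y²`,  `ℓ² = ell2 q t`,  `ϱ² = ℓ² + X`,  `s = X/ϱ²`,
   `σ = s^{1/4} = clSg ℓ² y`,   `ϖ₀ = ϱ^{-1/2} = clV0 ℓ² y`      (both EVEN in `y`: the two poles are treated in the same way).
Metric  `e^{A₁} dy²/X + e^{h₂} X g_{S^q} + e^{C₁} g_{S²}`,   `A₁ = h₁ + a`, `a = log (1 + X B) = - log Z`,  `C₁ = w + h₃`;   total gauge field `X 𝒲 ∂_y`, `𝒲 = mW q g U`.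
-/
import Claimed.Agent.R324.Core.Bgd
import Claimed.Agent.R324.Core.CL.OdeOmega
import Claimed.Agent.R324.Core.CL.Barrier

set_option autoImplicit false

namespace Claimed.Agent.R324.Core

open Set Filter Topology MeasureTheory
open scoped ContDiff

noncomputable section

/-- `A₁ = h₁ + log (1 + X B)`. -/
def A1F (q : ℝ) (g : Bg) (U : Tri) : Fn := fun p => h1F q U p + Real.log (1 + Xf p.2 * g.B p)

/-- `C₁ = w + h₃`. -/
def C1F (g : Bg) (U : Tri) : Fn := fun p => g.w p + U 1 p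

/-- `kA = ∂_t A₁`. -/
def kAF (q : ℝ) (g : Bg) (U : Tri) : Fn := dT (A1F q g U)

/-- `kB = ∂_t h₂`. -/
def kBF (q : ℝ) (U : Tri) : Fn := dT (h2F q U)

/-- `kC = ∂_t C₁`. -/
def kCF (g : Bg) (U : Tri) : Fn := dT (C1F g U)

/-- `kb = (kA - kB)/X = ∂_t b + Z ∂_t B`. -/
def kbF (g : Bg) (U : Tri) : Fn := fun p => dT (U 2) p + g.Z p * dT g.B p

/-- smooth representative of `rfA` (`-2 Ric` in the radial direction). -/
def rAF (q : ℝ) (g : Bg) (U : Tri) : Fn := fun p =>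
  clRA (sl (A1F q g U) p.1) (sl (mW q g U) p.1) (sl (kAF q g U) p.1) p.2

/-- smooth representative of `rfB`. -/
def rBF (q : ℝ) (g : Bg) (U : Tri) : Fn := fun p =>
  clRB (sl (h2F q U) p.1) (sl (mW q g U) p.1) (sl (kBF q U) p.1) p.2

/-- smooth representative of `rfC`. -/
def rCF (q : ℝ) (g : Bg) (U : Tri) : Fn := fun p =>
  clRC (sl (C1F g U) p.1) (sl (mW q g U) p.1) (sl (kCF g U) p.1) p.2

/-- smooth representative of the scalar curvature. -/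
def scF (q : ℝ) (g : Bg) (U : Tri) : Fn := fun p =>
  -(rAF q g U p + q * rBF q g U p + 2 * rCF q g U p) / 2

/-- `|ρ|² = rA² + q rB² + 2 rC² = 4 |Ric|²`. -/
def ricF (q : ℝ) (g : Bg) (U : Tri) : Fn := fun p =>
  (rAF q g U p) ^ 2 + q * (rBF q g U p) ^ 2 + 2 * (rCF q g U p) ^ 2

/-- the drift of the scalar heat operator in the gauge of `RedGF`. -/
def drF (q : ℝ) (g : Bg) (U : Tri) : Fn := fun p =>
  -p.2 * g.Z p * (e1F q U p + q * e2F q U p) - Xf p.2 * g.Z p * e1F q U p * g.ap p / 2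
    + Xf p.2 * g.Z p * g.wp p * e3F U p + Xf p.2 * g.W p

/-- `om = e^{A₁/2} 𝒲`. -/
def omF (q : ℝ) (g : Bg) (U : Tri) : Fn := fun p => clOm (sl (A1F q g U) p.1) (sl (mW q g U) p.1) p.2

/-- **the pointwise bounds delivered by the dynamical part (C1) to the static part (C2-C4)**, on `[t₁,0) × [-1,1]`.
`u = (σ, h₃, β)`, `β = X b`. -/
structure CLPt (q : ℝ) (U : Tri) (t₁ ε N : ℝ) : Prop where
  u0 : ∀ t ∈ Ico t₁ 0, ∀ y ∈ Icc (-1 : ℝ) 1, |U 0 (t, y)| ≤ ε ∧ |U 1 (t, y)| ≤ ε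
  u1 : ∀ t ∈ Ico t₁ 0, ∀ y ∈ Icc (-1 : ℝ) 1,
    |Xf y * U 2 (t, y)| ≤ ε * clSg (ell2 q t) y ∧ |tt (sl (U 0) t) y| ≤ ε * clSg (ell2 q t) y ∧
    |tt (sl (U 1) t) y| ≤ ε * clSg (ell2 q t) y ∧
    |tt (fun z => Xf z * U 2 (t, z)) y| ≤ ε * clSg (ell2 q t) y
  k0 : ∀ t ∈ Ico t₁ 0, ∀ y ∈ Icc (-1 : ℝ) 1,
    |dT (U 0) (t, y)| ≤ N * clV0 (ell2 q t) y ∧ |dT (U 1) (t, y)| ≤ N * clV0 (ell2 q t) y
  k1 : ∀ t ∈ Ico t₁ 0, ∀ y ∈ Icc (-1 : ℝ) 1,
    |Xf y * dT (U 2) (t, y)| ≤ N * clV0 (ell2 q t) y * clSg (ell2 q t) y ∧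
    |tt (sl (dT (U 0)) t) y| ≤ N * clV0 (ell2 q t) y * clSg (ell2 q t) y ∧
    |tt (sl (dT (U 1)) t) y| ≤ N * clV0 (ell2 q t) y * clSg (ell2 q t) y ∧
    |tt (fun z => Xf z * dT (U 2) (t, z)) y| ≤ N * clV0 (ell2 q t) y * clSg (ell2 q t) y

-- `BgCL` (A11) now lives in Core/Bgd.lean (field `BgGood.cl`).

/-- hygiene. -/
theorem core_cldefs_hygiene : True := by
  have := @A1F.eq_1
  have := @C1F.eq_1
  have := @kAF.eq_1
  have := @kBF.eq_1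
  have := @kCF.eq_1
  have := @kbF.eq_1
  have := @rAF.eq_1
  have := @rBF.eq_1
  have := @rCF.eq_1
  have := @scF.eq_1
  have := @ricF.eq_1
  have := @drF.eq_1
  have := @omF.eq_1
  trivial

end

end Claimed.Agent.R324.Core
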