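/-
Row 324 (S0582), PDE core, module CL, leaf CL.Repr part b (helper373): the logarithms of the metric coefficients, `kA - kB = X kb`, curvature through the flow, `kPsi`.
Everything is proved here under the names `cl_b_*`; `Core/CL/Repr.lean` only quotes these lemmas.
-/
import Claimed.Agent.R324.Core.CL.Defs
import Claimed.Agent.R324.Core.PR.Jet1

set_option autoImplicit false

namespace Claimed.Agent.R324.Core

open Set Filter Topology MeasureTheory
open scoped ContDiff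

theorem cl_b_sm_A1F (q : ℝ) {g : Bg} (hg : BgSm g) {U : Tri} (hU : ∀ j, Sm (U j)) : Sm (A1F q g U) :=
  (sm_h1F q hU).add (hg.smden.log hg.den_ne)

theorem cl_b_sm_C1F {g : Bg} (hg : BgSm g) {U : Tri} (hU : ∀ j, Sm (U j)) : Sm (C1F g U) :=
  hg.smw.add (hU 1)

theorem cl_b_X_pos {y : ℝ} (hy : y ∈ Ioo (-1 : ℝ) 1) : 0 < 1 - y ^ 2 := by
  nlinarith [hy.1, hy.2]

theorem cl_b_la (q : ℝ) (hq : 0 < q) (g : Bg) (hg : BgSm g) (U : Tri) (t y : ℝ) (ht : t < 0)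
    (hy : y ∈ Ioo (-1 : ℝ) 1) :
    laOf (mA q U) (mB q g U) t y = A1F q g U (t, y) - Real.log (1 - y ^ 2) := by
  have hX := cl_b_X_pos hy
  have hpos := hg.pos t ht y
  have h2 : mA q U (t, y) + (1 - y ^ 2) * mB q g U (t, y)
      = Real.exp (h1F q U (t, y)) * (1 + Xf y * g.B (t, y)) :=
    mA_add_X_mB (q := q) (ne_of_gt (by linarith)) g U (t, y)
  unfold laOf A1F
  rw [h2, Real.log_div (mul_ne_zero (Real.exp_ne_zero _) hpos.ne') hX.ne',
    Real.log_mul (Real.exp_ne_zero _) hpos.ne', Real.log_exp]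

theorem cl_b_lb (q : ℝ) (U : Tri) (t y : ℝ) (hy : y ∈ Ioo (-1 : ℝ) 1) :
    lbOf (mA q U) t y = h2F q U (t, y) + Real.log (1 - y ^ 2) := by
  have hX := cl_b_X_pos hy
  unfold lbOf mA
  rw [Real.log_mul (Real.exp_ne_zero _) hX.ne', Real.log_exp]

theorem cl_b_lc (g : Bg) (U : Tri) (t y : ℝ) : lcOf (mC g U) t y = C1F g U (t, y) := by
  unfold lcOf mC C1F
  rw [Real.log_exp]

theorem cl_b_kA_sub_kB (q : ℝ) (hq : 0 < q) (g : Bg) (hg : BgSm g) (U : Tri) (hU : ∀ j, Sm (U j)) (t y : ℝ)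
    (ht : t < 0) : kAF q g U (t, y) - kBF q U (t, y) = (1 - y ^ 2) * kbF g U (t, y) := by
  have e1 : dT (A1F q g U) (t, y)
      = dT (h1F q U) (t, y) + dT (fun p => Real.log (1 + Xf p.2 * g.B p)) (t, y) :=
    dT_add (sm_h1F q hU) (hg.smden.log hg.den_ne) ht y
  have hq1 : q + 1 ≠ 0 := ne_of_gt (by linarith)
  unfold kAF kBF kbF
  rw [e1, dT_h1F q hU ht y, dT_h2F q hU ht y, hg.dT_log_den ht y]
  unfold Xf
  field_simp
  ring

theorem cl_b_hasDerivAt_logX {y : ℝ} (hy : y ∈ Ioo (-1 : ℝ) 1) :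
    HasDerivAt (fun z : ℝ => Real.log (1 - z ^ 2)) (-2 * y / (1 - y ^ 2)) y := by
  have h := (hasDerivAt_Xf y).log (cl_b_X_pos hy).ne'
  exact h

/-- time derivatives of the logarithms. -/
theorem cl_b_dt (q : ℝ) (hq : 0 < q) (g : Bg) (hg : BgSm g) (U : Tri) (t y : ℝ) (ht : t < 0)
    (hy : y ∈ Ioo (-1 : ℝ) 1) :
    deriv (fun s => laOf (mA q U) (mB q g U) s y) t = kAF q g U (t, y) ∧
    deriv (fun s => lbOf (mA q U) s y) t = kBF q U (t, y) ∧
    deriv (fun s => lcOf (mC g U) s y) t = kCF g U (t, y) := by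
  refine ⟨?_, ?_, ?_⟩
  · have ev : (fun s => laOf (mA q U) (mB q g U) s y) =ᶠ[𝓝 t]
        (fun s => A1F q g U (s, y) - Real.log (1 - y ^ 2)) := by
      filter_upwards [Iio_mem_nhds ht] with s hs
      exact cl_b_la q hq g hg U s y hs hy
    rw [ev.deriv_eq, deriv_sub_const]
    rfl
  · have ev : (fun s => lbOf (mA q U) s y) = (fun s => h2F q U (s, y) + Real.log (1 - y ^ 2)) := by
      funext s
      exact cl_b_lb q U s y hy
    rw [ev, deriv_add_const]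
    rfl
  · have ev : (fun s => lcOf (mC g U) s y) = (fun s => C1F g U (s, y)) := by
      funext s
      exact cl_b_lc g U s y
    rw [ev]
    rfl

/-- space derivatives of the logarithms. -/
theorem cl_b_dy (q : ℝ) (hq : 0 < q) (g : Bg) (hg : BgSm g) (U : Tri) (hU : ∀ j, Sm (U j)) (t y : ℝ) (ht : t < 0)
    (hy : y ∈ Ioo (-1 : ℝ) 1) :
    deriv (laOf (mA q U) (mB q g U) t) y = dY (A1F q g U) (t, y) + 2 * y / (1 - y ^ 2) ∧
    deriv (lbOf (mA q U) t) y = dY (h2F q U) (t, y) - 2 * y / (1 - y ^ 2) ∧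
    deriv (lcOf (mC g U) t) y = dY (C1F g U) (t, y) := by
  have hl := cl_b_hasDerivAt_logX hy
  refine ⟨?_, ?_, ?_⟩
  · have ev : laOf (mA q U) (mB q g U) t =ᶠ[𝓝 y] (fun z => A1F q g U (t, z) - Real.log (1 - z ^ 2)) := by
      filter_upwards [Ioo_mem_nhds hy.1 hy.2] with z hz
      exact cl_b_la q hq g hg U t z ht hz
    have hd : HasDerivAt (fun z => A1F q g U (t, z) - Real.log (1 - z ^ 2))
        (dY (A1F q g U) (t, y) - -2 * y / (1 - y ^ 2)) y := ((cl_b_sm_A1F q hg hU).hasDerivAt_y ht y).sub hl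
    rw [ev.deriv_eq, hd.deriv]
    ring
  · have ev : lbOf (mA q U) t =ᶠ[𝓝 y] (fun z => h2F q U (t, z) + Real.log (1 - z ^ 2)) := by
      filter_upwards [Ioo_mem_nhds hy.1 hy.2] with z hz
      exact cl_b_lb q U t z hz
    have hd : HasDerivAt (fun z => h2F q U (t, z) + Real.log (1 - z ^ 2))
        (dY (h2F q U) (t, y) + -2 * y / (1 - y ^ 2)) y := ((sm_h2F q hU).hasDerivAt_y ht y).add hl
    rw [ev.deriv_eq, hd.deriv]
    ring
  · have ev : lcOf (mC g U) t = (fun z => C1F g U (t, z)) := by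
      funext z
      exact cl_b_lc g U t z
    rw [ev]
    rfl

theorem cl_b_repr (q : ℕ) (hq : 1 ≤ q) (g : Bg) (hg : BgSm g) (U : Tri) (hU : ∀ j, Sm (U j)) (t₀ : ℝ)
    (h : RedGF q t₀ 0 (mA q U) (mB q g U) (mC g U) (mW q g U)) :
    ∀ t ∈ Ioo t₀ 0, ∀ y ∈ Ioo (-1 : ℝ) 1,
      rfA q (laOf (mA q U) (mB q g U) t) (lbOf (mA q U) t) (lcOf (mC g U) t) y = rAF q g U (t, y) ∧
      rfB q (laOf (mA q U) (mB q g U) t) (lbOf (mA q U) t) (lcOf (mC g U) t) y = rBF q g U (t, y) ∧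
      rfC q (laOf (mA q U) (mB q g U) t) (lbOf (mA q U) t) (lcOf (mC g U) t) y = rCF q g U (t, y) ∧
      scalRed q (laOf (mA q U) (mB q g U) t) (lbOf (mA q U) t) (lcOf (mC g U) t) y = scF q g U (t, y) := by
  intro t ht y hy
  have hq0 : (0 : ℝ) < q := by exact_mod_cast hq
  have hX := cl_b_X_pos hy
  obtain ⟨ta, tb, tc⟩ := cl_b_dt q hq0 g hg U t y ht.2 hy
  obtain ⟨ya, yb, yc⟩ := cl_b_dy q hq0 g hg U hU t y ht.2 hy
  have fa := h.flowA t ht y hy
  have fb := h.flowB t ht y hy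
  have fc := h.flowC t ht y hy
  rw [ta, ya] at fa
  rw [tb, yb] at fb
  rw [tc, yc] at fc
  have ra : rfA q (laOf (mA q U) (mB q g U) t) (lbOf (mA q U) t) (lcOf (mC g U) t) y = rAF q g U (t, y) := by
    have e : rAF q g U (t, y) = kAF q g U (t, y) - mW q g U (t, y) * ((1 - y ^ 2) * dY (A1F q g U) (t, y) + 2 * y)
        - 2 * deriv (fun z => (1 - z ^ 2) * mW q g U (t, z)) y := rfl
    rw [e, fa]
    field_simp
    ring
  have rb : rfB q (laOf (mA q U) (mB q g U) t) (lbOf (mA q U) t) (lcOf (mC g U) t) y = rBF q g U (t, y) := by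
    have e : rBF q g U (t, y) = kBF q U (t, y) - mW q g U (t, y) * ((1 - y ^ 2) * dY (h2F q U) (t, y) - 2 * y) := rfl
    rw [e, fb]
    field_simp
    ring
  have rc : rfC q (laOf (mA q U) (mB q g U) t) (lbOf (mA q U) t) (lcOf (mC g U) t) y = rCF q g U (t, y) := by
    have e : rCF q g U (t, y) = kCF g U (t, y) - (1 - y ^ 2) * mW q g U (t, y) * dY (C1F g U) (t, y) := rfl
    rw [e, fc]
    ring
  refine ⟨ra, rb, rc, ?_⟩
  unfold scalRed scF
  rw [ra, rb, rc]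

theorem cl_b_kPsi (q : ℝ) (hq : 0 < q) (g : Bg) (hg : BgSm g) (U : Tri) (hU : ∀ j, Sm (U j)) (t y : ℝ) (ht : t < 0)
    (hy : y ∈ Ioo (-1 : ℝ) 1) :
    kPsi (laOf (mA q U) (mB q g U) t) (lcOf (mC g U) t) y
      = Real.exp (-C1F g U (t, y)) - (1 - y ^ 2) * Real.exp (-A1F q g U (t, y)) * (dY (C1F g U) (t, y)) ^ 2 / 4 := by
  have hX := cl_b_X_pos hy
  obtain ⟨-, -, yc⟩ := cl_b_dy q hq g hg U hU t y ht hy
  unfold kPsi
  rw [yc, cl_b_lc, cl_b_la q hq g hg U t y ht hy]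
  have e : Real.exp (-(A1F q g U (t, y) - Real.log (1 - y ^ 2))) = (1 - y ^ 2) * Real.exp (-A1F q g U (t, y)) := by
    rw [neg_sub, sub_eq_add_neg, Real.exp_add, Real.exp_log hX]
  rw [e]

end Claimed.Agent.R324.Core
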