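/-
Row 324 (S0582), PDE core, module CL.   Architect: helper325.   Blueprint: origin/helper325:docs/R324_CL.md, section C2.

Leaf CL.Repr: smoothness of the functions of CL/Defs.lean, and "curvature through the flow" (= PR7 of origin/helper232:docs/R324_blueprint.md).

SMOOTHNESS.  `Sm f` = `ContDiffOn ℝ ∞ f (Iio 0 ×ˢ univ)`.  The set is open; `dT`, `dY` of `Sm` functions are `Sm`, slices `sl f t` (`t < 0`) are `ContDiff ℝ ∞`
(module PR, PR2: Claimed/Agent/R324/Core/PR/*.lean if already on main; the same lemmas for the same class `Sm` are in the R325 packs, search `StripPartial`, `StripSmooth`).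
`1 + X B > 0` everywhere (`BgSm.pos`), so `log (1 + X B)`, `Z = 1/(1+XB)` are `Sm`.   `Ph1` is `ContDiff ℝ ∞` (parametric integral; PR1).
`rAF` etc.:  unfold `clRA`, `sl`:  `deriv (sl f t) y = dY f (t,y)` by definition, `deriv (fun z => (1 - z^2) * sl W t z) y = dY (fun p => Xf p.2 * W p) (t,y)`.

REPRESENTATION.   `mA + X mB = e^{h₂} (1 + X b Φ₁(-X b) + e^{X b} X B) = e^{h₂ + X b} (1 + X B) = e^{A₁}`   (`s Φ₁(-s) = e^{s} - 1`), hence for `-1 < y < 1`, `t < 0`: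
      laOf mA mB t y = A₁ - log X,      lbOf mA t y = h₂ + log X,      lcOf mC t y = C₁,
 so  ∂_t la = kA,  ∂_t lb = kB,  ∂_t lc = kC,   ∂_y la = A₁' + 2y/X,   ∂_y lb = h₂' - 2y/X,   ∂_y lc = C₁'.     Insert into `RedGF.flowA/B/C`:
      rfA = kA - X 𝒲 (A₁' + 2y/X) - 2 (X 𝒲)' = clRA ..,     rfB = kB - X 𝒲 (h₂' - 2y/X) = clRB ..,     rfC = kC - X 𝒲 C₁' = clRC ...
 `kA - kB = ∂_t (h₁ - h₂) + ∂_t log (1 + X B) = X ∂_t b + X Z ∂_t B`.
 `kPsi la lc y = e^{-C₁} - e^{-la} C₁'²/4`,  `e^{-la} = X e^{-A₁} = X Z e₁`.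
-/
import Claimed.Agent.R324.Core.CL.Defs
import Claimed.Agent.R324.Core.CL.ReprB

set_option autoImplicit false

namespace Claimed.Agent.R324.Core

open Set Filter Topology MeasureTheory
open scoped ContDiff

/-- slices of `Sm` functions. -/
theorem cl_sl_contDiff (f : Fn) (hf : Sm f) (t : ℝ) (ht : t < 0) : ContDiff ℝ ∞ (sl f t) := by
  exact hf.sl ht

theorem cl_sm_all (q : ℝ) (hq : 0 < q) (g : Bg) (hg : BgSm g) (U : Tri) (hU : ∀ j, Sm (U j)) :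
    Sm (A1F q g U) ∧ Sm (C1F g U) ∧ Sm (h1F q U) ∧ Sm (h2F q U) ∧ Sm (kAF q g U) ∧ Sm (kBF q U) ∧ Sm (kCF g U)
      ∧ Sm (kbF g U) ∧ Sm (mW q g U) ∧ Sm (omF q g U) ∧ Sm (drF q g U) := by
  have hA : Sm (A1F q g U) := cl_b_sm_A1F q hg hU
  have hC : Sm (C1F g U) := cl_b_sm_C1F hg hU
  have hW : Sm (mW q g U) := sm_mW q hg hU
  have hZ : Sm g.Z := hg.smZ
  have he1 : Sm (e1F q U) := sm_e1F q hU
  have he2 : Sm (e2F q U) := sm_e2F q hU
  have he3 : Sm (e3F U) := sm_e3F hU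
  refine ⟨hA, hC, sm_h1F q hU, sm_h2F q hU, hA.dT, (sm_h2F q hU).dT, hC.dT,
    (hU 2).dT.add (hZ.mul hg.smB.dT), hW, ?_, ?_⟩
  · exact (hA.div_const 2).exp.mul hW
  · exact (((((sm_snd.neg).mul hZ).mul (he1.add (he2.const_mul q))).sub
      ((((sm_Xf.mul hZ).mul he1).mul hg.smap).div_const 2)).add
      (((sm_Xf.mul hZ).mul hg.smwp).mul he3)).add (sm_Xf.mul hg.smW)

theorem cl_sm_ric (q : ℝ) (hq : 0 < q) (g : Bg) (hg : BgSm g) (U : Tri) (hU : ∀ j, Sm (U j)) :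
    Sm (rAF q g U) ∧ Sm (rBF q g U) ∧ Sm (rCF q g U) ∧ Sm (scF q g U) ∧ Sm (ricF q g U) := by
  have hA : Sm (A1F q g U) := cl_b_sm_A1F q hg hU
  have hC : Sm (C1F g U) := cl_b_sm_C1F hg hU
  have hh : Sm (h2F q U) := sm_h2F q hU
  have hW : Sm (mW q g U) := sm_mW q hg hU
  have hrA : Sm (rAF q g U) :=
    ((hA.dT).sub (hW.mul ((sm_Xf.mul hA.dY).add (sm_snd.const_mul 2)))).sub
      ((sm_Xf.mul hW).dY.const_mul 2)
  have hrB : Sm (rBF q g U) :=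
    (hh.dT).sub (hW.mul ((sm_Xf.mul hh.dY).sub (sm_snd.const_mul 2)))
  have hrC : Sm (rCF q g U) := (hC.dT).sub ((sm_Xf.mul hW).mul hC.dY)
  refine ⟨hrA, hrB, hrC, ?_, ?_⟩
  · exact (((hrA.add (hrB.const_mul q)).add (hrC.const_mul 2)).neg).div_const 2
  · exact ((hrA.pow 2).add ((hrB.pow 2).const_mul q)).add ((hrC.pow 2).const_mul 2)

/-- the logarithms of the metric coefficients. -/
theorem cl_log_metric (q : ℝ) (hq : 0 < q) (g : Bg) (hg : BgSm g) (U : Tri) (t y : ℝ) (ht : t < 0)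
    (hy : y ∈ Ioo (-1 : ℝ) 1) :
    laOf (mA q U) (mB q g U) t y = A1F q g U (t, y) - Real.log (1 - y ^ 2) ∧
    lbOf (mA q U) t y = h2F q U (t, y) + Real.log (1 - y ^ 2) ∧
    lcOf (mC g U) t y = C1F g U (t, y) := by
  exact ⟨cl_b_la q hq g hg U t y ht hy, cl_b_lb q U t y hy, cl_b_lc g U t y⟩

/-- `kA - kB = X kb`. -/
theorem cl_kA_sub_kB (q : ℝ) (hq : 0 < q) (g : Bg) (hg : BgSm g) (U : Tri) (hU : ∀ j, Sm (U j)) (t y : ℝ)
    (ht : t < 0) : kAF q g U (t, y) - kBF q U (t, y) = (1 - y ^ 2) * kbF g U (t, y) := by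
  exact cl_b_kA_sub_kB q hq g hg U hU t y ht

/-- curvature through the flow. -/
theorem cl_repr (q : ℕ) (hq : 1 ≤ q) (g : Bg) (hg : BgSm g) (U : Tri) (hU : ∀ j, Sm (U j)) (t₀ : ℝ)
    (h : RedGF q t₀ 0 (mA q U) (mB q g U) (mC g U) (mW q g U)) :
    ∀ t ∈ Ioo t₀ 0, ∀ y ∈ Ioo (-1 : ℝ) 1,
      rfA q (laOf (mA q U) (mB q g U) t) (lbOf (mA q U) t) (lcOf (mC g U) t) y = rAF q g U (t, y) ∧
      rfB q (laOf (mA q U) (mB q g U) t) (lbOf (mA q U) t) (lcOf (mC g U) t) y = rBF q g U (t, y) ∧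
      rfC q (laOf (mA q U) (mB q g U) t) (lbOf (mA q U) t) (lcOf (mC g U) t) y = rCF q g U (t, y) ∧
      scalRed q (laOf (mA q U) (mB q g U) t) (lbOf (mA q U) t) (lcOf (mC g U) t) y = scF q g U (t, y) := by
  exact cl_b_repr q hq g hg U hU t₀ h

/-- the curvature of the `S²` fibres. -/
theorem cl_kPsi (q : ℝ) (hq : 0 < q) (g : Bg) (hg : BgSm g) (U : Tri) (hU : ∀ j, Sm (U j)) (t y : ℝ) (ht : t < 0)
    (hy : y ∈ Ioo (-1 : ℝ) 1) :
    kPsi (laOf (mA q U) (mB q g U) t) (lcOf (mC g U) t) y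
      = Real.exp (-C1F g U (t, y)) - (1 - y ^ 2) * Real.exp (-A1F q g U (t, y)) * (dY (C1F g U) (t, y)) ^ 2 / 4 := by
  exact cl_b_kPsi q hq g hg U hU t y ht hy

end Claimed.Agent.R324.Core
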