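/-
Row 324 (S0582), PDE core, module CL.   Architect: helper325.   Blueprint: origin/helper325:docs/R324_CL.md, section C4.

Leaf CL.Blow: the curvature of the `S²` fibres blows up.
PROOF.  By `cl_kPsi`, for `t < 0`, `|y| < 1`:  `kPsi (la t) (lc t) y = κ(t,y) := e^{-C₁} - X e^{-A₁} C₁'²/4`;  `κ(t,·)` is continuous on `ℝ` (`cl_sm_all`, `cl_sl_contDiff`), and
    κ(t,1) = e^{-w(t,1) - U₁(t,1)} = (-t)^{-2γ} e^{-U₁(t,1)} ≥ (-t)^{-2γ} e^{-ε}          (`BgGood.tip`: `w(t,1) = 2 γ log (-t)`;  `CLPt.u0`),      γ = gaF q = 8/bAl q > 0  (R324/Bohm/Alpha.lean).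
 By continuity there is `y ∈ (-1,1)` with `κ(t,y) ≥ κ(t,1)/2 > 0`, so `κ(t,y)² ≥ (-t)^{-4γ} e^{-2ε}/4`, which is `> K` as soon as `-t < δ`, `δ` small (`(-t)^{-4γ} → ∞`;  e.g. for `-t ≤ 1`: `(-t)^{-4γ} ≥ ...`
 use `Real.rpow_lt_rpow_of_neg`/`Real.rpow_le_rpow_of_exponent_...` or `tendsto_rpow_neg_nhdsGT_zero`), and `δ ≤ -t₁`.
-/
import Claimed.Agent.R324.Core.CL.Repr
import Claimed.Agent.R324.Bohm.Alpha

set_option autoImplicit false

namespace Claimed.Agent.R324.Core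

open Set Filter Topology MeasureTheory
open scoped ContDiff

theorem cl_curv_blow (q : ℕ) (hq6 : 10 ^ 6 ≤ q) (g : Bg) (hg : BgGood q g) (U : Tri)
    (hU : ∀ j, Sm (U j)) (t₀ t₁ ε N : ℝ) (ht₁ : t₁ < 0) (hpt : CLPt q U t₁ ε N) :
    CurvBlow t₀ 0 (mA q U) (mB q g U) (mC g U) := by
  intro K
  have hq100 : (100 : ℝ) ≤ (q : ℝ) := by
    have : ((10 ^ 6 : ℕ) : ℝ) ≤ (q : ℝ) := by exact_mod_cast hq6
    push_cast at this
    linarith
  have hq0 : (0 : ℝ) < (q : ℝ) := by linarith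
  have hγ : 0 < gaF (q : ℝ) := by
    unfold gaF
    have := (bAl_bounds hq100).1
    positivity
  set γ := gaF (q : ℝ) with hγdef
  set M : ℝ := 2 * Real.exp ε * (Real.sqrt |K| + 1) with hM
  have hM0 : 0 < M := by positivity
  refine ⟨min (-t₁) (M ^ (-1 / (2 * γ))), lt_min (by linarith) (Real.rpow_pos_of_pos hM0 _), ?_⟩
  intro t ht _
  have ht0 : t < 0 := ht.2
  have hs : 0 < -t := by linarith
  have ht1 : t₁ ≤ t := by
    have h1 := ht.1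
    have h2 := min_le_left (-t₁) (M ^ (-1 / (2 * γ)))
    linarith
  have hsM : -t ≤ M ^ (-1 / (2 * γ)) := by
    have h1 := ht.1
    have h2 := min_le_right (-t₁) (M ^ (-1 / (2 * γ)))
    linarith
  have hpow : M ≤ (-t) ^ (-(2 * γ)) := by
    have h1 := Real.rpow_le_rpow_of_nonpos hs hsM (by linarith : -(2 * γ) ≤ 0)
    rw [← Real.rpow_mul hM0.le, show -1 / (2 * γ) * -(2 * γ) = 1 by field_simp, Real.rpow_one] at h1
    exact h1
  obtain ⟨hA, hC, -⟩ := cl_sm_all (q : ℝ) hq0 g hg.sm U hU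
  have cA := cl_sl_contDiff _ hA t ht0
  have cC := cl_sl_contDiff _ hC t ht0
  set κ : ℝ → ℝ := fun y => Real.exp (-(sl (C1F g U) t y))
    - (1 - y ^ 2) * Real.exp (-(sl (A1F q g U) t y)) * (deriv (sl (C1F g U) t) y) ^ 2 / 4 with hκ
  have hκc : Continuous κ := by
    have c1 := cC.continuous
    have c2 := cA.continuous
    have c3 : Continuous (deriv (sl (C1F g U) t)) := cC.continuous_deriv (by simp)
    fun_prop
  have hκ1 : 2 * (Real.sqrt |K| + 1) ≤ κ 1 := by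
    have hu := ((hpt.u0 t ⟨ht1, ht0⟩ 1 ⟨by norm_num, le_rfl⟩).2)
    have hu' : U 1 (t, 1) ≤ ε := (abs_le.1 hu).2
    have e1 : κ 1 = (-t) ^ (-(2 * γ)) * Real.exp (-(U 1 (t, 1))) := by
      simp only [hκ, sl, C1F]
      rw [hg.tip t ht0, Real.rpow_def_of_pos hs, ← Real.exp_add]
      norm_num
      ring
    rw [e1]
    have e2 : Real.exp (-ε) ≤ Real.exp (-(U 1 (t, 1))) := Real.exp_le_exp.2 (by linarith)
    have e3 : M * Real.exp (-ε) ≤ (-t) ^ (-(2 * γ)) * Real.exp (-(U 1 (t, 1))) :=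
      mul_le_mul hpow e2 (Real.exp_pos _).le (hM0.le.trans hpow)
    have e4 : M * Real.exp (-ε) = 2 * (Real.sqrt |K| + 1) := by
      rw [hM, Real.exp_neg]
      have := (Real.exp_pos ε).ne'
      field_simp
    linarith
  have hsq : 0 ≤ Real.sqrt |K| := Real.sqrt_nonneg _
  have hev : ∀ᶠ y in 𝓝 (1 : ℝ), κ 1 / 2 < κ y :=
    (hκc.tendsto 1).eventually (lt_mem_nhds (by linarith))
  have hev2 : ∀ᶠ y in 𝓝[<] (1 : ℝ), κ 1 / 2 < κ y := hev.filter_mono nhdsWithin_le_nhds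
  have hev3 : ∀ᶠ y in 𝓝[<] (1 : ℝ), y ∈ Ioo (-1 : ℝ) 1 := Ioo_mem_nhdsLT (by norm_num)
  obtain ⟨y, hy1, hy2⟩ := (hev2.and hev3).exists
  refine ⟨y, hy2, ?_⟩
  rw [cl_kPsi (q : ℝ) hq0 g hg.sm U hU t y ht0 hy2]
  show K < (κ y) ^ 2
  have h1 : Real.sqrt |K| + 1 < κ y := by linarith
  have h2 : Real.sqrt |K| ^ 2 = |K| := Real.sq_sqrt (abs_nonneg K)
  have h3 := le_abs_self K
  nlinarith

end Claimed.Agent.R324.Core
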