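/-
Row 324 (S0582), PDE core, module CL.   Architect: helper325.   Blueprint: origin/helper325:docs/R324_CL.md, section C2.

Leaf CL.OdeSlice: at every time `t ∈ (t₀,0)` the slice of `om = e^{A₁/2} 𝒲` solves the static ODE of CL/OdeOmega.lean on `(-1,1)`.

PROOF.  Fix `t`.  `a := laOf mA mB t`, `β := lbOf mA t`, `γ := lcOf mC t` are smooth on `(-1,1)` (`cl_log_metric`: `A₁ - log X`, `h₂ + log X`, `C₁`; `X > 0`), so `cl_bianchi` applies at `y`.
By `cl_repr` the functions `rfA q a β γ`, `rfB ..`, `rfC ..` coincide on the OPEN interval `(-1,1)` with `clRA (sl A₁ t) (sl 𝒲 t) (sl kA t)` etc. (this is the definition of `rAF` ..), hence they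
have the same derivatives at `y` (`Filter.EventuallyEq.deriv_eq`).   `deriv β y = h₂' - 2y/X`, `deriv γ y = C₁'` (again `EventuallyEq.deriv_eq` + `cl_log_metric`).
This is hypothesis `hB` of `cl_ode_omega_fix` (the lemma `cl_ode_omega` was false and is deleted);  `hkb` is `cl_kA_sub_kB`;  smoothness of the slices: `cl_sm_all`, `cl_sl_contDiff`.
Hypothesis `hRA` of `cl_ode_omega_fix`:  by `cl_repr`, `clRA .. y = rAF (t,y) = rfA q a β γ y`;  unfold `rfA`:  `exp (-a y) = X exp (-A₁)` (as `a = A₁ - log X`), `deriv a y = A₁' + 2y/X`,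
`deriv β y = h₂' - 2y/X`, `deriv (deriv β) y = h₂'' - 2/X - 4y²/X²`, `deriv γ = C₁'`, `deriv (deriv γ) = C₁''` (all by `EventuallyEq.deriv_eq` on the open interval + `HasDerivAt` of `log (1 - y²)`); then
`exp A₁ * (X exp(-A₁) * (...)) = X * (...)` and `ring`.    `cl_P_ode`: `cl_ode_P`.
-/
import Claimed.Agent.R324.Core.CL.Repr
import Claimed.Agent.R324.Core.CL.Bianchi

set_option autoImplicit false

namespace Claimed.Agent.R324.Core

open Set Filter Topology MeasureTheory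
open scoped ContDiff

noncomputable section

/-- `𝔤` at time `t`. -/
def gS (q : ℝ) (g : Bg) (U : Tri) (t : ℝ) : ℝ → ℝ :=
  clG q (sl (A1F q g U) t) (sl (h2F q U) t) (sl (C1F g U) t) (sl (mW q g U) t)

/-- `𝔠` at time `t`. -/
def cS (q : ℝ) (g : Bg) (U : Tri) (t : ℝ) : ℝ → ℝ :=
  clC q (sl (A1F q g U) t) (sl (h2F q U) t) (sl (C1F g U) t) (sl (mW q g U) t) (sl (kAF q g U) t)

/-- the right hand side `e^{A₁/2} K` at time `t`. -/
def fS (q : ℝ) (g : Bg) (U : Tri) (t : ℝ) : ℝ → ℝ := fun y =>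
  Real.exp (A1F q g U (t, y) / 2) *
    clK q (sl (h2F q U) t) (sl (C1F g U) t) (sl (kAF q g U) t) (sl (kBF q U) t) (sl (kCF g U) t) (sl (kbF g U) t) y

/-- jets of `F + c log X` on `(-1,1)`. -/
theorem cl_slice_jets {f F : ℝ → ℝ} {c : ℝ} (hF : ContDiff ℝ ∞ F)
    (hf : ∀ z ∈ Ioo (-1 : ℝ) 1, f z = F z + c * Real.log (1 - z ^ 2)) {y : ℝ}
    (hy : y ∈ Ioo (-1 : ℝ) 1) :
    ContDiffAt ℝ 3 f y ∧ deriv f y = deriv F y + c * (-(2 * y) / (1 - y ^ 2)) ∧
      deriv (deriv f) y = deriv (deriv F) y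
        + c * ((-2 * (1 - y ^ 2) - (-(2 * y)) * (-(2 * y))) / (1 - y ^ 2) ^ 2) := by
  have hX : ∀ z ∈ Ioo (-1 : ℝ) 1, (1 - z ^ 2) ≠ 0 := fun z hz => by
    have : 0 < 1 - z ^ 2 := by nlinarith [hz.1, hz.2]
    exact this.ne'
  have hnhds : Ioo (-1 : ℝ) 1 ∈ 𝓝 y := Ioo_mem_nhds hy.1 hy.2
  have e0 : f =ᶠ[𝓝 y] fun z => F z + c * Real.log (1 - z ^ 2) := by
    filter_upwards [hnhds] with z hz using hf z hz
  have d1 : ∀ z ∈ Ioo (-1 : ℝ) 1, HasDerivAt (fun z => F z + c * Real.log (1 - z ^ 2))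
      (deriv F z + c * (-(2 * z) / (1 - z ^ 2))) z :=
    fun z hz => (cl_hd1 hF z).add (((cl_hdX z).log (hX z hz)).const_mul c)
  have e1 : deriv f =ᶠ[𝓝 y] fun z => deriv F z + c * (-(2 * z) / (1 - z ^ 2)) := by
    refine e0.deriv.trans ?_
    filter_upwards [hnhds] with z hz using (d1 z hz).deriv
  have d2 : HasDerivAt (fun z => deriv F z + c * (-(2 * z) / (1 - z ^ 2)))
      (deriv (deriv F) y
        + c * ((-2 * (1 - y ^ 2) - (-(2 * y)) * (-(2 * y))) / (1 - y ^ 2) ^ 2)) y := by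
    have h1 : HasDerivAt (fun z : ℝ => -(2 * z)) (-2) y := by
      have h0 := (hasDerivAt_id y).const_mul (-2)
      simp only [mul_one] at h0
      refine h0.congr_of_eventuallyEq (Eventually.of_forall fun z => ?_)
      simp
    exact (cl_hd2 hF y).add (((h1.div (cl_hdX y) (hX y hy))).const_mul c)
  refine ⟨?_, ?_, ?_⟩
  · refine ContDiffAt.congr_of_eventuallyEq ?_ e0
    have h3 : ContDiffAt ℝ 3 (fun z : ℝ => Real.log (1 - z ^ 2)) y :=
      (contDiffAt_const.sub (contDiffAt_id.pow 2)).log (hX y hy)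
    exact (hF.contDiffAt.of_le (WithTop.coe_le_coe.2 le_top)).add (contDiffAt_const.mul h3)
  · rw [e0.deriv_eq]
    exact (d1 y hy).deriv
  · rw [e1.deriv_eq]
    exact d2.deriv

theorem cl_omega_ode (q : ℕ) (hq : 1 ≤ q) (g : Bg) (hg : BgSm g) (U : Tri) (hU : ∀ j, Sm (U j)) (t₀ : ℝ)
    (h : RedGF q t₀ 0 (mA q U) (mB q g U) (mC g U) (mW q g U)) :
    ∀ t ∈ Ioo t₀ 0, ∀ y ∈ Ioo (-1 : ℝ) 1,
      (1 - y ^ 2) * deriv (deriv (sl (omF q g U) t)) y
        - ((q + 3) * y - (1 - y ^ 2) * gS q g U t y) * deriv (sl (omF q g U) t) y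
        - cS q g U t y * sl (omF q g U) t y = fS q g U t y := by
  intro t ht y hy
  have hq0 : (0 : ℝ) < q := by exact_mod_cast (lt_of_lt_of_le one_pos hq)
  have ht0 : t < 0 := ht.2
  obtain ⟨sA1, sC1, -, sh2, skA, skB, skC, -, sW, -, -⟩ := cl_sm_all q hq0 g hg U hU
  have cA1 := cl_sl_contDiff _ sA1 t ht0
  have cC1 := cl_sl_contDiff _ sC1 t ht0
  have ch2 := cl_sl_contDiff _ sh2 t ht0
  have ckA := cl_sl_contDiff _ skA t ht0
  have ckB := cl_sl_contDiff _ skB t ht0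
  have ckC := cl_sl_contDiff _ skC t ht0
  have cW := cl_sl_contDiff _ sW t ht0
  have hXpos : 0 < 1 - y ^ 2 := by nlinarith [hy.1, hy.2]
  have hX : 1 - y ^ 2 ≠ 0 := hXpos.ne'
  have hlog := fun z hz => cl_log_metric q hq0 g hg U t z ht0 hz
  obtain ⟨ja0, ja1, -⟩ := cl_slice_jets (f := laOf (mA q U) (mB q g U) t)
    (F := sl (A1F q g U) t) (c := -1) cA1 (fun z hz => by
      rw [(hlog z hz).1]
      show _ = A1F q g U (t, z) + _
      ring) hy
  obtain ⟨jb0, jb1, jb2⟩ := cl_slice_jets (f := lbOf (mA q U) t)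
    (F := sl (h2F q U) t) (c := 1) ch2 (fun z hz => by
      rw [(hlog z hz).2.1]
      show _ = h2F q U (t, z) + _
      ring) hy
  obtain ⟨jc0, jc1, jc2⟩ := cl_slice_jets (f := lcOf (mC g U) t)
    (F := sl (C1F g U) t) (c := 0) cC1 (fun z hz => by
      rw [(hlog z hz).2.2]
      show _ = C1F g U (t, z) + _
      ring) hy
  have hrep := cl_repr q hq g hg U hU t₀ h t ht
  have hnhds : Ioo (-1 : ℝ) 1 ∈ 𝓝 y := Ioo_mem_nhds hy.1 hy.2
  have eA : rfA q (laOf (mA q U) (mB q g U) t) (lbOf (mA q U) t) (lcOf (mC g U) t)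
      =ᶠ[𝓝 y] clRA (sl (A1F q g U) t) (sl (mW q g U) t) (sl (kAF q g U) t) := by
    filter_upwards [hnhds] with z hz using (hrep z hz).1
  have eB : rfB q (laOf (mA q U) (mB q g U) t) (lbOf (mA q U) t) (lcOf (mC g U) t)
      =ᶠ[𝓝 y] clRB (sl (h2F q U) t) (sl (mW q g U) t) (sl (kBF q U) t) := by
    filter_upwards [hnhds] with z hz using (hrep z hz).2.1
  have eC : rfC q (laOf (mA q U) (mB q g U) t) (lbOf (mA q U) t) (lcOf (mC g U) t)
      =ᶠ[𝓝 y] clRC (sl (C1F g U) t) (sl (mW q g U) t) (sl (kCF g U) t) := by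
    filter_upwards [hnhds] with z hz using (hrep z hz).2.2.1
  have hbi := cl_bianchi q _ _ _ y ja0 jb0 jc0
  rw [eA.deriv_eq, eB.deriv_eq, eC.deriv_eq, eA.eq_of_nhds, eB.eq_of_nhds, eC.eq_of_nhds, jb1, jc1]
    at hbi
  refine cl_ode_omega_fix q (sl (A1F q g U) t) (sl (h2F q U) t) (sl (C1F g U) t) (sl (mW q g U) t)
    (sl (kAF q g U) t) (sl (kBF q U) t) (sl (kCF g U) t) (sl (kbF g U) t) cA1 ch2 cC1 cW ckA ckB ckC
    y hX (cl_kA_sub_kB q hq0 g hg U hU t y ht0) ?_ ?_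
  · rw [← hbi]
    ring
  · rw [← eA.eq_of_nhds]
    unfold rfA
    rw [ja1, jb1, jb2, jc1, jc2, (hlog y hy).1]
    have hexp : Real.exp (sl (A1F q g U) t y)
        * Real.exp (-(A1F q g U (t, y) - Real.log (1 - y ^ 2))) = 1 - y ^ 2 := by
      show Real.exp (A1F q g U (t, y)) * _ = _
      rw [← Real.exp_add, show A1F q g U (t, y) + -(A1F q g U (t, y) - Real.log (1 - y ^ 2))
        = Real.log (1 - y ^ 2) by ring, Real.exp_log hXpos]
    rw [← mul_assoc, hexp]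
    field_simp
    ring

theorem cl_P_ode (q : ℕ) (hq : 1 ≤ q) (g : Bg) (hg : BgSm g) (U : Tri) (hU : ∀ j, Sm (U j)) (t₀ : ℝ)
    (h : RedGF q t₀ 0 (mA q U) (mB q g U) (mC g U) (mW q g U)) :
    ∀ t ∈ Ioo t₀ 0, ∀ y ∈ Ioo (-1 : ℝ) 1,
      (1 - y ^ 2) * deriv (fun z => (1 - z ^ 2) * deriv (sl (omF q g U) t) z) y
        - ((q + 1) * y - (1 - y ^ 2) * gS q g U t y) * ((1 - y ^ 2) * deriv (sl (omF q g U) t) y)
      = (1 - y ^ 2) * (cS q g U t y * sl (omF q g U) t y + fS q g U t y) := by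
  intro t ht y hy
  have hq0 : (0 : ℝ) < q := by exact_mod_cast (lt_of_lt_of_le one_pos hq)
  have ht0 : t < 0 := ht.2
  obtain ⟨sA1, -, -, -, -, -, -, -, sW, -, -⟩ := cl_sm_all q hq0 g hg U hU
  exact cl_ode_P q (sl (A1F q g U) t) (sl (h2F q U) t) (sl (C1F g U) t) (sl (mW q g U) t)
    (sl (kAF q g U) t) (sl (kBF q U) t) (sl (kCF g U) t) (sl (kbF g U) t)
    (cl_sl_contDiff _ sA1 t ht0) (cl_sl_contDiff _ sW t ht0) y
    (cl_omega_ode q hq g hg U hU t₀ h t ht y hy)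

end

end Claimed.Agent.R324.Core
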