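/-
Row 324 (S0582), PDE core, module CL.   Leaf CL.Coef, part A (helper269): the formula (F1) for `X 𝔤` and the elementary power estimates
`cl_JJ_le`, `cl_bg_small` of CL/Coef.lean.
-/
import Claimed.Agent.R324.Core.CL.OdeSlice
import Claimed.Agent.R324.Core.PR.SmU
import Claimed.Agent.R324.Bohm.Alpha

set_option autoImplicit false

namespace Claimed.Agent.R324.Core

open Set Filter Topology MeasureTheory
open scoped ContDiff

theorem cl_a_Xt_eq {y : ℝ} (hy : 1 / 2 ≤ y) : Xt y = Xf y := by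
  unfold Xt sgY Xf
  rw [Real.smoothTransition.one_of_one_le (by linarith)]
  ring

/-- `Θ⁷ R^{-α/2} ≤ 128 (c+1)⁷ R^{-1/4}`. -/
theorem cl_a_pow1 (c α Λ X : ℝ) (hc : 1 ≤ c) (hα2 : 2 < α) (hα3 : α < 3) (hΛ0 : 0 < Λ) (hΛ1 : Λ ≤ 1)
    (hX0 : 0 ≤ X) (hX1 : X ≤ 1) :
    (Λ + X) ^ 7 * (c * Λ ^ (2 * (8 / α)) + X) ^ (-α / 2)
      ≤ 128 * (c + 1) ^ 7 * (c * Λ ^ (2 * (8 / α)) + X) ^ (-((1 : ℝ) / 4)) := by
  set L : ℝ := Λ ^ (2 * (8 / α)) with hL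
  have hα0 : 0 < α := by linarith
  have hL0 : 0 < L := Real.rpow_pos_of_pos hΛ0 _
  have hL1 : L ≤ 1 := Real.rpow_le_one hΛ0.le hΛ1 (by positivity)
  set R : ℝ := c * L + X with hR
  have hR0 : 0 < R := by positivity
  have hRL : L ≤ R := by nlinarith
  have hRc : R ≤ c + 1 := by nlinarith
  set p : ℝ := α / 2 - 1 / 4 with hp
  have hp0 : 0 < p := by rw [hp]; linarith
  have hp7 : p ≤ 7 := by rw [hp]; linarith
  have hsplit : R ^ (-α / 2) = R ^ (-((1 : ℝ) / 4)) * R ^ (-p) := by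
    rw [← Real.rpow_add hR0]; congr 1; rw [hp]; ring
  have hc1 : (1 : ℝ) ≤ (c + 1) ^ 7 := one_le_pow₀ (by linarith)
  have key : (Λ + X) ^ 7 ≤ 128 * (c + 1) ^ 7 * R ^ p := by
    have hRp0 : 0 < R ^ p := Real.rpow_pos_of_pos hR0 _
    rcases le_total Λ X with h | h
    · have h1 : Λ + X ≤ 2 * R := by nlinarith
      have h2 : (Λ + X) ^ 7 ≤ (2 * R) ^ 7 := pow_le_pow_left₀ (by positivity) h1 7
      have h3 : R ^ 7 = R ^ p * R ^ (7 - p) := by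
        rw [← Real.rpow_add hR0, ← Real.rpow_natCast]; congr 1; push_cast; ring
      have h4 : R ^ (7 - p) ≤ (c + 1) ^ (7 - p) := Real.rpow_le_rpow hR0.le hRc (by linarith)
      have h5 : (c + 1) ^ (7 - p) ≤ (c + 1) ^ (7 : ℝ) :=
        Real.rpow_le_rpow_of_exponent_le (by linarith) (by linarith)
      have h6 : (c + 1) ^ (7 : ℝ) = (c + 1) ^ 7 := by
        rw [← Real.rpow_natCast]; norm_num
      have h7 : R ^ 7 ≤ R ^ p * (c + 1) ^ 7 := by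
        rw [h3]; exact mul_le_mul_of_nonneg_left (h4.trans (h5.trans h6.le)) hRp0.le
      calc (Λ + X) ^ 7 ≤ (2 * R) ^ 7 := h2
        _ = 128 * R ^ 7 := by ring
        _ ≤ 128 * (R ^ p * (c + 1) ^ 7) := mul_le_mul_of_nonneg_left h7 (by norm_num)
        _ = 128 * (c + 1) ^ 7 * R ^ p := by ring
    · have h1 : Λ + X ≤ 2 * Λ := by linarith
      have h2 : (Λ + X) ^ 7 ≤ (2 * Λ) ^ 7 := pow_le_pow_left₀ (by positivity) h1 7
      have h3 : L ^ p = Λ ^ (8 - 4 / α) := by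
        rw [hL, ← Real.rpow_mul hΛ0.le]; congr 1; rw [hp]; field_simp; ring
      have h4 : Λ ^ (7 : ℝ) ≤ Λ ^ (8 - 4 / α) := by
        apply Real.rpow_le_rpow_of_exponent_ge hΛ0 hΛ1
        have : 1 ≤ 4 / α := by rw [le_div_iff₀ hα0]; linarith
        linarith
      have h5 : Λ ^ (7 : ℝ) = Λ ^ 7 := by
        rw [← Real.rpow_natCast]; norm_num
      have h6 : L ^ p ≤ R ^ p := Real.rpow_le_rpow hL0.le hRL hp0.le
      have h7 : Λ ^ 7 ≤ R ^ p := h5.symm.le.trans (h4.trans (h3.symm.le.trans h6))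
      calc (Λ + X) ^ 7 ≤ (2 * Λ) ^ 7 := h2
        _ = 128 * Λ ^ 7 := by ring
        _ ≤ 128 * R ^ p := mul_le_mul_of_nonneg_left h7 (by norm_num)
        _ = 128 * 1 * R ^ p := by ring
        _ ≤ 128 * (c + 1) ^ 7 * R ^ p := by
            apply mul_le_mul_of_nonneg_right _ hRp0.le
            linarith
  have hq0 : 0 < R ^ (-((1 : ℝ) / 4)) := Real.rpow_pos_of_pos hR0 _
  have hpn : R ^ (-p) * R ^ p = 1 := by
    rw [← Real.rpow_add hR0]; simp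
  have hpn0 : 0 < R ^ (-p) := Real.rpow_pos_of_pos hR0 _
  rw [hsplit]
  calc (Λ + X) ^ 7 * (R ^ (-((1 : ℝ) / 4)) * R ^ (-p))
      ≤ (128 * (c + 1) ^ 7 * R ^ p) * (R ^ (-((1 : ℝ) / 4)) * R ^ (-p)) :=
        mul_le_mul_of_nonneg_right key (by positivity)
    _ = 128 * (c + 1) ^ 7 * R ^ (-((1 : ℝ) / 4)) * (R ^ (-p) * R ^ p) := by ring
    _ = 128 * (c + 1) ^ 7 * R ^ (-((1 : ℝ) / 4)) := by rw [hpn]; ring

/-- `Θ⁷ R^{1-α/2} ≤ 128 Θ`. -/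
theorem cl_a_pow2 (c α Λ X : ℝ) (hc : 1 ≤ c) (hα2 : 2 < α) (hα3 : α < 3) (hΛ0 : 0 < Λ) (hΛ1 : Λ ≤ 1)
    (hX0 : 0 ≤ X) (hX1 : X ≤ 1) :
    (Λ + X) ^ 7 * (c * Λ ^ (2 * (8 / α)) + X) ^ (-α / 2) * (c * Λ ^ (2 * (8 / α)) + X) ≤ 128 * (Λ + X) := by
  set L : ℝ := Λ ^ (2 * (8 / α)) with hL
  have hα0 : 0 < α := by linarith
  have hL0 : 0 < L := Real.rpow_pos_of_pos hΛ0 _
  set R : ℝ := c * L + X with hR
  have hR0 : 0 < R := by positivity
  have hRL : L ≤ R := by nlinarith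
  have hRX : X ≤ R := by nlinarith
  set e : ℝ := 1 - α / 2 with he
  have he0 : e ≤ 0 := by rw [he]; linarith
  have he1 : -1 ≤ e := by rw [he]; linarith
  have hsplit : R ^ (-α / 2) * R = R ^ e := by
    nth_rewrite 2 [← Real.rpow_one R]
    rw [← Real.rpow_add hR0]; congr 1; rw [he]; ring
  rw [mul_assoc, hsplit]
  have hΘ0 : 0 < Λ + X := by linarith
  rcases le_total Λ X with h | h
  · have h1 : (Λ + X) / 2 ≤ R := by linarith
    have h10 : 0 < (Λ + X) / 2 := by linarith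
    have h2 : R ^ e ≤ ((Λ + X) / 2) ^ e := Real.rpow_le_rpow_of_nonpos h10 h1 he0
    have h3 : ((Λ + X) / 2) ^ e ≤ ((Λ + X) / 2) ^ (-1 : ℝ) :=
      Real.rpow_le_rpow_of_exponent_ge h10 (by linarith) he1
    have h4 : ((Λ + X) / 2) ^ (-1 : ℝ) = 2 / (Λ + X) := by
      rw [Real.rpow_neg_one]; field_simp
    have h5 : R ^ e ≤ 2 / (Λ + X) := h2.trans (h3.trans h4.le)
    have h6 : (Λ + X) ^ 5 ≤ 2 ^ 5 := pow_le_pow_left₀ hΘ0.le (by linarith) 5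
    calc (Λ + X) ^ 7 * R ^ e ≤ (Λ + X) ^ 7 * (2 / (Λ + X)) :=
          mul_le_mul_of_nonneg_left h5 (by positivity)
      _ = 2 * (Λ + X) ^ 5 * (Λ + X) := by field_simp
      _ ≤ 2 * 2 ^ 5 * (Λ + X) := by
          apply mul_le_mul_of_nonneg_right _ hΘ0.le
          linarith
      _ ≤ 128 * (Λ + X) := by nlinarith
  · have h2 : R ^ e ≤ L ^ e := Real.rpow_le_rpow_of_nonpos hL0 hRL he0
    have h3 : L ^ e = Λ ^ (16 / α - 8) := by
      rw [hL, ← Real.rpow_mul hΛ0.le]; congr 1; rw [he]; field_simp; ring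
    have h4 : Λ ^ (16 / α - 8) ≤ Λ ^ (-3 : ℝ) := by
      apply Real.rpow_le_rpow_of_exponent_ge hΛ0 hΛ1
      have : 5 ≤ 16 / α := by rw [le_div_iff₀ hα0]; linarith
      linarith
    have h5 : Λ ^ (-3 : ℝ) = (Λ ^ 3)⁻¹ := by
      rw [Real.rpow_neg hΛ0.le, ← Real.rpow_natCast]; norm_num
    have h6 : R ^ e ≤ (Λ ^ 3)⁻¹ := h2.trans (h3.le.trans (h4.trans h5.le))
    have h7 : (Λ + X) ^ 7 ≤ (2 * Λ) ^ 7 := pow_le_pow_left₀ hΘ0.le (by linarith) 7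
    have h8 : Λ ^ 3 ≤ 1 := pow_le_one₀ hΛ0.le hΛ1
    have h9 : 0 < R ^ e := Real.rpow_pos_of_pos hR0 _
    calc (Λ + X) ^ 7 * R ^ e ≤ (2 * Λ) ^ 7 * (Λ ^ 3)⁻¹ :=
          mul_le_mul h7 h6 h9.le (by positivity)
      _ = 128 * (Λ ^ 3 * Λ) := by field_simp; ring
      _ ≤ 128 * (1 * Λ) := by
          have := mul_le_mul_of_nonneg_right h8 hΛ0.le
          linarith
      _ ≤ 128 * (Λ + X) := by linarith

theorem cl_a_Xf_mem {y : ℝ} (hy : y ∈ Icc (1 / 2 : ℝ) 1) : 0 ≤ Xf y ∧ Xf y ≤ 1 := by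
  unfold Xf
  constructor <;> nlinarith [hy.1, hy.2]

theorem cl_a_JJ_eq (q t y : ℝ) (ht : t < 0) (hy : y ∈ Icc (1 / 2 : ℝ) 1) :
    JJ q t y / Th t y
      = (-t + Xf y) ^ 7 * ((q - 1) / 100 * (-t) ^ (2 * (8 / bAl q)) + Xf y) ^ (-(bAl q) / 2) := by
  have hX := (cl_a_Xf_mem hy).1
  unfold JJ Th rh2 ell2 lam2 gaF alF
  rw [cl_a_Xt_eq hy.1]
  have h0 : -t + Xf y ≠ 0 := by
    have : 0 < -t + Xf y := by linarith
    exact this.ne'
  field_simp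

theorem cl_a_V0_eq (q t y : ℝ) :
    clV0 (ell2 q t) y = ((q - 1) / 100 * (-t) ^ (2 * (8 / bAl q)) + Xf y) ^ (-((1 : ℝ) / 4)) := rfl

theorem cl_a_c_ge (q : ℕ) (hq6 : 10 ^ 6 ≤ q) : (1 : ℝ) ≤ ((q : ℝ) - 1) / 100 := by
  have : (10 ^ 6 : ℝ) ≤ (q : ℝ) := by exact_mod_cast hq6
  linarith

theorem cl_a_al (q : ℕ) (hq6 : 10 ^ 6 ≤ q) : 2 < bAl (q : ℝ) ∧ bAl (q : ℝ) < 3 := by
  have : (10 ^ 6 : ℝ) ≤ (q : ℝ) := by exact_mod_cast hq6
  exact bAl_bounds (by linarith)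

/-- `𝔍/Θ ≤ C ϖ₀` on the north side. -/
theorem cl_a_JJ_le (q : ℕ) (hq6 : 10 ^ 6 ≤ q) : ∃ C Λ₀ : ℝ, 0 < Λ₀ ∧ ∀ t ∈ Ico (-Λ₀) 0, ∀ y ∈ Icc (1 / 2 : ℝ) 1,
    JJ q t y / Th t y ≤ C * clV0 (ell2 q t) y := by
  refine ⟨128 * (((q : ℝ) - 1) / 100 + 1) ^ 7, 1, one_pos, ?_⟩
  intro t ht y hy
  obtain ⟨hX0, hX1⟩ := cl_a_Xf_mem hy
  obtain ⟨ha2, ha3⟩ := cl_a_al q hq6
  rw [cl_a_JJ_eq _ _ _ ht.2 hy, cl_a_V0_eq]
  exact cl_a_pow1 _ _ _ _ (cl_a_c_ge q hq6) ha2 ha3 (by linarith [ht.2]) (by linarith [ht.1]) hX0 hX1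

/-- `X 𝔍/Θ ≤ η s` near the north pole, close to the blow up time. -/
theorem cl_a_bg_small (q : ℕ) (hq6 : 10 ^ 6 ≤ q) (η : ℝ) (hη : 0 < η) :
    ∃ Λ₀ y₁ : ℝ, 0 < Λ₀ ∧ 19 / 20 ≤ y₁ ∧ y₁ < 1 ∧ ∀ t ∈ Ico (-Λ₀) 0, ∀ y ∈ Icc y₁ 1,
      Xf y * (JJ q t y / Th t y) ≤ η * (Xf y / (ell2 q t + Xf y)) ∧
      Xf y * clV0 (ell2 q t) y ≤ η * (Xf y / (ell2 q t + Xf y)) := by
  set c : ℝ := ((q : ℝ) - 1) / 100 with hc
  have hc1 : 1 ≤ c := cl_a_c_ge q hq6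
  obtain ⟨ha2, ha3⟩ := cl_a_al q hq6
  set e : ℝ := min 1 η with he
  have he0 : 0 < e := lt_min one_pos hη
  have he1 : e ≤ 1 := min_le_left _ _
  have heη : e ≤ η := min_le_right _ _
  set δ : ℝ := e ^ 2 / 256 with hδ
  have hδ0 : 0 < δ := by positivity
  have hee : e ^ 2 ≤ e := by nlinarith
  have hδ1 : δ ≤ 1 := by rw [hδ]; linarith
  refine ⟨δ / c, max (19 / 20) (1 - δ / 2), by positivity, le_max_left _ _,
    max_lt (by norm_num) (by linarith), ?_⟩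
  intro t ht y hy
  have hy19 : 19 / 20 ≤ y := (le_max_left _ _).trans hy.1
  have hyδ : 1 - δ / 2 ≤ y := (le_max_right _ _).trans hy.1
  have hy' : y ∈ Icc (1 / 2 : ℝ) 1 := ⟨by linarith, hy.2⟩
  obtain ⟨hX0, hX1⟩ := cl_a_Xf_mem hy'
  have hXδ : Xf y ≤ δ := by
    unfold Xf
    nlinarith [hy.2]
  have hΛ0 : 0 < -t := by linarith [ht.2]
  have hΛc : c * (-t) ≤ δ := by
    have h1 : -t ≤ δ / c := by linarith [ht.1]
    have h2 : c * (-t) ≤ c * (δ / c) := mul_le_mul_of_nonneg_left h1 (by linarith)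
    have h3 : c * (δ / c) = δ := by field_simp
    linarith
  have hΛδ : -t ≤ δ := by nlinarith
  have hΛ1 : -t ≤ 1 := by linarith
  have hell : ell2 q t = c * (-t) ^ (2 * (8 / bAl (q : ℝ))) := rfl
  set L : ℝ := (-t) ^ (2 * (8 / bAl (q : ℝ))) with hL
  have hL0 : 0 < L := Real.rpow_pos_of_pos hΛ0 _
  have hLΛ : L ≤ -t := by
    have h1 : (-t) ^ (2 * (8 / bAl (q : ℝ))) ≤ (-t) ^ (1 : ℝ) := by
      apply Real.rpow_le_rpow_of_exponent_ge hΛ0 hΛ1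
      have : 1 ≤ 8 / bAl (q : ℝ) := by rw [le_div_iff₀ (by linarith)]; linarith
      linarith
    rwa [Real.rpow_one] at h1
  set R : ℝ := c * L + Xf y with hR
  have hR0 : 0 < R := by positivity
  have hRδ : R ≤ 2 * δ := by
    have : c * L ≤ c * (-t) := mul_le_mul_of_nonneg_left hLΛ (by linarith)
    linarith
  have hred : ∀ A : ℝ, A * R ≤ η → Xf y * A ≤ η * (Xf y / R) := by
    intro A hA
    have h1 : A ≤ η / R := by rwa [le_div_iff₀ hR0]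
    calc Xf y * A ≤ Xf y * (η / R) := mul_le_mul_of_nonneg_left h1 hX0
      _ = η * (Xf y / R) := by ring
  rw [hell]
  constructor
  · apply hred
    rw [cl_a_JJ_eq _ _ _ ht.2 hy']
    have h1 := cl_a_pow2 c (bAl (q : ℝ)) (-t) (Xf y) hc1 ha2 ha3 hΛ0 hΛ1 hX0 hX1
    refine h1.trans ?_
    have : 128 * (-t + Xf y) ≤ 128 * (2 * δ) := by linarith
    have h2 : 128 * (2 * δ) = e ^ 2 := by rw [hδ]; ring
    linarith
  · apply hred
    have h1 : R ^ (-((1 : ℝ) / 4)) * R = R ^ ((3 : ℝ) / 4) := by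
      nth_rewrite 2 [← Real.rpow_one R]
      rw [← Real.rpow_add hR0]; norm_num
    have h2 : R ≤ e ^ 2 := by
      have : 2 * δ ≤ e ^ 2 := by rw [hδ]; nlinarith
      linarith
    have h3 : R ^ ((3 : ℝ) / 4) ≤ (e ^ 2) ^ ((3 : ℝ) / 4) := Real.rpow_le_rpow hR0.le h2 (by norm_num)
    have h4 : (e ^ 2) ^ ((3 : ℝ) / 4) = e ^ ((3 : ℝ) / 2) := by
      rw [← Real.rpow_natCast, ← Real.rpow_mul he0.le]; norm_num
    have h5 : e ^ ((3 : ℝ) / 2) ≤ e ^ (1 : ℝ) :=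
      Real.rpow_le_rpow_of_exponent_ge he0 he1 (by norm_num)
    rw [Real.rpow_one] at h5
    show R ^ (-((1 : ℝ) / 4)) * R ≤ η
    rw [h1]
    exact h3.trans (h4.le.trans (h5.trans heη))

/-- `∂_y A₁ = h₁' + a'`. -/
theorem cl_a_dY_A1F (q : ℝ) (g : Bg) (hg : BgSm g) (U : Tri) (hU : ∀ j, Sm (U j)) (t y : ℝ) (ht : t < 0) :
    dY (A1F q g U) (t, y) = dY (h1F q U) (t, y) + g.ap (t, y) := by
  have h1 : dY (A1F q g U) (t, y)
      = dY (h1F q U) (t, y) + dY (fun p => Real.log (1 + Xf p.2 * g.B p)) (t, y) :=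
    dY_add (sm_h1F q hU) (hg.smden.log hg.den_ne) ht y
  have h2 : dY (fun p => Real.log (1 + Xf p.2 * g.B p)) (t, y)
      = dY (fun p => 1 + Xf p.2 * g.B p) (t, y) / (1 + Xf y * g.B (t, y)) :=
    dY_log hg.smden ht y (hg.den_ne t ht y)
  have h3 : dY (fun p => 1 + Xf p.2 * g.B p) (t, y) = g.dd (t, y) := by
    have := dY_add (sm_const 1) (sm_Xf.mul hg.smB) ht y
    rw [this, dY_const]
    simp [Bg.dd]
  rw [h1, h2, h3]
  unfold Bg.ap Bg.Z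
  simp only
  ring

/-- `∂_y C₁ = w' + h₃'`. -/
theorem cl_a_dY_C1F (g : Bg) (hg : BgSm g) (U : Tri) (hU : ∀ j, Sm (U j)) (t y : ℝ) (ht : t < 0) :
    dY (C1F g U) (t, y) = g.wp (t, y) + dY (U 1) (t, y) :=
  dY_add hg.smw (hU 1) ht y

/-- `e^{A₁} = e^{h₁}/Z`. -/
theorem cl_a_exp_A1F (q : ℝ) (g : Bg) (hg : BgSm g) (U : Tri) (t y : ℝ) (ht : t < 0) :
    Real.exp (A1F q g U (t, y)) = Real.exp (h1F q U (t, y)) / g.Z (t, y) := by
  unfold A1F Bg.Z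
  simp only
  rw [Real.exp_add, Real.exp_log (hg.pos t ht y)]
  field_simp

/-- `X e^{h₁} bPh = e^{β} - 1`. -/
theorem cl_a_X_bPh (q : ℝ) (hq : 0 < q) (U : Tri) (p : ℝ × ℝ) :
    Xf p.2 * (Real.exp (h1F q U p) * bPh q U p) = Real.exp (beF U p) - 1 := by
  have h1 : h1F q U p - h2F q U p = beF U p := by
    unfold h1F h2F beF
    field_simp
    ring
  have h2 : Xf p.2 * U 2 p * Ph1 (beF U p) = 1 - Real.exp (-beF U p) := ph1_mul (beF U p)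
  have h3 : Real.exp (h1F q U p) * e2F q U p = Real.exp (beF U p) := by
    unfold e2F
    rw [← Real.exp_add, ← h1]
    ring_nf
  have h4 : Real.exp (beF U p) * Real.exp (-beF U p) = 1 := by
    rw [← Real.exp_add]; simp
  unfold bPh
  calc Xf p.2 * (Real.exp (h1F q U p) * (U 2 p * e2F q U p * Ph1 (beF U p)))
      = (Real.exp (h1F q U p) * e2F q U p) * (Xf p.2 * U 2 p * Ph1 (beF U p)) := by ring
    _ = Real.exp (beF U p) * (1 - Real.exp (-beF U p)) := by rw [h2, h3]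
    _ = Real.exp (beF U p) - Real.exp (beF U p) * Real.exp (-beF U p) := by ring
    _ = Real.exp (beF U p) - 1 := by rw [h4]

/-- (F1). -/
theorem cl_a_Xg_formula (q : ℝ) (hq : 0 < q) (g : Bg) (hg : BgSm g) (U : Tri) (hU : ∀ j, Sm (U j)) (t y : ℝ)
    (ht : t < 0) :
    (1 - y ^ 2) * gS q g U t y = -(Xf y * g.ap (t, y)) / 2
      + Xf y * g.wp (t, y) * Real.exp (h1F q U (t, y) - U 1 (t, y))
      + Real.exp (h1F q U (t, y)) * (Xf y * g.W (t, y)) / g.Z (t, y)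
      - q * y * (Real.exp (beF U (t, y)) - 1) := by
  have hZ : 0 < g.Z (t, y) := hg.Z_pos ht y
  have hgS : gS q g U t y = -dY (A1F q g U) (t, y) / 2 + q / 2 * dY (h2F q U) (t, y) + dY (C1F g U) (t, y)
      + Real.exp (A1F q g U (t, y)) * mW q g U (t, y) := rfl
  have hb := cl_a_X_bPh q hq U (t, y)
  simp only at hb
  have he1 : Real.exp (h1F q U (t, y)) * e1F q U (t, y) = 1 := by
    unfold e1F
    rw [← Real.exp_add]; simp
  have he3 : Real.exp (h1F q U (t, y)) * e3F U (t, y) = Real.exp (h1F q U (t, y) - U 1 (t, y)) := by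
    unfold e3F
    rw [← Real.exp_add]; ring_nf
  have hX : (1 - y ^ 2) = Xf y := rfl
  rw [hgS, cl_a_dY_A1F q g hg U hU t y ht, cl_a_dY_C1F g hg U hU t y ht, cl_a_exp_A1F q g hg U t y ht, hX]
  unfold mW
  simp only
  set E := Real.exp (h1F q U (t, y)) with hE
  set Z := g.Z (t, y) with hZdef
  have hmain : E / Z * (g.W (t, y) - (Z * e1F q U (t, y) * (-dY (h1F q U) (t, y) / 2 + q / 2 * dY (h2F q U) (t, y)
        + dY (U 1) (t, y)) + q * y * Z * bPh q U (t, y) - Z * g.wp (t, y) * (e3F U (t, y) - e1F q U (t, y))))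
      = E * g.W (t, y) / Z - ((E * e1F q U (t, y)) * (-dY (h1F q U) (t, y) / 2 + q / 2 * dY (h2F q U) (t, y)
        + dY (U 1) (t, y)) + q * y * (E * bPh q U (t, y))
        - g.wp (t, y) * (E * e3F U (t, y) - E * e1F q U (t, y))) := by
    field_simp
  rw [hmain, he1, he3]
  have hb' : Xf y * (q * y * (E * bPh q U (t, y))) = q * y * (Real.exp (beF U (t, y)) - 1) := by
    rw [← hb]; ring
  linear_combination (-1 : ℝ) * hb'

end Claimed.Agent.R324.Core
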