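/-
Row 324 (S0582), PDE core, module CL.   Leaf `cl_coef_mid` (helper943): the coefficients of the gauge ODE are bounded in the middle zone `|y| ≤ y₀ < 1`.
Method: `ClBd S f` = "`f` is bounded on `S`", closed under `+ - * exp pow`;  every coefficient is a polynomial/exponential expression in finitely many
"atoms" (values and first derivatives of `U`, `∂_t U`, `B`, `w`, `W`, `∂_t B`, `∂_t w`), which are bounded on `S = [max t₁ (-Λ₂), 0) × [-y₀, y₀]` by `CLPt`, `BgGood.sym`, `BgGood.symJ`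
(`X ≥ 1 - y₀² > 0`, `r̂², Θ ≥ min (3/4) (1 - y₀²)`).
-/
import Claimed.Agent.R324.Core.CL.OdeSlice
import Claimed.Agent.R324.Core.PR.SmU
import Claimed.Agent.R324.Core.PR.TT
import Claimed.Agent.R324.Core.PR.Ph
import Claimed.Agent.R324.Bohm.Alpha

set_option autoImplicit false

namespace Claimed.Agent.R324.Core

open Set Filter Topology MeasureTheory
open scoped ContDiff

noncomputable section

/-! ### bounded functions -/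

/-- bounded on `S`. -/
def ClBd (S : Set (ℝ × ℝ)) (f : Fn) : Prop := ∃ C : ℝ, ∀ p ∈ S, |f p| ≤ C

variable {S : Set (ℝ × ℝ)} {f₁ f₂ : Fn}

theorem ClBd.const (c : ℝ) : ClBd S (fun _ => c) := ⟨|c|, fun _ _ => le_rfl⟩

theorem ClBd.add (h1 : ClBd S f₁) (h2 : ClBd S f₂) : ClBd S (fun p => f₁ p + f₂ p) := by
  obtain ⟨C1, h1⟩ := h1
  obtain ⟨C2, h2⟩ := h2
  exact ⟨C1 + C2, fun p hp => (abs_add_le _ _).trans (add_le_add (h1 p hp) (h2 p hp))⟩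

theorem ClBd.neg (h1 : ClBd S f₁) : ClBd S (fun p => -f₁ p) := by
  obtain ⟨C1, h1⟩ := h1
  exact ⟨C1, fun p hp => by rw [abs_neg]; exact h1 p hp⟩

theorem ClBd.sub (h1 : ClBd S f₁) (h2 : ClBd S f₂) : ClBd S (fun p => f₁ p - f₂ p) := by
  obtain ⟨C1, h1⟩ := h1
  obtain ⟨C2, h2⟩ := h2
  exact ⟨C1 + C2, fun p hp => (abs_sub _ _).trans (add_le_add (h1 p hp) (h2 p hp))⟩

theorem ClBd.mul (h1 : ClBd S f₁) (h2 : ClBd S f₂) : ClBd S (fun p => f₁ p * f₂ p) := by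
  obtain ⟨C1, h1⟩ := h1
  obtain ⟨C2, h2⟩ := h2
  refine ⟨C1 * C2, fun p hp => ?_⟩
  rw [abs_mul]
  exact mul_le_mul (h1 p hp) (h2 p hp) (abs_nonneg _) ((abs_nonneg _).trans (h1 p hp))

theorem ClBd.div_const (h1 : ClBd S f₁) (c : ℝ) : ClBd S (fun p => f₁ p / c) := by
  obtain ⟨C1, h1⟩ := h1
  refine ⟨C1 / |c|, fun p hp => ?_⟩
  rw [abs_div]
  exact div_le_div_of_nonneg_right (h1 p hp) (abs_nonneg c)

theorem ClBd.pow (h1 : ClBd S f₁) (n : ℕ) : ClBd S (fun p => f₁ p ^ n) := by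
  obtain ⟨C1, h1⟩ := h1
  refine ⟨C1 ^ n, fun p hp => ?_⟩
  rw [abs_pow]
  exact pow_le_pow_left₀ (abs_nonneg _) (h1 p hp) n

theorem ClBd.exp (h1 : ClBd S f₁) : ClBd S (fun p => Real.exp (f₁ p)) := by
  obtain ⟨C1, h1⟩ := h1
  refine ⟨Real.exp C1, fun p hp => ?_⟩
  rw [abs_of_pos (Real.exp_pos _)]
  exact Real.exp_le_exp.2 ((le_abs_self _).trans (h1 p hp))

theorem ClBd.congr (h1 : ClBd S f₁) (he : ∀ p ∈ S, f₂ p = f₁ p) : ClBd S f₂ := by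
  obtain ⟨C1, h1⟩ := h1
  exact ⟨C1, fun p hp => by rw [he p hp]; exact h1 p hp⟩

/-! ### elementary inequalities -/

theorem cl_mid_div {δ X a M : ℝ} (hδ : 0 < δ) (hX : δ ≤ X) (h : |X * a| ≤ M) : |a| ≤ M / δ := by
  rw [abs_mul, abs_of_pos (hδ.trans_le hX)] at h
  rw [le_div_iff₀ hδ]
  nlinarith [abs_nonneg a]

theorem cl_mid_tt {δ y M : ℝ} {f : ℝ → ℝ} (hδ : 0 < δ) (hX : δ ≤ 1 - y ^ 2) (h : |tt f y| ≤ M) :
    |deriv f y| ≤ M / δ := by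
  unfold tt at h
  rw [neg_mul, abs_neg] at h
  exact cl_mid_div hδ hX h

theorem cl_mid_sym {C ρ r δ R : ℝ} {j : ℕ} (hδ : 0 < δ) (hr : δ ≤ r) (hρ0 : 0 ≤ ρ) (hρ : ρ ≤ R) :
    C * ρ / r ^ j ≤ |C| * R / δ ^ j := by
  have h1 : C * ρ ≤ |C| * R := mul_le_mul (le_abs_self C) hρ hρ0 (abs_nonneg C)
  exact div_le_div₀ (mul_nonneg (abs_nonneg C) (hρ0.trans hρ)) h1 (pow_pos hδ j)
    (pow_le_pow_left₀ hδ.le hr j)

theorem cl_mid_Xt {y y₀ : ℝ} (hy : y ≤ y₀) : min (3 / 4) (1 - y₀ ^ 2) ≤ Xt y ∧ Xt y ≤ 1 := by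
  unfold Xt sgY
  rcases le_or_gt (1 / 2) y with h | h
  · rw [Real.smoothTransition.one_of_one_le (by linarith)]
    constructor
    · refine (min_le_right _ _).trans ?_
      nlinarith
    · nlinarith [sq_nonneg (1 / 4 + (y - 1 / 4) * 1)]
  · rcases le_or_gt y 0 with h' | h'
    · rw [Real.smoothTransition.zero_of_nonpos (by linarith)]
      constructor
      · refine (min_le_left _ _).trans ?_
        norm_num
      · norm_num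
    · have s0 := Real.smoothTransition.nonneg (2 * y)
      have s1 := Real.smoothTransition.le_one (2 * y)
      generalize Real.smoothTransition (2 * y) = s at *
      have a0 : 0 ≤ 1 / 4 + (y - 1 / 4) * s := by nlinarith
      have a1 : 1 / 4 + (y - 1 / 4) * s ≤ 1 / 2 := by nlinarith
      constructor
      · refine (min_le_left _ _).trans ?_
        nlinarith
      · nlinarith

theorem cl_mid_log {x : ℝ} (hx : 0 < x) : |Real.log x| ≤ x + 1 / x := by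
  have h1 := Real.log_le_sub_one_of_pos hx
  have h2 := Real.log_le_sub_one_of_pos (inv_pos.2 hx)
  rw [Real.log_inv] at h2
  have h3 : 0 < 1 / x := one_div_pos.2 hx
  rw [one_div] at *
  rw [abs_le]
  constructor <;> linarith

theorem cl_mid_ell2_pos {q t : ℝ} (hq : 100 ≤ q) (ht : t < 0) : 0 < ell2 q t := by
  unfold ell2 lam2
  have : 0 < (-t) ^ (2 * gaF q) := Real.rpow_pos_of_pos (by linarith) _
  have h2 : 0 < (q - 1) / 100 := by linarith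
  exact mul_pos h2 this

/-! ### formulas -/

variable {g : Bg} {U : Tri} {t : ℝ}

theorem cl_mid_dY_h1 (q : ℝ) (hU : ∀ j, Sm (U j)) (ht : t < 0) (y : ℝ) :
    dY (h1F q U) (t, y) = dY (U 0) (t, y) + q / (q + 1) * dY (beF U) (t, y) :=
  (((hU 0).hasDerivAt_y ht y).add (((sm_beF hU).hasDerivAt_y ht y).const_mul (q / (q + 1)))).deriv

theorem cl_mid_dY_h2 (q : ℝ) (hU : ∀ j, Sm (U j)) (ht : t < 0) (y : ℝ) :
    dY (h2F q U) (t, y) = dY (U 0) (t, y) - 1 / (q + 1) * dY (beF U) (t, y) :=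
  (((hU 0).hasDerivAt_y ht y).sub (((sm_beF hU).hasDerivAt_y ht y).const_mul (1 / (q + 1)))).deriv

theorem cl_mid_dY_A1 (q : ℝ) (hg : BgSm g) (hU : ∀ j, Sm (U j)) (ht : t < 0) (y : ℝ) :
    dY (A1F q g U) (t, y) = dY (h1F q U) (t, y) + g.dd (t, y) * g.Z (t, y) := by
  have h1 := (sm_h1F q hU).hasDerivAt_y ht y
  have h2 : HasDerivAt (fun z => 1 + Xf z * g.B (t, z)) (g.dd (t, y)) y :=
    ((sm_Xf.mul hg.smB).hasDerivAt_y ht y).const_add 1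
  have h3 := h2.log (hg.den_ne t ht y)
  have h4 := (h1.add h3).deriv
  have e : g.dd (t, y) * g.Z (t, y) = g.dd (t, y) / (1 + Xf y * g.B (t, y)) := by
    unfold Bg.Z
    ring
  rw [e]
  exact h4

theorem cl_mid_dY_C1 (hg : BgSm g) (hU : ∀ j, Sm (U j)) (ht : t < 0) (y : ℝ) :
    dY (C1F g U) (t, y) = dY g.w (t, y) + dY (U 1) (t, y) :=
  ((hg.smw.hasDerivAt_y ht y).add ((hU 1).hasDerivAt_y ht y)).deriv

theorem cl_mid_kA (q : ℝ) (hg : BgSm g) (hU : ∀ j, Sm (U j)) (ht : t < 0) (y : ℝ) :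
    kAF q g U (t, y) = dT (U 0) (t, y) + q / (q + 1) * (Xf y * dT (U 2) (t, y))
      + Xf y * dT g.B (t, y) * g.Z (t, y) := by
  have h1 := ((hU 0).hasDerivAt_t ht y).add
    ((((hU 2).hasDerivAt_t ht y).const_mul (Xf y)).const_mul (q / (q + 1)))
  have h2 : HasDerivAt (fun s => 1 + Xf y * g.B (s, y)) (Xf y * dT g.B (t, y)) t :=
    ((hg.smB.hasDerivAt_t ht y).const_mul (Xf y)).const_add 1
  have h3 := h2.log (hg.den_ne t ht y)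
  have h4 := (h1.add h3).deriv
  have e : Xf y * dT g.B (t, y) * g.Z (t, y) = Xf y * dT g.B (t, y) / (1 + Xf y * g.B (t, y)) := by
    unfold Bg.Z
    ring
  rw [e]
  exact h4

theorem cl_mid_kB (q : ℝ) (hU : ∀ j, Sm (U j)) (ht : t < 0) (y : ℝ) :
    kBF q U (t, y) = dT (U 0) (t, y) - 1 / (q + 1) * (Xf y * dT (U 2) (t, y)) :=
  (((hU 0).hasDerivAt_t ht y).sub
    ((((hU 2).hasDerivAt_t ht y).const_mul (Xf y)).const_mul (1 / (q + 1)))).deriv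

theorem cl_mid_kC (hg : BgSm g) (hU : ∀ j, Sm (U j)) (ht : t < 0) (y : ℝ) :
    kCF g U (t, y) = dT g.w (t, y) + dT (U 1) (t, y) :=
  ((hg.smw.hasDerivAt_t ht y).add ((hU 1).hasDerivAt_t ht y)).deriv

theorem cl_mid_dY_Z (hg : BgSm g) (ht : t < 0) (y : ℝ) :
    dY g.Z (t, y) = -g.dd (t, y) * g.Z (t, y) ^ 2 := by
  have h2 : HasDerivAt (fun z => 1 + Xf z * g.B (t, z)) (g.dd (t, y)) y :=
    ((sm_Xf.mul hg.smB).hasDerivAt_y ht y).const_add 1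
  have h3 := (h2.fun_inv (hg.den_ne t ht y)).deriv
  have e1 : dY g.Z (t, y) = deriv (fun z => (1 + Xf z * g.B (t, z))⁻¹) y := by
    show deriv (fun z => g.Z (t, z)) y = _
    congr 1
    funext z
    unfold Bg.Z
    rw [one_div]
  rw [e1, h3]
  unfold Bg.Z
  rw [one_div, inv_pow]
  ring

theorem cl_mid_dY_kA (q : ℝ) (hg : BgSm g) (hU : ∀ j, Sm (U j)) (ht : t < 0) (y : ℝ) :
    dY (kAF q g U) (t, y) = dY (dT (U 0)) (t, y) + q / (q + 1) * dY (fun p => Xf p.2 * dT (U 2) p) (t, y)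
      + (dY (fun p => Xf p.2 * dT g.B p) (t, y) * g.Z (t, y) + Xf y * dT g.B (t, y) * dY g.Z (t, y)) := by
  have e : dY (kAF q g U) (t, y) = dY (fun p => dT (U 0) p + q / (q + 1) * (Xf p.2 * dT (U 2) p)
      + Xf p.2 * dT g.B p * g.Z p) (t, y) := dY_congr (fun z => cl_mid_kA q hg hU ht z) y
  rw [e]
  exact ((((hU 0).dT.hasDerivAt_y ht y).add
    (((sm_Xf.mul (hU 2).dT).hasDerivAt_y ht y).const_mul (q / (q + 1)))).add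
    (((sm_Xf.mul hg.smB.dT).hasDerivAt_y ht y).mul (hg.smZ.hasDerivAt_y ht y))).deriv

theorem cl_mid_dY_kB (q : ℝ) (hU : ∀ j, Sm (U j)) (ht : t < 0) (y : ℝ) :
    dY (kBF q U) (t, y) = dY (dT (U 0)) (t, y) - 1 / (q + 1) * dY (fun p => Xf p.2 * dT (U 2) p) (t, y) := by
  have e : dY (kBF q U) (t, y) = dY (fun p => dT (U 0) p - 1 / (q + 1) * (Xf p.2 * dT (U 2) p)) (t, y) :=
    dY_congr (fun z => cl_mid_kB q hU ht z) y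
  rw [e]
  exact (((hU 0).dT.hasDerivAt_y ht y).sub
    (((sm_Xf.mul (hU 2).dT).hasDerivAt_y ht y).const_mul (1 / (q + 1)))).deriv

theorem cl_mid_dY_kC (hg : BgSm g) (hU : ∀ j, Sm (U j)) (ht : t < 0) (y : ℝ) :
    dY (kCF g U) (t, y) = dY (dT g.w) (t, y) + dY (dT (U 1)) (t, y) := by
  have e : dY (kCF g U) (t, y) = dY (fun p => dT g.w p + dT (U 1) p) (t, y) :=
    dY_congr (fun z => cl_mid_kC hg hU ht z) y
  rw [e]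
  exact ((hg.smw.dT.hasDerivAt_y ht y).add ((hU 1).dT.hasDerivAt_y ht y)).deriv

/-! ### the atoms coming from `CLPt` -/

/-- the middle zone. -/
def clMid (t₁ Λ₂ y₀ : ℝ) : Set (ℝ × ℝ) := Ico (max t₁ (-Λ₂)) 0 ×ˢ Icc (-y₀) y₀

theorem cl_mid_mem {t₁ Λ₂ y₀ y : ℝ} (h1 : y₀ < 1) (hp : (t, y) ∈ clMid t₁ Λ₂ y₀) :
    t ∈ Ico t₁ 0 ∧ t ∈ Ico (-Λ₂) 0 ∧ y ∈ Icc (-1 : ℝ) 1 ∧ 1 - y₀ ^ 2 ≤ 1 - y ^ 2 ∧ y ≤ y₀ := by
  obtain ⟨⟨ha, hb⟩, hc, hd⟩ := hp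
  simp only at ha hb hc hd
  refine ⟨⟨(le_max_left _ _).trans ha, hb⟩, ⟨(le_max_right _ _).trans ha, hb⟩, ⟨by linarith, by linarith⟩, ?_, hd⟩
  nlinarith

theorem cl_mid_V0_le {q y y₀ : ℝ} (hq : 100 ≤ q) (ht : t < 0) (hδ : 0 < 1 - y₀ ^ 2) (hX : 1 - y₀ ^ 2 ≤ 1 - y ^ 2) :
    clV0 (ell2 q t) y ≤ (1 - y₀ ^ 2) ^ (-((1 : ℝ) / 4)) := by
  unfold clV0
  refine Real.rpow_le_rpow_of_nonpos hδ ?_ (by norm_num)
  linarith [cl_mid_ell2_pos hq ht]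

/-- all atoms built from `U`. -/
theorem cl_mid_atoms_U (q : ℝ) (hq : 100 ≤ q) (U : Tri) (t₁ ε N : ℝ) (hε0 : 0 ≤ ε) (hN : 0 ≤ N)
    (hpt : CLPt q U t₁ ε N) (Λ₂ y₀ : ℝ) (h0 : 0 < y₀) (h1 : y₀ < 1) :
    (∀ p ∈ clMid t₁ Λ₂ y₀, |beF U p| ≤ ε) ∧
    ClBd (clMid t₁ Λ₂ y₀) (U 0) ∧ ClBd (clMid t₁ Λ₂ y₀) (U 1) ∧ ClBd (clMid t₁ Λ₂ y₀) (U 2) ∧
    ClBd (clMid t₁ Λ₂ y₀) (dY (U 0)) ∧ ClBd (clMid t₁ Λ₂ y₀) (dY (U 1)) ∧ ClBd (clMid t₁ Λ₂ y₀) (dY (beF U)) ∧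
    ClBd (clMid t₁ Λ₂ y₀) (dT (U 0)) ∧ ClBd (clMid t₁ Λ₂ y₀) (dT (U 1)) ∧ ClBd (clMid t₁ Λ₂ y₀) (dT (U 2)) ∧
    ClBd (clMid t₁ Λ₂ y₀) (dY (dT (U 0))) ∧ ClBd (clMid t₁ Λ₂ y₀) (dY (dT (U 1))) ∧
    ClBd (clMid t₁ Λ₂ y₀) (dY (fun p => Xf p.2 * dT (U 2) p)) := by
  have hδ : 0 < 1 - y₀ ^ 2 := by nlinarith
  set δ := 1 - y₀ ^ 2 with hδdef
  set V := δ ^ (-((1 : ℝ) / 4)) with hV
  have hV0 : 0 ≤ V := Real.rpow_nonneg hδ.le _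
  -- `ε σ ≤ ε`, `N ϖ₀ ≤ N V`, `N ϖ₀ σ ≤ N V`
  have key : ∀ t y, (t, y) ∈ clMid t₁ Λ₂ y₀ → t ∈ Ico t₁ 0 ∧ y ∈ Icc (-1 : ℝ) 1 ∧ δ ≤ 1 - y ^ 2 ∧
      ε * clSg (ell2 q t) y ≤ ε ∧ N * clV0 (ell2 q t) y ≤ N * V ∧
      N * clV0 (ell2 q t) y * clSg (ell2 q t) y ≤ N * V := by
    intro t y hp
    obtain ⟨ha, -, hc, hd, -⟩ := cl_mid_mem h1 hp
    have hL := cl_mid_ell2_pos hq ha.2
    obtain ⟨s0, s1, -⟩ := cl_sg_mem (ell2 q t) hL y hc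
    have v0 := (cl_v0_pos (ell2 q t) hL y hc).le
    have v1 : clV0 (ell2 q t) y ≤ V := cl_mid_V0_le hq ha.2 hδ hd
    have e1 : N * clV0 (ell2 q t) y ≤ N * V := mul_le_mul_of_nonneg_left v1 hN
    refine ⟨ha, hc, hd, ?_, e1, ?_⟩
    · nlinarith
    · have : N * clV0 (ell2 q t) y * clSg (ell2 q t) y ≤ N * clV0 (ell2 q t) y * 1 :=
        mul_le_mul_of_nonneg_left s1.le (mul_nonneg hN v0)
      linarith
  refine ⟨?_, ⟨ε, ?_⟩, ⟨ε, ?_⟩, ⟨ε / δ, ?_⟩, ⟨ε / δ, ?_⟩, ⟨ε / δ, ?_⟩, ⟨ε / δ, ?_⟩, ⟨N * V, ?_⟩, ⟨N * V, ?_⟩,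
    ⟨N * V / δ, ?_⟩, ⟨N * V / δ, ?_⟩, ⟨N * V / δ, ?_⟩, ⟨N * V / δ, ?_⟩⟩
  · rintro ⟨t, y⟩ hp
    obtain ⟨ha, hc, hd, e1, e2, e3⟩ := key t y hp
    exact ((hpt.u1 t ha y hc).1).trans e1
  · rintro ⟨t, y⟩ hp
    obtain ⟨ha, hc, hd, e1, e2, e3⟩ := key t y hp
    exact (hpt.u0 t ha y hc).1
  · rintro ⟨t, y⟩ hp
    obtain ⟨ha, hc, hd, e1, e2, e3⟩ := key t y hp
    exact (hpt.u0 t ha y hc).2
  · rintro ⟨t, y⟩ hp
    obtain ⟨ha, hc, hd, e1, e2, e3⟩ := key t y hp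
    exact cl_mid_div hδ hd (((hpt.u1 t ha y hc).1).trans e1)
  · rintro ⟨t, y⟩ hp
    obtain ⟨ha, hc, hd, e1, e2, e3⟩ := key t y hp
    exact cl_mid_tt hδ hd (((hpt.u1 t ha y hc).2.1).trans e1)
  · rintro ⟨t, y⟩ hp
    obtain ⟨ha, hc, hd, e1, e2, e3⟩ := key t y hp
    exact cl_mid_tt hδ hd (((hpt.u1 t ha y hc).2.2.1).trans e1)
  · rintro ⟨t, y⟩ hp
    obtain ⟨ha, hc, hd, e1, e2, e3⟩ := key t y hp
    exact cl_mid_tt hδ hd (((hpt.u1 t ha y hc).2.2.2).trans e1)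
  · rintro ⟨t, y⟩ hp
    obtain ⟨ha, hc, hd, e1, e2, e3⟩ := key t y hp
    exact ((hpt.k0 t ha y hc).1).trans e2
  · rintro ⟨t, y⟩ hp
    obtain ⟨ha, hc, hd, e1, e2, e3⟩ := key t y hp
    exact ((hpt.k0 t ha y hc).2).trans e2
  · rintro ⟨t, y⟩ hp
    obtain ⟨ha, hc, hd, e1, e2, e3⟩ := key t y hp
    exact cl_mid_div hδ hd (((hpt.k1 t ha y hc).1).trans e3)
  · rintro ⟨t, y⟩ hp
    obtain ⟨ha, hc, hd, e1, e2, e3⟩ := key t y hp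
    exact cl_mid_tt hδ hd (((hpt.k1 t ha y hc).2.1).trans e3)
  · rintro ⟨t, y⟩ hp
    obtain ⟨ha, hc, hd, e1, e2, e3⟩ := key t y hp
    exact cl_mid_tt hδ hd (((hpt.k1 t ha y hc).2.2.1).trans e3)
  · rintro ⟨t, y⟩ hp
    obtain ⟨ha, hc, hd, e1, e2, e3⟩ := key t y hp
    exact cl_mid_tt hδ hd (((hpt.k1 t ha y hc).2.2.2).trans e3)

/-! ### the atoms coming from the background -/

theorem cl_mid_symC {q Λ₀ C δ R : ℝ} {n : ℕ} {ϱ : ℝ → ℝ → ℝ} {f : Fn} (h : SymC q Λ₀ C n ϱ f) (hδ : 0 < δ)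
    (hS : ∀ t y, (t, y) ∈ S → t ∈ Ico (-Λ₀) 0 ∧ y ∈ Icc (-1 : ℝ) 1 ∧ δ ≤ rh2 q t y ∧ 0 ≤ ϱ t y ∧ ϱ t y ≤ R)
    (j : ℕ) (hj : j ≤ n) : ClBd S (dY^[j] f) := by
  refine ⟨|C| * R / δ ^ j, ?_⟩
  rintro ⟨t, y⟩ hp
  obtain ⟨ha, hb, hc, hd, he⟩ := hS t y hp
  rw [← iteratedDeriv_sl]
  exact (h t ha y hb j hj).trans (cl_mid_sym hδ hc hd he)

theorem cl_mid_atoms_bg (q : ℝ) (hq : 100 ≤ q) (g : Bg) (hg : BgGood q g) (t₁ y₀ : ℝ) (h0 : 0 < y₀) (h1 : y₀ < 1) :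
    ∃ Λ₂ : ℝ, 0 < Λ₂ ∧ ClBd (clMid t₁ Λ₂ y₀) g.B ∧ ClBd (clMid t₁ Λ₂ y₀) (dY g.B) ∧
      ClBd (clMid t₁ Λ₂ y₀) (dY g.w) ∧ ClBd (clMid t₁ Λ₂ y₀) g.W ∧ ClBd (clMid t₁ Λ₂ y₀) g.Z ∧
      ClBd (clMid t₁ Λ₂ y₀) (dT g.B) ∧ ClBd (clMid t₁ Λ₂ y₀) (dY (dT g.B)) ∧
      ClBd (clMid t₁ Λ₂ y₀) (dT g.w) ∧ ClBd (clMid t₁ Λ₂ y₀) (dY (dT g.w)) := by
  obtain ⟨Λa, Ca, hΛa, hB, hwp, -, hW, hden⟩ := hg.sym
  obtain ⟨Λb, Cb, hΛb, hwt, hBt, -⟩ := hg.symJ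
  have hδ0 : 0 < 1 - y₀ ^ 2 := by nlinarith
  set δ := min (3 / 4) (1 - y₀ ^ 2) with hδdef
  have hδ : 0 < δ := lt_min (by norm_num) hδ0
  set Λ₂ := min Λa Λb with hΛdef
  have hΛ : 0 < Λ₂ := lt_min hΛa hΛb
  have hα : -(alF q) / 2 ≤ 0 := by
    have := (bAl_bounds hq).1
    unfold alF
    linarith
  set J₀ := (Λ₂ + 1) ^ 8 * δ ^ (-(alF q) / 2) with hJ
  have hJ0 : 0 ≤ J₀ := mul_nonneg (by positivity) (Real.rpow_nonneg hδ.le _)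
  have key : ∀ t y, (t, y) ∈ clMid t₁ Λ₂ y₀ → t ∈ Ico (-Λa) 0 ∧ t ∈ Ico (-Λb) 0 ∧ y ∈ Icc (-1 : ℝ) 1 ∧
      δ ≤ rh2 q t y ∧ δ ≤ Th t y ∧ 0 ≤ JJ q t y ∧ JJ q t y ≤ J₀ := by
    intro t y hp
    obtain ⟨-, hb, hc, -, he⟩ := cl_mid_mem h1 hp
    obtain ⟨x0, x1⟩ := cl_mid_Xt he
    have hL := cl_mid_ell2_pos hq hb.2
    have r0 : δ ≤ rh2 q t y := by unfold rh2; linarith
    have T0 : δ ≤ Th t y := by unfold Th; linarith [hb.2]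
    have T1 : Th t y ≤ Λ₂ + 1 := by unfold Th; linarith [hb.1]
    have p1 : (rh2 q t y) ^ (-(alF q) / 2) ≤ δ ^ (-(alF q) / 2) := Real.rpow_le_rpow_of_nonpos hδ r0 hα
    have p0 : 0 ≤ (rh2 q t y) ^ (-(alF q) / 2) := Real.rpow_nonneg (hδ.le.trans r0) _
    have T8 : (Th t y) ^ 8 ≤ (Λ₂ + 1) ^ 8 := pow_le_pow_left₀ (hδ.le.trans T0) T1 8
    have T80 : 0 ≤ (Th t y) ^ 8 := pow_nonneg (hδ.le.trans T0) 8
    refine ⟨⟨by linarith [hb.1, min_le_left Λa Λb], hb.2⟩, ⟨by linarith [hb.1, min_le_right Λa Λb], hb.2⟩, hc, r0,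
      T0, ?_, ?_⟩
    · unfold JJ
      exact mul_nonneg T80 p0
    · unfold JJ
      exact mul_le_mul T8 p1 p0 (by positivity)
  have kB : ∀ j ≤ 8, ClBd (clMid t₁ Λ₂ y₀) (dY^[j] g.B) := fun j hj =>
    cl_mid_symC (R := 1 / δ) hB hδ (fun t y hp => by
      obtain ⟨a1, a2, a3, a4, a5, a6, a7⟩ := key t y hp
      exact ⟨a1, a3, a4, one_div_nonneg.2 (hδ.le.trans a4), one_div_le_one_div_of_le hδ a4⟩) j hj
  have kw : ∀ j ≤ 8, ClBd (clMid t₁ Λ₂ y₀) (dY^[j] (dY g.w)) := fun j hj =>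
    cl_mid_symC (R := 1 / δ) hwp hδ (fun t y hp => by
      obtain ⟨a1, a2, a3, a4, a5, a6, a7⟩ := key t y hp
      exact ⟨a1, a3, a4, one_div_nonneg.2 (hδ.le.trans a4), one_div_le_one_div_of_le hδ a4⟩) j hj
  have kW : ∀ j ≤ 8, ClBd (clMid t₁ Λ₂ y₀) (dY^[j] g.W) := fun j hj =>
    cl_mid_symC (R := 1 / δ) hW hδ (fun t y hp => by
      obtain ⟨a1, a2, a3, a4, a5, a6, a7⟩ := key t y hp
      exact ⟨a1, a3, a4, one_div_nonneg.2 (hδ.le.trans a5), one_div_le_one_div_of_le hδ a5⟩) j hj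
  have kwt : ∀ j ≤ 6, ClBd (clMid t₁ Λ₂ y₀) (dY^[j] (dT g.w)) := fun j hj =>
    cl_mid_symC (R := J₀ / δ) hwt hδ (fun t y hp => by
      obtain ⟨a1, a2, a3, a4, a5, a6, a7⟩ := key t y hp
      exact ⟨a2, a3, a4, div_nonneg a6 (hδ.le.trans a5), div_le_div₀ hJ0 a7 hδ a5⟩) j hj
  have kBt : ∀ j ≤ 6, ClBd (clMid t₁ Λ₂ y₀) (dY^[j] (dT g.B)) := fun j hj =>
    cl_mid_symC (R := J₀ / (δ * δ)) hBt hδ (fun t y hp => by
      obtain ⟨a1, a2, a3, a4, a5, a6, a7⟩ := key t y hp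
      exact ⟨a2, a3, a4, div_nonneg a6 (mul_nonneg (hδ.le.trans a4) (hδ.le.trans a5)),
        div_le_div₀ hJ0 a7 (mul_pos hδ hδ) (mul_le_mul a4 a5 hδ.le (hδ.le.trans a4))⟩) j hj
  refine ⟨Λ₂, hΛ, kB 0 (by norm_num), kB 1 (by norm_num), kw 0 (by norm_num), kW 0 (by norm_num), ?_,
    kBt 0 (by norm_num), kBt 1 (by norm_num), kwt 0 (by norm_num), kwt 1 (by norm_num)⟩
  refine ⟨max Ca 1, ?_⟩
  rintro ⟨t, y⟩ hp
  obtain ⟨a1, a2, a3, a4, a5, a6, a7⟩ := key t y hp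
  have hpos := hg.sm.pos t a1.2 y
  have hZ : g.Z (t, y) = 1 / (1 + Xf y * g.B (t, y)) := rfl
  rw [abs_of_pos (hg.sm.Z_pos a1.2 y), hZ]
  rcases lt_or_ge 0 Ca with hC | hC
  · refine le_trans ?_ (le_max_left _ _)
    rw [one_div_le hpos hC]
    exact hden t a1 y a3
  · refine le_trans ?_ (le_max_right _ _)
    have hb := hB t a1 y a3 0 (by norm_num)
    rw [iteratedDeriv_zero, pow_zero, div_one] at hb
    have hb2 : Ca * (1 / rh2 q t y) ≤ 0 :=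
      mul_nonpos_of_nonpos_of_nonneg hC (one_div_nonneg.2 (hδ.le.trans a4))
    have hb3 : |sl g.B t y| ≤ 0 := hb.trans hb2
    have hb4 : g.B (t, y) = 0 := abs_nonpos_iff.1 hb3
    rw [hb4]
    norm_num

/-! ### assembly -/

theorem cl_coef_mid_aux (q : ℝ) (hq : 100 ≤ q) (g : Bg) (hg : BgGood q g) (U : Tri)
    (hU : ∀ j, Sm (U j)) (t₁ ε N : ℝ) (hε0 : 0 ≤ ε) (hε : ε ≤ 1 / 1000) (hN : 0 ≤ N)
    (hpt : CLPt q U t₁ ε N) (y₀ : ℝ) (h0 : 0 < y₀) (h1 : y₀ < 1) :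
    ∃ Λ₂ C : ℝ, 0 < Λ₂ ∧ 0 ≤ C ∧ ∀ t ∈ Ico (max t₁ (-Λ₂)) 0, ∀ y ∈ Icc (-y₀) y₀,
      |omF q g U (t, y)| ≤ C ∧ |gS q g U t y| ≤ C ∧ |cS q g U t y| ≤ C ∧ |fS q g U t y| ≤ C := by
  obtain ⟨Λ₂, hΛ, bB, bBp, bwp, bW, bZ, bBt, bBtp, bwt, bwtp⟩ := cl_mid_atoms_bg q hq g hg t₁ y₀ h0 h1
  obtain ⟨hbe, b0, b1, b2, b0p, b1p, bbep, c0, c1, c2, c0p, c1p, c2p⟩ :=
    cl_mid_atoms_U q hq U t₁ ε N hε0 hN hpt Λ₂ y₀ h0 h1
  have hsm := hg.sm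
  have hneg : ∀ {t y : ℝ}, (t, y) ∈ clMid t₁ Λ₂ y₀ → t < 0 := fun hp => (cl_mid_mem h1 hp).1.2
  -- coordinates
  have by2 : ClBd (clMid t₁ Λ₂ y₀) (fun p => p.2) := by
    refine ⟨1, ?_⟩
    rintro ⟨t, y⟩ hp
    obtain ⟨-, -, hc, -, -⟩ := cl_mid_mem h1 hp
    exact abs_le.2 hc
  have bX : ClBd (clMid t₁ Λ₂ y₀) (fun p => Xf p.2) := by
    unfold Xf
    exact (ClBd.const 1).sub (by2.pow 2)
  have bbe : ClBd (clMid t₁ Λ₂ y₀) (beF U) := ⟨ε, hbe⟩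
  have bPh1 : ClBd (clMid t₁ Λ₂ y₀) (fun p => Ph1 (beF U p)) :=
    ⟨3, fun p hp => ph1_abs_le ((hbe p hp).trans (by linarith))⟩
  have bh1 : ClBd (clMid t₁ Λ₂ y₀) (h1F q U) := by
    unfold h1F
    exact b0.add ((ClBd.const _).mul (bX.mul b2))
  have bh2 : ClBd (clMid t₁ Λ₂ y₀) (h2F q U) := by
    unfold h2F
    exact b0.sub ((ClBd.const _).mul (bX.mul b2))
  have be1 : ClBd (clMid t₁ Λ₂ y₀) (e1F q U) := bh1.neg.exp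
  have be2 : ClBd (clMid t₁ Λ₂ y₀) (e2F q U) := bh2.neg.exp
  have be3 : ClBd (clMid t₁ Λ₂ y₀) (e3F U) := b1.neg.exp
  have bbPh : ClBd (clMid t₁ Λ₂ y₀) (bPh q U) := (b2.mul be2).mul bPh1
  have bh1p : ClBd (clMid t₁ Λ₂ y₀) (dY (h1F q U)) :=
    (b0p.add ((ClBd.const (q / (q + 1))).mul bbep)).congr
      (by rintro ⟨t, y⟩ hp; exact cl_mid_dY_h1 q hU (hneg hp) y)
  have bh2p : ClBd (clMid t₁ Λ₂ y₀) (dY (h2F q U)) :=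
    (b0p.sub ((ClBd.const (1 / (q + 1))).mul bbep)).congr
      (by rintro ⟨t, y⟩ hp; exact cl_mid_dY_h2 q hU (hneg hp) y)
  have bdd : ClBd (clMid t₁ Λ₂ y₀) g.dd :=
    ((((ClBd.const (-2)).mul by2).mul bB).add (bX.mul bBp)).congr
      (by rintro ⟨t, y⟩ hp; exact hsm.dd_eq (hneg hp) y)
  have bden : ClBd (clMid t₁ Λ₂ y₀) (fun p => 1 + Xf p.2 * g.B p) := (ClBd.const 1).add (bX.mul bB)
  have blog : ClBd (clMid t₁ Λ₂ y₀) (fun p => Real.log (1 + Xf p.2 * g.B p)) := by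
    obtain ⟨C1, hC1⟩ := bden
    obtain ⟨C2, hC2⟩ := bZ
    refine ⟨C1 + C2, ?_⟩
    rintro ⟨t, y⟩ hp
    have hpos := hsm.pos t (hneg hp) y
    have hz : 1 / (1 + Xf y * g.B (t, y)) = g.Z (t, y) := rfl
    have e1 : 1 + Xf y * g.B (t, y) ≤ C1 := (le_abs_self _).trans (hC1 (t, y) hp)
    have e2 : g.Z (t, y) ≤ C2 := (le_abs_self _).trans (hC2 (t, y) hp)
    refine (cl_mid_log hpos).trans ?_
    rw [hz]
    exact add_le_add e1 e2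
  have bA1 : ClBd (clMid t₁ Λ₂ y₀) (A1F q g U) := bh1.add blog
  have bA1p : ClBd (clMid t₁ Λ₂ y₀) (dY (A1F q g U)) :=
    (bh1p.add (bdd.mul bZ)).congr (by rintro ⟨t, y⟩ hp; exact cl_mid_dY_A1 q hsm hU (hneg hp) y)
  have bC1p : ClBd (clMid t₁ Λ₂ y₀) (dY (C1F g U)) :=
    (bwp.add b1p).congr (by rintro ⟨t, y⟩ hp; exact cl_mid_dY_C1 hsm hU (hneg hp) y)
  have bwp' : ClBd (clMid t₁ Λ₂ y₀) g.wp := bwp
  have bmW : ClBd (clMid t₁ Λ₂ y₀) (mW q g U) := by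
    unfold mW
    exact bW.sub (((((bZ.mul be1).mul (((bh1p.neg.div_const 2).add ((ClBd.const (q / 2)).mul bh2p)).add b1p))).add
      ((((ClBd.const q).mul by2).mul bZ).mul bbPh)).sub ((bZ.mul bwp').mul (be3.sub be1)))
  have bkA : ClBd (clMid t₁ Λ₂ y₀) (kAF q g U) :=
    ((c0.add ((ClBd.const (q / (q + 1))).mul (bX.mul c2))).add ((bX.mul bBt).mul bZ)).congr
      (by rintro ⟨t, y⟩ hp; exact cl_mid_kA q hsm hU (hneg hp) y)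
  have bkC : ClBd (clMid t₁ Λ₂ y₀) (kCF g U) :=
    (bwt.add c1).congr (by rintro ⟨t, y⟩ hp; exact cl_mid_kC hsm hU (hneg hp) y)
  have bkb : ClBd (clMid t₁ Λ₂ y₀) (kbF g U) := c2.add (bZ.mul bBt)
  have bZp : ClBd (clMid t₁ Λ₂ y₀) (dY g.Z) :=
    (bdd.neg.mul (bZ.pow 2)).congr (by rintro ⟨t, y⟩ hp; exact cl_mid_dY_Z hsm (hneg hp) y)
  have bXBtp : ClBd (clMid t₁ Λ₂ y₀) (dY (fun p => Xf p.2 * dT g.B p)) :=
    ((((ClBd.const (-2)).mul by2).mul bBt).add (bX.mul bBtp)).congr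
      (by rintro ⟨t, y⟩ hp; exact dY_X_mul hsm.smB.dT (hneg hp) y)
  have bkAp : ClBd (clMid t₁ Λ₂ y₀) (dY (kAF q g U)) :=
    ((c0p.add ((ClBd.const (q / (q + 1))).mul c2p)).add ((bXBtp.mul bZ).add ((bX.mul bBt).mul bZp))).congr
      (by rintro ⟨t, y⟩ hp; exact cl_mid_dY_kA q hsm hU (hneg hp) y)
  have bkBp : ClBd (clMid t₁ Λ₂ y₀) (dY (kBF q U)) :=
    (c0p.sub ((ClBd.const (1 / (q + 1))).mul c2p)).congr
      (by rintro ⟨t, y⟩ hp; exact cl_mid_dY_kB q hU (hneg hp) y)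
  have bkCp : ClBd (clMid t₁ Λ₂ y₀) (dY (kCF g U)) :=
    (bwtp.add c1p).congr (by rintro ⟨t, y⟩ hp; exact cl_mid_dY_kC hsm hU (hneg hp) y)
  have bX' : ClBd (clMid t₁ Λ₂ y₀) (fun p => 1 - p.2 ^ 2) := bX
  -- the four functions
  have Bom : ClBd (clMid t₁ Λ₂ y₀) (omF q g U) := (bA1.div_const 2).exp.mul bmW
  have Bg : ClBd (clMid t₁ Λ₂ y₀) (fun p => gS q g U p.1 p.2) :=
    (((bA1p.neg.div_const 2).add ((ClBd.const (q / 2)).mul bh2p)).add bC1p).add (bA1.exp.mul bmW)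
  have Bc : ClBd (clMid t₁ Λ₂ y₀) (fun p => cS q g U p.1 p.2) :=
    ((((((ClBd.const 1).add (by2.mul Bg)).add (((ClBd.const (q / 4)).mul bX').mul (bh2p.pow 2))).sub
      (((ClBd.const q).mul by2).mul bh2p)).add ((bX'.mul (bC1p.pow 2)).div_const 2))).add
      ((bA1.exp.mul bkA).div_const 2)
  have Bf : ClBd (clMid t₁ Λ₂ y₀) (fun p => fS q g U p.1 p.2) :=
    (bA1.div_const 2).exp.mul
      (((((bkAp.div_const 2).sub ((ClBd.const (q / 2)).mul bkBp)).sub bkCp).add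
        (((ClBd.const (q / 2)).mul ((bX'.mul bh2p).sub ((ClBd.const 2).mul by2))).mul bkb)).add
        (bC1p.mul (bkA.sub bkC)))
  obtain ⟨K1, hK1⟩ := Bom
  obtain ⟨K2, hK2⟩ := Bg
  obtain ⟨K3, hK3⟩ := Bc
  obtain ⟨K4, hK4⟩ := Bf
  refine ⟨Λ₂, max (max K1 K2) (max (max K3 K4) 0), hΛ, (le_max_right _ _).trans (le_max_right _ _), ?_⟩
  intro t ht y hy
  have hp : (t, y) ∈ clMid t₁ Λ₂ y₀ := ⟨ht, hy⟩
  refine ⟨(hK1 _ hp).trans ?_, (hK2 _ hp).trans ?_, (hK3 _ hp).trans ?_, (hK4 _ hp).trans ?_⟩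
  · exact (le_max_left _ _).trans (le_max_left _ _)
  · exact (le_max_right _ _).trans (le_max_left _ _)
  · exact ((le_max_left _ _).trans (le_max_left _ _)).trans (le_max_right _ _)
  · exact ((le_max_right _ _).trans (le_max_left _ _)).trans (le_max_right _ _)

/-- hygiene. -/
theorem core_cl_coefm_hygiene : True := by
  have := @ClBd.eq_1
  have := @clMid.eq_1
  trivial

end

end Claimed.Agent.R324.Core
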