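/-
Row 324 (S0582), PDE core, module CL.   Architect: helper325; this file: helper226 (subtask 9280).
Auxiliary lemmas for `cl_coef_N` of CL/Coef.lean:
 * pure inequalities between real numbers ("atoms"): `cl_cn_g`, `cl_cn_c_low`, `cl_cn_c_abs`, `cl_cn_K`;
 * the formulas (F2), (F3) of the header of CL/Coef.lean: `cl_cn_cS_eq`, `cl_cn_fS_eq` and the jets `cl_cn_X_dY_*`, `cl_cn_k*`;
 * the bounds at one point `(t,y)`: `cl_cn_point`.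
-/
import Claimed.Agent.R324.Core.CL.OdeSlice
import Claimed.Agent.R324.Core.PR.Jet1

set_option autoImplicit false

namespace Claimed.Agent.R324.Core

open Set Filter Topology MeasureTheory
open scoped ContDiff


/-- product of bounds -/
theorem cl_cn_abs_mul {a b A B : ℝ} (ha : |a| ≤ A) (hb : |b| ≤ B) : |a * b| ≤ A * B := by
  rw [abs_mul]
  exact mul_le_mul ha hb (abs_nonneg _) ((abs_nonneg _).trans ha)

theorem cl_cn_exp {x b : ℝ} (hx : |x| ≤ b) (hb : b ≤ 1) : |Real.exp x - 1| ≤ 2 * b :=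
  (Real.abs_exp_sub_one_le (hx.trans hb)).trans (by linarith)

theorem cl_cn_sq_le {a b : ℝ} (h : |a| ≤ b) : a ^ 2 ≤ b ^ 2 :=
  sq_le_sq' (abs_le.1 h).1 (abs_le.1 h).2

theorem cl_cn_eps {ε σ : ℝ} (hε : ε ≤ 1 / 1000) (hσ0 : 0 ≤ σ) (hσ1 : σ ≤ 1) :
    ε * σ ≤ 1 / 1000 ∧ ε * σ ≤ σ / 1000 := by
  have h1 := mul_le_mul_of_nonneg_right hε hσ0
  constructor <;> linarith

/-- atoms: bound of `X 𝔤`. -/
theorem cl_cn_g {q ε σ s y a1 w1 E13 GW Eβ : ℝ} (hq : 10 ^ 6 ≤ q) (hε : ε ≤ 1 / 1000)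
    (hσ0 : 0 ≤ σ) (hσ1 : σ ≤ 1) (hsσ : s ≤ σ) (hy0 : 0 ≤ y) (hy1 : y ≤ 1)
    (ha1 : |a1| ≤ 1) (hw1 : |w1| ≤ 4 * s) (hE13 : |E13 - 1| ≤ 6 * ε) (hGW : |GW| ≤ s / 2)
    (hEβ : |Eβ - 1| ≤ 2 * (ε * σ)) :
    |-a1 / 2 + w1 * E13 + GW - q * y * (Eβ - 1)| ≤ q / 40 := by
  have hyabs : |y| ≤ 1 := abs_le.2 ⟨by linarith, hy1⟩
  have hqabs : |q| ≤ q := (abs_of_nonneg (by linarith)).le
  have hεσ := (cl_cn_eps hε hσ0 hσ1).1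
  have hE : |E13| ≤ 2 := by
    have := abs_le.1 hE13
    exact abs_le.2 ⟨by linarith, by linarith⟩
  have p1 := abs_le.1 (cl_cn_abs_mul hw1 hE)
  have p2 := abs_le.1 (cl_cn_abs_mul (cl_cn_abs_mul hqabs hyabs) (hEβ.trans (by linarith : 2 * (ε * σ) ≤ 1 / 500)))
  have p3 := abs_le.1 ha1
  have p4 := abs_le.1 hGW
  exact abs_le.2 ⟨by linarith, by linarith⟩

theorem cl_cn_H {ε σ T0 Tβ r' : ℝ} (hT0 : |T0| ≤ ε * σ) (hTβ : |Tβ| ≤ ε * σ) (hr0 : 0 ≤ r')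
    (hr1 : r' ≤ 1) : |-T0 + r' * Tβ| ≤ 2 * (ε * σ) := by
  have hrabs : |r'| ≤ 1 := abs_le.2 ⟨by linarith, hr1⟩
  have h1 := abs_le.1 (cl_cn_abs_mul hrabs hTβ)
  have h2 := abs_le.1 hT0
  exact abs_le.2 ⟨by linarith, by linarith⟩

/-- atoms: lower bound of `X 𝔠`. -/
theorem cl_cn_c_low {q ε σ s X y a1 w1 E13 GW Eβ H T1 KA : ℝ} (hq : 10 ^ 6 ≤ q) (hε0 : 0 ≤ ε)
    (hε : ε ≤ 1 / 1000) (hσ0 : 0 ≤ σ) (hσ1 : σ ≤ 1) (hs0 : 0 ≤ s) (hsσ : s ≤ σ) (hy0 : 0 ≤ y)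
    (hy1 : y ≤ 1) (hw1 : |w1| ≤ 4 * s) (hE13 : |E13 - 1| ≤ 6 * ε) (hGW : |GW| ≤ s / 2)
    (hEβ : |Eβ - 1| ≤ 2 * (ε * σ))
    (hL : -3 * s ≤ X - y * a1 / 2 + y * w1 + w1 ^ 2 / 2)
    (hH : |H| ≤ 2 * (ε * σ)) (hT1 : |T1| ≤ ε * σ) (hKA : |KA| ≤ s / 2) :
    -(q / 40) * σ ≤ X + y * (-a1 / 2 + w1 * E13 + GW - q * y * (Eβ - 1))
        + q / 4 * H ^ 2 - q * y * H + (w1 - T1) ^ 2 / 2 + KA := by
  have hq0 : 0 ≤ q := by linarith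
  have hyabs : |y| ≤ 1 := abs_le.2 ⟨by linarith, hy1⟩
  have hqabs : |q| ≤ q := (abs_of_nonneg hq0).le
  obtain ⟨hεσ, hεσ'⟩ := cl_cn_eps hε hσ0 hσ1
  have q1 := (abs_le.1 (cl_cn_abs_mul (cl_cn_abs_mul hyabs hw1) hE13)).1
  have q2 := (abs_le.1 (cl_cn_abs_mul hyabs hGW)).1
  have q3 := (abs_le.1 (cl_cn_abs_mul (cl_cn_abs_mul (cl_cn_abs_mul hqabs hyabs) hyabs) hEβ)).2
  have q4 := (abs_le.1 (cl_cn_abs_mul (cl_cn_abs_mul hqabs hyabs) hH)).2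
  have q5 := (abs_le.1 (cl_cn_abs_mul hw1 hT1)).2
  have q6 := (abs_le.1 hKA).1
  have q7 : 0 ≤ q / 4 * H ^ 2 := by positivity
  have q8 : 0 ≤ T1 ^ 2 / 2 := by positivity
  have e1 : s * ε ≤ s * (1 / 1000) := mul_le_mul_of_nonneg_left hε hs0
  have e2 : s * (ε * σ) ≤ s * (1 / 1000) := mul_le_mul_of_nonneg_left hεσ hs0
  have e3 : q * (ε * σ) ≤ q * (σ / 1000) := mul_le_mul_of_nonneg_left hεσ' hq0
  have e4 : 0 ≤ (q / 40 - q / 250 - 6) * σ := mul_nonneg (by linarith) hσ0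
  have key : X + y * (-a1 / 2 + w1 * E13 + GW - q * y * (Eβ - 1)) + q / 4 * H ^ 2 - q * y * H
      + (w1 - T1) ^ 2 / 2 + KA
      = (X - y * a1 / 2 + y * w1 + w1 ^ 2 / 2) + y * w1 * (E13 - 1) + y * GW
        - q * y * y * (Eβ - 1) + q / 4 * H ^ 2 - q * y * H - w1 * T1 + T1 ^ 2 / 2 + KA := by ring
  rw [key]
  linarith

/-- atoms: upper bound of `|X 𝔠|`. -/
theorem cl_cn_c_abs {q ε σ s X y G w1 H T1 KA : ℝ} (hq : 10 ^ 6 ≤ q)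
    (hε : ε ≤ 1 / 1000) (hσ0 : 0 ≤ σ) (hσ1 : σ ≤ 1) (hsσ : s ≤ σ) (hy0 : 0 ≤ y)
    (hy1 : y ≤ 1) (hX0 : 0 ≤ X) (hX1 : X ≤ 1) (hG : |G| ≤ q / 40) (hw1 : |w1| ≤ 4 * s)
    (hH : |H| ≤ 2 * (ε * σ)) (hT1 : |T1| ≤ ε * σ) (hKA : |KA| ≤ s / 2) :
    |X + y * G + q / 4 * H ^ 2 - q * y * H + (w1 - T1) ^ 2 / 2 + KA| ≤ 3 * q := by
  have hq0 : 0 ≤ q := by linarith
  have hyabs : |y| ≤ 1 := abs_le.2 ⟨by linarith, hy1⟩
  have hqabs : |q| ≤ q := (abs_of_nonneg hq0).le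
  obtain ⟨hεσ, hεσ'⟩ := cl_cn_eps hε hσ0 hσ1
  have r1 := abs_le.1 (cl_cn_abs_mul hyabs hG)
  have r2 : q / 4 * H ^ 2 ≤ q / 4 * 1 ^ 2 :=
    mul_le_mul_of_nonneg_left (cl_cn_sq_le (hH.trans (by linarith))) (by linarith)
  have r3 : (w1 - T1) ^ 2 ≤ 5 ^ 2 := by
    have a := abs_le.1 hw1
    have b := abs_le.1 hT1
    exact cl_cn_sq_le (abs_le.2 ⟨by linarith, by linarith⟩)
  have r4 : 0 ≤ (w1 - T1) ^ 2 / 2 := by positivity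
  have r5 : q * (ε * σ) ≤ q * (1 / 1000) := mul_le_mul_of_nonneg_left hεσ hq0
  have q4 := abs_le.1 (cl_cn_abs_mul (cl_cn_abs_mul hqabs hyabs) hH)
  have q6 := abs_le.1 hKA
  have q7 : 0 ≤ q / 4 * H ^ 2 := by positivity
  exact abs_le.2 ⟨by linarith, by linarith⟩

/-- atoms: bound of `X K`. -/
theorem cl_cn_K {q B ϖ σ s ε y Z a1 w1 H T1 r r' k0 k1 k2 K0 K1 K2 b0 b1 v0 v1 : ℝ}
    (hq : 1 ≤ q) (hB : 0 ≤ B) (hϖ : 0 ≤ ϖ) (hσ0 : 0 ≤ σ) (hσ1 : σ ≤ 1) (hsσ : s ≤ σ)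
    (hε : ε ≤ 1 / 1000) (hy0 : 0 ≤ y) (hy1 : y ≤ 1) (hZ0 : 0 ≤ Z) (hZ : Z ≤ 2) (ha1 : |a1| ≤ 1)
    (hw1 : |w1| ≤ 4 * s) (hH : |H| ≤ 2 * (ε * σ)) (hT1 : |T1| ≤ ε * σ) (hr0 : 0 ≤ r) (hr1 : r ≤ 1)
    (hr0' : 0 ≤ r') (hr1' : r' ≤ 1)
    (hk0 : |k0| ≤ B * ϖ) (hk1 : |k1| ≤ B * ϖ) (hv0 : |v0| ≤ B * ϖ)
    (hk2 : |k2| ≤ B * (ϖ * σ)) (hK0 : |K0| ≤ B * (ϖ * σ)) (hK1 : |K1| ≤ B * (ϖ * σ))
    (hK2 : |K2| ≤ B * (ϖ * σ)) (hb0 : |b0| ≤ B * (ϖ * σ)) (hb1 : |b1| ≤ B * (ϖ * σ))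
    (hv1 : |v1| ≤ B * (ϖ * σ)) :
    |(-K0 - r * K2 + (-2 * y * Z * b0 - Z * a1 * b0 + Z * b1)) / 2 - q / 2 * (-K0 + r' * K2)
        - (v1 - K1) + q / 2 * (H - 2 * y) * (k2 + Z * b0)
        + (w1 - T1) * ((k0 + r * k2 + Z * b0) - (v0 + k1))| ≤ (6 * q + 40) * B * (ϖ * σ) := by
  have hq0 : 0 ≤ q := by linarith
  have hyabs : |y| ≤ 1 := abs_le.2 ⟨by linarith, hy1⟩
  have hqabs : |q| ≤ q := (abs_of_nonneg hq0).le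
  have hrabs : |r| ≤ 1 := abs_le.2 ⟨by linarith, hr1⟩
  have hrabs' : |r'| ≤ 1 := abs_le.2 ⟨by linarith, hr1'⟩
  have hZabs : |Z| ≤ 2 := abs_le.2 ⟨by linarith, hZ⟩
  have hεσ : ε * σ ≤ σ / 1000 := by
    have := mul_le_mul_of_nonneg_right hε hσ0
    linarith
  have hMϖ : B * (ϖ * σ) ≤ B * ϖ :=
    mul_le_mul_of_nonneg_left (by nlinarith) hB
  obtain ⟨M, hM⟩ : ∃ M : ℝ, M = B * (ϖ * σ) := ⟨_, rfl⟩
  obtain ⟨Mv, hMv⟩ : ∃ Mv : ℝ, Mv = B * ϖ := ⟨_, rfl⟩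
  have hfin : (6 * q + 40) * B * (ϖ * σ) = (6 * q + 40) * M := by rw [hM]; ring
  have h30 : 5 * σ * (6 * Mv) = 30 * M := by rw [hM, hMv]; ring
  rw [hfin]
  rw [← hM] at hk2 hK0 hK1 hK2 hb0 hb1 hv1 hMϖ
  rw [← hMv] at hk0 hk1 hv0 hMϖ
  have hM0 : 0 ≤ M := (abs_nonneg _).trans hk2
  clear hM hMv hfin
  have zb0 := cl_cn_abs_mul hZabs hb0
  have zb1 := abs_le.1 (cl_cn_abs_mul hZabs hb1)
  have t1a := cl_cn_abs_mul hrabs hK2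
  have t1a' := cl_cn_abs_mul hrabs' hK2
  have t1b := abs_le.1 (cl_cn_abs_mul hyabs zb0)
  have t1c := abs_le.1 (cl_cn_abs_mul ha1 zb0)
  have rk2 := abs_le.1 (cl_cn_abs_mul hrabs hk2)
  have aK0 := abs_le.1 hK0
  have aK1 := abs_le.1 hK1
  have av1 := abs_le.1 hv1
  have ak2 := abs_le.1 hk2
  have azb0 := abs_le.1 zb0
  have at1a := abs_le.1 t1a
  have at1a' := abs_le.1 t1a'
  have u2 : |-K0 + r' * K2| ≤ 2 * M := abs_le.2 ⟨by linarith, by linarith⟩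
  have u3 : |H - 2 * y| ≤ 3 := by
    have := abs_le.1 hH
    exact abs_le.2 ⟨by linarith, by linarith⟩
  have u4 : |k2 + Z * b0| ≤ 3 * M := abs_le.2 ⟨by linarith, by linarith⟩
  have u5 : |w1 - T1| ≤ 5 * σ := by
    have a := abs_le.1 hw1
    have b := abs_le.1 hT1
    exact abs_le.2 ⟨by linarith, by linarith⟩
  have u6 : |(k0 + r * k2 + Z * b0) - (v0 + k1)| ≤ 6 * Mv := by
    have a := abs_le.1 hk0
    have b := abs_le.1 hk1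
    have c := abs_le.1 hv0
    exact abs_le.2 ⟨by linarith, by linarith⟩
  have T2 := abs_le.1 (cl_cn_abs_mul hqabs u2)
  have T4 := abs_le.1 (cl_cn_abs_mul hqabs (cl_cn_abs_mul u3 u4))
  have T5 := abs_le.1 (cl_cn_abs_mul u5 u6)
  rw [h30] at T5
  have hqM : 0 ≤ q * M := mul_nonneg hq0 hM0
  exact abs_le.2 ⟨by linarith, by linarith⟩



theorem cl_cn_cS_eq (q : ℝ) (g : Bg) (U : Tri) (t y : ℝ) :
    (1 - y ^ 2) * cS q g U t y = Xf y + y * ((1 - y ^ 2) * gS q g U t y)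
      + q / 4 * (Xf y * dY (h2F q U) (t, y)) ^ 2 - q * y * (Xf y * dY (h2F q U) (t, y))
      + (Xf y * dY (C1F g U) (t, y)) ^ 2 / 2
      + Xf y * (Real.exp (A1F q g U (t, y)) * kAF q g U (t, y)) / 2 := by
  show (1 - y ^ 2) * (1 + y * gS q g U t y + q / 4 * (1 - y ^ 2) * (dY (h2F q U) (t, y)) ^ 2
      - q * y * dY (h2F q U) (t, y) + (1 - y ^ 2) * (dY (C1F g U) (t, y)) ^ 2 / 2
      + Real.exp (A1F q g U (t, y)) * kAF q g U (t, y) / 2)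
    = (1 - y ^ 2) + y * ((1 - y ^ 2) * gS q g U t y)
      + q / 4 * ((1 - y ^ 2) * dY (h2F q U) (t, y)) ^ 2 - q * y * ((1 - y ^ 2) * dY (h2F q U) (t, y))
      + ((1 - y ^ 2) * dY (C1F g U) (t, y)) ^ 2 / 2
      + (1 - y ^ 2) * (Real.exp (A1F q g U (t, y)) * kAF q g U (t, y)) / 2
  ring

theorem cl_cn_fS_eq (q : ℝ) (g : Bg) (U : Tri) (t y : ℝ) :
    (1 - y ^ 2) * fS q g U t y = Real.exp (A1F q g U (t, y) / 2) *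
      (Xf y * dY (kAF q g U) (t, y) / 2 - q / 2 * (Xf y * dY (kBF q U) (t, y))
        - Xf y * dY (kCF g U) (t, y)
        + q / 2 * (Xf y * dY (h2F q U) (t, y) - 2 * y) * (Xf y * kbF g U (t, y))
        + (Xf y * dY (C1F g U) (t, y)) * (kAF q g U (t, y) - kCF g U (t, y))) := by
  show (1 - y ^ 2) * (Real.exp (A1F q g U (t, y) / 2) *
      (dY (kAF q g U) (t, y) / 2 - q / 2 * dY (kBF q U) (t, y) - dY (kCF g U) (t, y)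
        + q / 2 * ((1 - y ^ 2) * dY (h2F q U) (t, y) - 2 * y) * kbF g U (t, y)
        + dY (C1F g U) (t, y) * (kAF q g U (t, y) - kCF g U (t, y))))
    = Real.exp (A1F q g U (t, y) / 2) *
      ((1 - y ^ 2) * dY (kAF q g U) (t, y) / 2 - q / 2 * ((1 - y ^ 2) * dY (kBF q U) (t, y))
        - (1 - y ^ 2) * dY (kCF g U) (t, y)
        + q / 2 * ((1 - y ^ 2) * dY (h2F q U) (t, y) - 2 * y) * ((1 - y ^ 2) * kbF g U (t, y))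
        + ((1 - y ^ 2) * dY (C1F g U) (t, y)) * (kAF q g U (t, y) - kCF g U (t, y)))
  ring

variable {g : Bg} {U : Tri} {t : ℝ}

theorem cl_cn_X_dY (f : Fn) (t y : ℝ) : Xf y * dY f (t, y) = -tt (sl f t) y := by
  show (1 - y ^ 2) * dY f (t, y) = -(-(1 - y ^ 2) * dY f (t, y))
  ring

theorem cl_cn_X_dY_h2 (q : ℝ) (hU : ∀ j, Sm (U j)) (ht : t < 0) (y : ℝ) :
    Xf y * dY (h2F q U) (t, y)
      = -tt (sl (U 0) t) y + 1 / (q + 1) * tt (fun z => Xf z * U 2 (t, z)) y := by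
  have h1 : dY (h2F q U) (t, y)
      = dY (U 0) (t, y) - 1 / (q + 1) * dY (fun p => Xf p.2 * U 2 p) (t, y) := by
    show dY (fun p => U 0 p - 1 / (q + 1) * (Xf p.2 * U 2 p)) (t, y) = _
    rw [dY_sub (hU 0) ((sm_Xf.mul (hU 2)).const_mul _) ht y,
      dY_const_mul _ (sm_Xf.mul (hU 2)) ht y]
  have h2 := cl_cn_X_dY (U 0) t y
  have h3 : Xf y * dY (fun p => Xf p.2 * U 2 p) (t, y) = -tt (fun z => Xf z * U 2 (t, z)) y :=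
    cl_cn_X_dY (fun p => Xf p.2 * U 2 p) t y
  rw [h1, mul_sub, h2]
  linear_combination (-(1 / (q + 1))) * h3

theorem cl_cn_X_dY_C1 (hg : BgSm g) (hU : ∀ j, Sm (U j)) (ht : t < 0) (y : ℝ) :
    Xf y * dY (C1F g U) (t, y) = Xf y * g.wp (t, y) - tt (sl (U 1) t) y := by
  have h1 : dY (C1F g U) (t, y) = g.wp (t, y) + dY (U 1) (t, y) := by
    show dY (fun p => g.w p + U 1 p) (t, y) = _
    rw [dY_add hg.smw (hU 1) ht y]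
    rfl
  rw [h1, mul_add, cl_cn_X_dY (U 1) t y]
  ring

theorem cl_cn_kA (q : ℝ) (hg : BgSm g) (hU : ∀ j, Sm (U j)) (ht : t < 0) (y : ℝ) :
    kAF q g U (t, y) = dT (U 0) (t, y) + q / (q + 1) * (Xf y * dT (U 2) (t, y))
      + g.Z (t, y) * (Xf y * dT g.B (t, y)) := by
  show dT (fun p => h1F q U p + Real.log (1 + Xf p.2 * g.B p)) (t, y) = _
  rw [dT_add (sm_h1F q hU) (hg.smden.log hg.den_ne) ht y, hg.dT_log_den ht y]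
  have h1 : dT (h1F q U) (t, y) = dT (U 0) (t, y) + q / (q + 1) * (Xf y * dT (U 2) (t, y)) := by
    show dT (fun p => U 0 p + q / (q + 1) * (Xf p.2 * U 2 p)) (t, y) = _
    rw [dT_add (hU 0) ((sm_Xf.mul (hU 2)).const_mul _) ht y,
      dT_const_mul _ (sm_Xf.mul (hU 2)) ht y, dT_y_mul Xf (hU 2) ht y]
  rw [h1]
  ring

theorem cl_cn_kB (q : ℝ) (hU : ∀ j, Sm (U j)) (ht : t < 0) (y : ℝ) :
    kBF q U (t, y) = dT (U 0) (t, y) - 1 / (q + 1) * (Xf y * dT (U 2) (t, y)) := by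
  show dT (fun p => U 0 p - 1 / (q + 1) * (Xf p.2 * U 2 p)) (t, y) = _
  rw [dT_sub (hU 0) ((sm_Xf.mul (hU 2)).const_mul _) ht y,
    dT_const_mul _ (sm_Xf.mul (hU 2)) ht y, dT_y_mul Xf (hU 2) ht y]

theorem cl_cn_kC (hg : BgSm g) (hU : ∀ j, Sm (U j)) (ht : t < 0) (y : ℝ) :
    kCF g U (t, y) = dT g.w (t, y) + dT (U 1) (t, y) := by
  show dT (fun p => g.w p + U 1 p) (t, y) = _
  rw [dT_add hg.smw (hU 1) ht y]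

theorem cl_cn_X_kb (g : Bg) (U : Tri) (t y : ℝ) :
    Xf y * kbF g U (t, y) = Xf y * dT (U 2) (t, y) + g.Z (t, y) * (Xf y * dT g.B (t, y)) := by
  show Xf y * (dT (U 2) (t, y) + g.Z (t, y) * dT g.B (t, y)) = _
  ring

theorem cl_cn_X_dY_kB (q : ℝ) (hU : ∀ j, Sm (U j)) (ht : t < 0) (y : ℝ) :
    Xf y * dY (kBF q U) (t, y) = -tt (sl (dT (U 0)) t) y
      + 1 / (q + 1) * tt (fun z => Xf z * dT (U 2) (t, z)) y := by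
  have h1 : dY (kBF q U) (t, y)
      = dY (fun p => dT (U 0) p - 1 / (q + 1) * (Xf p.2 * dT (U 2) p)) (t, y) :=
    dY_congr (fun z => cl_cn_kB q hU ht z) y
  rw [h1, dY_sub (hU 0).dT ((sm_Xf.mul (hU 2).dT).const_mul _) ht y,
    dY_const_mul _ (sm_Xf.mul (hU 2).dT) ht y]
  have h2 := cl_cn_X_dY (dT (U 0)) t y
  have h3 : Xf y * dY (fun p => Xf p.2 * dT (U 2) p) (t, y)
      = -tt (fun z => Xf z * dT (U 2) (t, z)) y := cl_cn_X_dY (fun p => Xf p.2 * dT (U 2) p) t y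
  rw [mul_sub, h2]
  linear_combination (-(1 / (q + 1))) * h3

theorem cl_cn_X_dY_kC (hg : BgSm g) (hU : ∀ j, Sm (U j)) (ht : t < 0) (y : ℝ) :
    Xf y * dY (kCF g U) (t, y) = Xf y * dY (dT g.w) (t, y) - tt (sl (dT (U 1)) t) y := by
  have h1 : dY (kCF g U) (t, y) = dY (fun p => dT g.w p + dT (U 1) p) (t, y) :=
    dY_congr (fun z => cl_cn_kC hg hU ht z) y
  rw [h1, dY_add hg.smw.dT (hU 1).dT ht y, mul_add, cl_cn_X_dY (dT (U 1)) t y]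
  ring

theorem cl_cn_X_dY_kA (q : ℝ) (hg : BgSm g) (hU : ∀ j, Sm (U j)) (ht : t < 0) (y : ℝ) :
    Xf y * dY (kAF q g U) (t, y) = -tt (sl (dT (U 0)) t) y
      - q / (q + 1) * tt (fun z => Xf z * dT (U 2) (t, z)) y
      + (-2 * y * g.Z (t, y) * (Xf y * dT g.B (t, y))
          - g.Z (t, y) * (Xf y * g.ap (t, y)) * (Xf y * dT g.B (t, y))
          + g.Z (t, y) * (Xf y ^ 2 * dY (dT g.B) (t, y))) := by
  have h1 : dY (kAF q g U) (t, y)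
      = dY (fun p => dT (U 0) p + q / (q + 1) * (Xf p.2 * dT (U 2) p)
          + g.Z p * (Xf p.2 * dT g.B p)) (t, y) :=
    dY_congr (fun z => cl_cn_kA q hg hU ht z) y
  rw [h1, dY_add ((hU 0).dT.add ((sm_Xf.mul (hU 2).dT).const_mul _))
      (hg.smZ.mul (sm_Xf.mul hg.smB.dT)) ht y,
    dY_add (hU 0).dT ((sm_Xf.mul (hU 2).dT).const_mul _) ht y,
    dY_const_mul _ (sm_Xf.mul (hU 2).dT) ht y,
    dY_mul hg.smZ (sm_Xf.mul hg.smB.dT) ht y, hg.dY_Z ht y, dY_X_mul hg.smB.dT ht y]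
  have h2 := cl_cn_X_dY (dT (U 0)) t y
  have h3 : Xf y * dY (fun p => Xf p.2 * dT (U 2) p) (t, y)
      = -tt (fun z => Xf z * dT (U 2) (t, z)) y := cl_cn_X_dY (fun p => Xf p.2 * dT (U 2) p) t y
  have h4 : g.ap (t, y) = g.Z (t, y) * g.dd (t, y) := rfl
  rw [h4]
  linear_combination h2 + (q / (q + 1)) * h3

theorem cl_cn_exp_A1 (q : ℝ) (hg : BgSm g) (U : Tri) (ht : t < 0) (y : ℝ) :
    Real.exp (A1F q g U (t, y)) = Real.exp (h1F q U (t, y)) / g.Z (t, y) := by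
  show Real.exp (h1F q U (t, y) + Real.log (1 + Xf y * g.B (t, y)))
    = Real.exp (h1F q U (t, y)) / (1 / (1 + Xf y * g.B (t, y)))
  rw [Real.exp_add, Real.exp_log (hg.pos t ht y), div_div_eq_mul_div, div_one]



/-! ### the background -/

theorem cl_cn_Xt {y : ℝ} (hy : 1 / 2 ≤ y) : Xt y = Xf y := by
  have h1 : Real.smoothTransition (2 * y) = 1 := Real.smoothTransition.one_of_one_le (by linarith)
  show 1 - (1 / 4 + (y - 1 / 4) * Real.smoothTransition (2 * y)) ^ 2 = 1 - y ^ 2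
  rw [h1]
  ring

theorem cl_cn_ell2_pos {q t : ℝ} (hq : 1 < q) (ht : t < 0) : 0 < ell2 q t := by
  show 0 < (q - 1) / 100 * (-t) ^ (2 * gaF q)
  have h1 : 0 < (-t) ^ (2 * gaF q) := Real.rpow_pos_of_pos (by linarith) _
  have h2 : 0 < (q - 1) / 100 := by linarith
  exact mul_pos h2 h1

theorem cl_cn_rh2 (q t : ℝ) {y : ℝ} (hy : 1 / 2 ≤ y) : rh2 q t y = ell2 q t + Xf y := by
  show ell2 q t + Xt y = _
  rw [cl_cn_Xt hy]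

theorem cl_cn_P_nonneg {q t y : ℝ} (hq : 1 < q) (ht : t < 0) (hy : 1 / 2 ≤ y) (hy1 : y ≤ 1) :
    0 ≤ JJ q t y / Th t y := by
  have hX : 0 ≤ Xf y := by
    show 0 ≤ 1 - y ^ 2
    nlinarith
  have h1 : 0 ≤ rh2 q t y := by
    rw [cl_cn_rh2 q t hy]
    linarith [cl_cn_ell2_pos hq ht]
  have h2 : 0 ≤ Th t y := by
    show 0 ≤ -t + Xt y
    rw [cl_cn_Xt hy]
    linarith
  show 0 ≤ (Th t y) ^ 8 * (rh2 q t y) ^ (-(alF q) / 2) / Th t y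
  exact div_nonneg (mul_nonneg (pow_nonneg h2 8) (Real.rpow_nonneg h1 _)) h2

theorem cl_cn_sym {q Λ₀ C : ℝ} {n : ℕ} (hn : 1 ≤ n) {ϱ : ℝ → ℝ → ℝ} {f : Fn}
    (h : SymC q Λ₀ C n ϱ f) {t y : ℝ} (ht : t ∈ Ico (-Λ₀) 0) (hy : y ∈ Icc (-1 : ℝ) 1) :
    |f (t, y)| ≤ C * ϱ t y ∧ |dY f (t, y)| ≤ C * ϱ t y / rh2 q t y := by
  have h0 := h t ht y hy 0 (Nat.zero_le _)
  have h1 := h t ht y hy 1 hn
  rw [iteratedDeriv_zero, pow_zero, div_one] at h0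
  rw [iteratedDeriv_one, pow_one] at h1
  exact ⟨h0, h1⟩

/-- the five background quantities, scaled by powers of `X`. -/
theorem cl_cn_bg {C C₀ P X r2 W v0 v1 b0 b1 J Θ : ℝ} (hC : C ≤ C₀) (hP : P = J / Θ) (hP0 : 0 ≤ P)
    (hX : 0 ≤ X) (hr2 : 0 < r2) (hW : |W| ≤ C * P) (hv0 : |v0| ≤ C * P) (hv1 : |v1| ≤ C * P / r2)
    (hb0 : |b0| ≤ C * (J / (r2 * Θ))) (hb1 : |b1| ≤ C * (J / (r2 * Θ)) / r2) :
    |X * W| ≤ C₀ * (X * P) ∧ |v0| ≤ C₀ * P ∧ |X * v1| ≤ C₀ * (X / r2 * P) ∧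
      |X * b0| ≤ C₀ * (X / r2 * P) ∧ |X ^ 2 * b1| ≤ C₀ * ((X / r2) ^ 2 * P) := by
  have hCP : C * P ≤ C₀ * P := mul_le_mul_of_nonneg_right hC hP0
  have hJ : J / (r2 * Θ) = P / r2 := by
    rw [hP, div_div, mul_comm]
  rw [hJ] at hb0 hb1
  have hXabs : |X| ≤ X := (abs_of_nonneg hX).le
  have hX2abs : |X ^ 2| ≤ X ^ 2 := (abs_of_nonneg (by positivity)).le
  have hs : 0 ≤ X / r2 := div_nonneg hX hr2.le
  refine ⟨?_, hv0.trans hCP, ?_, ?_, ?_⟩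
  · refine (cl_cn_abs_mul hXabs hW).trans ?_
    have := mul_le_mul_of_nonneg_left hCP hX
    linarith
  · refine (cl_cn_abs_mul hXabs hv1).trans ?_
    have h1 : X * (C * P / r2) = X / r2 * (C * P) := by ring
    have h2 := mul_le_mul_of_nonneg_left hCP hs
    rw [h1]
    linarith
  · refine (cl_cn_abs_mul hXabs hb0).trans ?_
    have h1 : X * (C * (P / r2)) = X / r2 * (C * P) := by ring
    have h2 := mul_le_mul_of_nonneg_left hCP hs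
    rw [h1]
    linarith
  · refine (cl_cn_abs_mul hX2abs hb1).trans ?_
    have h1 : X ^ 2 * (C * (P / r2) / r2) = (X / r2) ^ 2 * (C * P) := by ring
    have h2 := mul_le_mul_of_nonneg_left hCP (pow_nonneg hs 2)
    rw [h1]
    linarith



/-- atoms: from the symbol bounds to the bounds used in `cl_cn_g`, `cl_cn_c_low`, `cl_cn_K`. -/
theorem cl_cn_small {N C₀ C₁ η P ϖ σ s X Wx v0 v1 b0 b1 k0 k2 Z r : ℝ} (hN : 0 ≤ N) (hC₀ : 0 ≤ C₀)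
    (hC₁ : 0 ≤ C₁) (hη : η * (8 * (N + C₀ + 1)) = 1) (hη0 : 0 ≤ η)
    (hP0 : 0 ≤ P) (hPϖ : P ≤ C₁ * ϖ) (hXP : X * P ≤ η * s) (hXϖ : X * ϖ ≤ η * s)
    (hϖ : 0 ≤ ϖ) (hσ0 : 0 ≤ σ) (hσ1 : σ ≤ 1) (hs0 : 0 ≤ s) (hsσ : s ≤ σ) (hX : 0 ≤ X)
    (hWx : |Wx| ≤ C₀ * (X * P)) (hv0 : |v0| ≤ C₀ * P) (hv1 : |v1| ≤ C₀ * (s * P))
    (hb0 : |b0| ≤ C₀ * (s * P)) (hb1 : |b1| ≤ C₀ * (s ^ 2 * P))
    (hk0 : |k0| ≤ N * ϖ) (hk2 : |k2| ≤ N * ϖ * σ) (hZ0 : 0 ≤ Z) (hZ : Z ≤ 2) (hr0 : 0 ≤ r)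
    (hr1 : r ≤ 1) :
    |Wx| ≤ s / 8 ∧ |v0| ≤ (N + C₀ * C₁) * ϖ ∧ |v1| ≤ (N + C₀ * C₁) * (ϖ * σ) ∧
      |b0| ≤ (N + C₀ * C₁) * (ϖ * σ) ∧ |b1| ≤ (N + C₀ * C₁) * (ϖ * σ) ∧
      |X * (k0 + r * k2 + Z * b0)| ≤ s / 4 := by
  have hs1 : s ≤ 1 := hsσ.trans hσ1
  have hηs : 0 ≤ η * s := mul_nonneg hη0 hs0
  have hm : 0 ≤ ϖ * σ := mul_nonneg hϖ hσ0
  have hNm : 0 ≤ N * (ϖ * σ) := mul_nonneg hN hm
  -- `C₀ s P ≤ C₀ C₁ ϖ σ`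
  have hsP : s * P ≤ σ * (C₁ * ϖ) := mul_le_mul hsσ hPϖ hP0 hσ0
  have hsP0 : 0 ≤ s * P := mul_nonneg hs0 hP0
  have hD : C₀ * (s * P) ≤ (N + C₀ * C₁) * (ϖ * σ) := by
    have := mul_le_mul_of_nonneg_left hsP hC₀
    linarith
  have hs2 : s ^ 2 * P ≤ s * P := by
    have h1 : s ^ 2 ≤ s := by nlinarith
    exact mul_le_mul_of_nonneg_right h1 hP0
  have e1 : C₀ * (X * P) ≤ C₀ * (η * s) := mul_le_mul_of_nonneg_left hXP hC₀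
  have e2 : N * (X * ϖ) ≤ N * (η * s) := mul_le_mul_of_nonneg_left hXϖ hN
  have e3 : (N + C₀ + 1) * (η * s) = s / 8 := by
    have : (N + C₀ + 1) * (η * s) = η * (8 * (N + C₀ + 1)) * s / 8 := by ring
    rw [this, hη, one_mul]
  have e4 : 0 ≤ N * (η * s) := mul_nonneg hN hηs
  have e5 : 0 ≤ C₀ * (η * s) := mul_nonneg hC₀ hηs
  refine ⟨hWx.trans (by linarith), hv0.trans ?_, hv1.trans hD, hb0.trans hD,
    hb1.trans ((mul_le_mul_of_nonneg_left hs2 hC₀).trans hD), ?_⟩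
  · have h1 := mul_le_mul_of_nonneg_left hPϖ hC₀
    have h2 : 0 ≤ N * ϖ := mul_nonneg hN hϖ
    linarith
  · have hXabs : |X| ≤ X := (abs_of_nonneg hX).le
    have hrabs : |r| ≤ 1 := abs_le.2 ⟨by linarith, hr1⟩
    have hZabs : |Z| ≤ 2 := abs_le.2 ⟨by linarith, hZ⟩
    have a1 := abs_le.1 (cl_cn_abs_mul hXabs hk0)
    have a2 := abs_le.1 (cl_cn_abs_mul hXabs (cl_cn_abs_mul hrabs hk2))
    have a3 := abs_le.1 (cl_cn_abs_mul hXabs (cl_cn_abs_mul hZabs hb0))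
    have f1 : X * (1 * (N * ϖ * σ)) ≤ N * (X * ϖ) := by
      have h1 : N * (X * ϖ) * σ ≤ N * (X * ϖ) * 1 :=
        mul_le_mul_of_nonneg_left hσ1 (mul_nonneg hN (mul_nonneg hX hϖ))
      linarith
    have f2 : X * (2 * (C₀ * (s * P))) ≤ 2 * (C₀ * (X * P)) := by
      have h1 : C₀ * (X * P) * s ≤ C₀ * (X * P) * 1 :=
        mul_le_mul_of_nonneg_left hs1 (mul_nonneg hC₀ (mul_nonneg hX hP0))
      linarith
    exact abs_le.2 ⟨by linarith, by linarith⟩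

theorem cl_cn_exp_half {A : ℝ} (h : Real.exp A ≤ 4) : Real.exp (A / 2) ≤ 2 := by
  have h1 : Real.exp (A / 2) * Real.exp (A / 2) = Real.exp A := by
    rw [← Real.exp_add]
    congr 1
    ring
  have h2 := Real.exp_pos (A / 2)
  nlinarith



/-- atoms: all four bounds. -/
theorem cl_cn_atoms {q ε N C₀ C₁ η σ ϖ s X y Z a1 w1 Wx u0 u1 β T0 T1 Tβ k0 k1 k2 K0 K1 K2 v0 v1 b0
    b1 P h1 A1 G Cc Ff : ℝ}
    (hq : 10 ^ 6 ≤ q) (hε0 : 0 ≤ ε) (hε : ε ≤ 1 / 1000) (hN : 0 ≤ N) (hC₀ : 0 ≤ C₀) (hC₁ : 0 ≤ C₁)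
    (hη : η * (8 * (N + C₀ + 1)) = 1) (hη0 : 0 ≤ η)
    (hσ0 : 0 ≤ σ) (hσ1 : σ ≤ 1) (hs0 : 0 ≤ s) (hsσ : s ≤ σ) (hϖ : 0 ≤ ϖ) (hX0 : 0 ≤ X) (hX1 : X ≤ 1)
    (hy0 : 0 ≤ y) (hy1 : y ≤ 1)
    (hZ0 : 1 / 2 ≤ Z) (hZ1 : Z ≤ 2) (hw1 : |w1| ≤ 4 * s) (ha1 : |a1| ≤ 1)
    (hL : -3 * s ≤ X - y * a1 / 2 + y * w1 + w1 ^ 2 / 2)
    (hu0 : |u0| ≤ ε) (hu1 : |u1| ≤ ε) (hβ : |β| ≤ ε * σ) (hT0 : |T0| ≤ ε * σ) (hT1 : |T1| ≤ ε * σ)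
    (hTβ : |Tβ| ≤ ε * σ)
    (hk0 : |k0| ≤ N * ϖ) (hk1 : |k1| ≤ N * ϖ) (hk2 : |k2| ≤ N * ϖ * σ) (hK0 : |K0| ≤ N * ϖ * σ)
    (hK1 : |K1| ≤ N * ϖ * σ) (hK2 : |K2| ≤ N * ϖ * σ)
    (hP0 : 0 ≤ P) (hPϖ : P ≤ C₁ * ϖ) (hXP : X * P ≤ η * s) (hXϖ : X * ϖ ≤ η * s)
    (hWx : |Wx| ≤ C₀ * (X * P)) (hv0 : |v0| ≤ C₀ * P) (hv1 : |v1| ≤ C₀ * (s * P))
    (hb0 : |b0| ≤ C₀ * (s * P)) (hb1 : |b1| ≤ C₀ * (s ^ 2 * P))
    (hh1 : h1 = u0 + q / (q + 1) * β)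
    (hA1 : Real.exp A1 = Real.exp h1 / Z)
    (hG : G = -a1 / 2 + w1 * Real.exp (h1 - u1) + Real.exp h1 * Wx / Z - q * y * (Real.exp β - 1))
    (hCc : Cc = X + y * G + q / 4 * (-T0 + 1 / (q + 1) * Tβ) ^ 2 - q * y * (-T0 + 1 / (q + 1) * Tβ)
      + (w1 - T1) ^ 2 / 2 + X * (Real.exp A1 * (k0 + q / (q + 1) * k2 + Z * b0)) / 2)
    (hFf : Ff = Real.exp (A1 / 2) *
      ((-K0 - q / (q + 1) * K2 + (-2 * y * Z * b0 - Z * a1 * b0 + Z * b1)) / 2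
        - q / 2 * (-K0 + 1 / (q + 1) * K2) - (v1 - K1)
        + q / 2 * ((-T0 + 1 / (q + 1) * Tβ) - 2 * y) * (k2 + Z * b0)
        + (w1 - T1) * ((k0 + q / (q + 1) * k2 + Z * b0) - (v0 + k1)))) :
    |G| ≤ q / 40 ∧ -(q / 40) * σ ≤ Cc ∧ |Cc| ≤ 3 * q + 2 * ((6 * q + 40) * (N + C₀ * C₁)) ∧
      |Ff| ≤ (3 * q + 2 * ((6 * q + 40) * (N + C₀ * C₁))) * σ * ϖ := by
  have hq0 : 0 < q := by linarith
  have hq1 : 0 < q + 1 := by linarith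
  have hr0 : 0 ≤ q / (q + 1) := (div_pos hq0 hq1).le
  have hr1 : q / (q + 1) ≤ 1 := by
    rw [div_le_one hq1]
    linarith
  have hr0' : 0 ≤ 1 / (q + 1) := (div_pos one_pos hq1).le
  have hr1' : 1 / (q + 1) ≤ 1 := by
    rw [div_le_one hq1]
    linarith
  have hZpos : 0 < Z := by linarith
  have hεσ : ε * σ ≤ ε := by
    have := mul_le_mul_of_nonneg_left hσ1 hε0
    linarith
  have hrabs : |q / (q + 1)| ≤ 1 := abs_le.2 ⟨by linarith, hr1⟩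
  -- the exponentials
  have hrβ := abs_le.1 (cl_cn_abs_mul hrabs hβ)
  have au0 := abs_le.1 hu0
  have au1 := abs_le.1 hu1
  have hh1a : |h1| ≤ 2 * ε := by
    rw [hh1]
    exact abs_le.2 ⟨by linarith, by linarith⟩
  have ah1 := abs_le.1 hh1a
  have hh13 : |h1 - u1| ≤ 3 * ε := abs_le.2 ⟨by linarith, by linarith⟩
  have hE13 : |Real.exp (h1 - u1) - 1| ≤ 6 * ε :=
    (cl_cn_exp hh13 (by linarith)).trans (by linarith)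
  have hE1 := abs_le.1 (cl_cn_exp hh1a (by linarith))
  have hE1abs : |Real.exp h1| ≤ 2 := abs_le.2 ⟨by linarith [Real.exp_pos h1], by linarith⟩
  have hEβ : |Real.exp β - 1| ≤ 2 * (ε * σ) := cl_cn_exp hβ (by linarith)
  have hZi : Z⁻¹ ≤ 2 := (inv_anti₀ (by norm_num) hZ0).trans (by norm_num)
  have hZiabs : |Z⁻¹| ≤ 2 := abs_le.2 ⟨by linarith [inv_pos.2 hZpos], hZi⟩
  obtain ⟨sW, sv0, sv1, sb0, sb1, skA⟩ := cl_cn_small (r := q / (q + 1)) hN hC₀ hC₁ hη hη0 hP0 hPϖ hXP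
    hXϖ hϖ hσ0 hσ1 hs0 hsσ hX0 hWx hv0 hv1 hb0 hb1 hk0 hk2 hZpos.le hZ1 hr0 hr1
  have hGW : |Real.exp h1 * Wx / Z| ≤ s / 2 := by
    rw [div_eq_mul_inv]
    refine (cl_cn_abs_mul (cl_cn_abs_mul hE1abs sW) hZiabs).trans ?_
    linarith
  have hEA : |Real.exp A1| ≤ 4 := by
    rw [hA1, div_eq_mul_inv]
    refine (cl_cn_abs_mul hE1abs hZiabs).trans ?_
    norm_num
  have hKA : |X * (Real.exp A1 * (k0 + q / (q + 1) * k2 + Z * b0)) / 2| ≤ s / 2 := by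
    have e : X * (Real.exp A1 * (k0 + q / (q + 1) * k2 + Z * b0)) / 2
        = Real.exp A1 * (X * (k0 + q / (q + 1) * k2 + Z * b0)) / 2 := by ring
    have h := abs_le.1 (cl_cn_abs_mul hEA skA)
    rw [e]
    exact abs_le.2 ⟨by linarith, by linarith⟩
  have hH : |-T0 + 1 / (q + 1) * Tβ| ≤ 2 * (ε * σ) := cl_cn_H hT0 hTβ hr0' hr1'
  have hG1 : |G| ≤ q / 40 := by
    rw [hG]
    exact cl_cn_g hq hε hσ0 hσ1 hsσ hy0 hy1 ha1 hw1 hE13 hGW hEβ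
  have hB0 : 0 ≤ N + C₀ * C₁ := add_nonneg hN (mul_nonneg hC₀ hC₁)
  have hCK : 0 ≤ (6 * q + 40) * (N + C₀ * C₁) := mul_nonneg (by linarith) hB0
  have hNB : N ≤ N + C₀ * C₁ := by linarith [mul_nonneg hC₀ hC₁]
  have hm : 0 ≤ ϖ * σ := mul_nonneg hϖ hσ0
  have hNϖ : N * ϖ ≤ (N + C₀ * C₁) * ϖ := mul_le_mul_of_nonneg_right hNB hϖ
  have hNm : N * ϖ * σ ≤ (N + C₀ * C₁) * (ϖ * σ) := by
    have := mul_le_mul_of_nonneg_right hNB hm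
    linarith
  refine ⟨hG1, ?_, ?_, ?_⟩
  · rw [hCc, hG]
    exact cl_cn_c_low hq hε0 hε hσ0 hσ1 hs0 hsσ hy0 hy1 hw1 hE13 hGW hEβ hL hH hT1 hKA
  · rw [hCc]
    refine (cl_cn_c_abs hq hε hσ0 hσ1 hsσ hy0 hy1 hX0 hX1 hG1 hw1 hH hT1 hKA).trans ?_
    linarith
  · have hK := cl_cn_K (q := q) (B := N + C₀ * C₁) (ϖ := ϖ) (σ := σ) (s := s) (ε := ε) (y := y) (Z := Z)
      (a1 := a1) (w1 := w1) (H := -T0 + 1 / (q + 1) * Tβ) (T1 := T1) (r := q / (q + 1))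
      (r' := 1 / (q + 1)) (k0 := k0) (k1 := k1) (k2 := k2) (K0 := K0) (K1 := K1) (K2 := K2) (b0 := b0)
      (b1 := b1) (v0 := v0) (v1 := v1) (by linarith) hB0 hϖ hσ0 hσ1 hsσ hε hy0 hy1 hZpos.le hZ1 ha1
      hw1 hH hT1 hr0 hr1 hr0' hr1' (hk0.trans hNϖ) (hk1.trans hNϖ) sv0 (hk2.trans hNm)
      (hK0.trans hNm) (hK1.trans hNm) (hK2.trans hNm) sb0 sb1 sv1
    have hE2 : |Real.exp (A1 / 2)| ≤ 2 := by
      rw [abs_of_pos (Real.exp_pos _)]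
      exact cl_cn_exp_half ((le_abs_self _).trans hEA)
    rw [hFf]
    refine (cl_cn_abs_mul hE2 hK).trans ?_
    have h3 : 0 ≤ 3 * q * (ϖ * σ) := mul_nonneg (by linarith) hm
    linarith


/-- the four bounds of `cl_coef_N` at one point `(t,y)`. -/
theorem cl_cn_point {q : ℝ} (hq : 10 ^ 6 ≤ q) (hg : BgSm g) (hU : ∀ j, Sm (U j))
    {y ε N C C₀ C₁ η : ℝ} (ht : t < 0) (hy : y ∈ Icc (19 / 20 : ℝ) 1)
    (hε0 : 0 ≤ ε) (hε : ε ≤ 1 / 1000) (hN : 0 ≤ N) (hC : C ≤ C₀) (hC₀ : 0 ≤ C₀) (hC₁ : 0 ≤ C₁)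
    (hη : η * (8 * (N + C₀ + 1)) = 1) (hη0 : 0 ≤ η)
    (hF1 : (1 - y ^ 2) * gS q g U t y = -(Xf y * g.ap (t, y)) / 2
      + Xf y * g.wp (t, y) * Real.exp (h1F q U (t, y) - U 1 (t, y))
      + Real.exp (h1F q U (t, y)) * (Xf y * g.W (t, y)) / g.Z (t, y)
      - q * y * (Real.exp (beF U (t, y)) - 1))
    (hu0 : |U 0 (t, y)| ≤ ε ∧ |U 1 (t, y)| ≤ ε)
    (hu1 : |Xf y * U 2 (t, y)| ≤ ε * clSg (ell2 q t) y ∧ |tt (sl (U 0) t) y| ≤ ε * clSg (ell2 q t) y ∧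
      |tt (sl (U 1) t) y| ≤ ε * clSg (ell2 q t) y ∧
      |tt (fun z => Xf z * U 2 (t, z)) y| ≤ ε * clSg (ell2 q t) y)
    (hk0 : |dT (U 0) (t, y)| ≤ N * clV0 (ell2 q t) y ∧ |dT (U 1) (t, y)| ≤ N * clV0 (ell2 q t) y)
    (hk1 : |Xf y * dT (U 2) (t, y)| ≤ N * clV0 (ell2 q t) y * clSg (ell2 q t) y ∧
      |tt (sl (dT (U 0)) t) y| ≤ N * clV0 (ell2 q t) y * clSg (ell2 q t) y ∧
      |tt (sl (dT (U 1)) t) y| ≤ N * clV0 (ell2 q t) y * clSg (ell2 q t) y ∧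
      |tt (fun z => Xf z * dT (U 2) (t, z)) y| ≤ N * clV0 (ell2 q t) y * clSg (ell2 q t) y)
    (hcl : 1 / 2 ≤ g.Z (t, y) ∧ g.Z (t, y) ≤ 2 ∧
      |Xf y * g.wp (t, y)| ≤ 4 * (Xf y / (ell2 q t + Xf y)) ∧
      |Xf y * g.ap (t, y)| ≤ 1 ∧
      -3 * (Xf y / (ell2 q t + Xf y)) ≤ Xf y - y * (Xf y * g.ap (t, y)) / 2
        + y * (Xf y * g.wp (t, y)) + (Xf y * g.wp (t, y)) ^ 2 / 2)
    (hw : |dT g.w (t, y)| ≤ C * (JJ q t y / Th t y) ∧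
      |dY (dT g.w) (t, y)| ≤ C * (JJ q t y / Th t y) / rh2 q t y)
    (hB : |dT g.B (t, y)| ≤ C * (JJ q t y / (rh2 q t y * Th t y)) ∧
      |dY (dT g.B) (t, y)| ≤ C * (JJ q t y / (rh2 q t y * Th t y)) / rh2 q t y)
    (hW : |g.W (t, y)| ≤ C * (JJ q t y / Th t y))
    (hJ : JJ q t y / Th t y ≤ C₁ * clV0 (ell2 q t) y)
    (hsm : Xf y * (JJ q t y / Th t y) ≤ η * (Xf y / (ell2 q t + Xf y)) ∧
      Xf y * clV0 (ell2 q t) y ≤ η * (Xf y / (ell2 q t + Xf y))) :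
    |(1 - y ^ 2) * gS q g U t y| ≤ q / 40 ∧
      -(q / 40) * clSg (ell2 q t) y ≤ (1 - y ^ 2) * cS q g U t y ∧
      |(1 - y ^ 2) * cS q g U t y| ≤ 3 * q + 2 * ((6 * q + 40) * (N + C₀ * C₁)) ∧
      (1 - y ^ 2) * |fS q g U t y|
        ≤ (3 * q + 2 * ((6 * q + 40) * (N + C₀ * C₁))) * clSg (ell2 q t) y * clV0 (ell2 q t) y := by
  obtain ⟨hy0, hy1⟩ := hy
  have hq1 : (1 : ℝ) < q := by linarith
  have hL := cl_cn_ell2_pos hq1 ht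
  have hyI : y ∈ Icc (-1 : ℝ) 1 := ⟨by linarith, hy1⟩
  have hyh : (1 : ℝ) / 2 ≤ y := by linarith
  obtain ⟨hσ0, hσ1, hsσ⟩ := cl_sg_mem _ hL y hyI
  have hsσ' : Xf y / (ell2 q t + Xf y) ≤ clSg (ell2 q t) y := hsσ
  have hϖ := cl_v0_pos _ hL y hyI
  have hX : 0 ≤ Xf y := cl_u_nonneg y hyI
  have hX1 : Xf y ≤ 1 := by
    show 1 - y ^ 2 ≤ 1
    nlinarith
  have hr2 := cl_cn_rh2 q t hyh
  rw [hr2] at hw hB
  have hP0 := cl_cn_P_nonneg hq1 ht hyh hy1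
  have hr2pos : 0 < ell2 q t + Xf y := by linarith
  have hs0 : 0 ≤ Xf y / (ell2 q t + Xf y) := div_nonneg hX hr2pos.le
  obtain ⟨bW, bv0, bv1, bb0, bb1⟩ := cl_cn_bg (P := JJ q t y / Th t y) hC rfl hP0 hX hr2pos hW hw.1 hw.2
    hB.1 hB.2
  have hCS : (1 - y ^ 2) * cS q g U t y = Xf y + y * ((1 - y ^ 2) * gS q g U t y)
      + q / 4 * (-tt (sl (U 0) t) y + 1 / (q + 1) * tt (fun z => Xf z * U 2 (t, z)) y) ^ 2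
      - q * y * (-tt (sl (U 0) t) y + 1 / (q + 1) * tt (fun z => Xf z * U 2 (t, z)) y)
      + (Xf y * g.wp (t, y) - tt (sl (U 1) t) y) ^ 2 / 2
      + Xf y * (Real.exp (A1F q g U (t, y)) * (dT (U 0) (t, y) + q / (q + 1) * (Xf y * dT (U 2) (t, y))
        + g.Z (t, y) * (Xf y * dT g.B (t, y)))) / 2 := by
    rw [cl_cn_cS_eq, cl_cn_X_dY_h2 q hU ht y, cl_cn_X_dY_C1 hg hU ht y, cl_cn_kA q hg hU ht y]
  have hFS : (1 - y ^ 2) * fS q g U t y = Real.exp (A1F q g U (t, y) / 2) *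
      ((-tt (sl (dT (U 0)) t) y - q / (q + 1) * tt (fun z => Xf z * dT (U 2) (t, z)) y
          + (-2 * y * g.Z (t, y) * (Xf y * dT g.B (t, y))
            - g.Z (t, y) * (Xf y * g.ap (t, y)) * (Xf y * dT g.B (t, y))
            + g.Z (t, y) * (Xf y ^ 2 * dY (dT g.B) (t, y)))) / 2
        - q / 2 * (-tt (sl (dT (U 0)) t) y + 1 / (q + 1) * tt (fun z => Xf z * dT (U 2) (t, z)) y)
        - (Xf y * dY (dT g.w) (t, y) - tt (sl (dT (U 1)) t) y)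
        + q / 2 * ((-tt (sl (U 0) t) y + 1 / (q + 1) * tt (fun z => Xf z * U 2 (t, z)) y) - 2 * y)
          * (Xf y * dT (U 2) (t, y) + g.Z (t, y) * (Xf y * dT g.B (t, y)))
        + (Xf y * g.wp (t, y) - tt (sl (U 1) t) y)
          * ((dT (U 0) (t, y) + q / (q + 1) * (Xf y * dT (U 2) (t, y))
              + g.Z (t, y) * (Xf y * dT g.B (t, y))) - (dT g.w (t, y) + dT (U 1) (t, y)))) := by
    rw [cl_cn_fS_eq, cl_cn_X_dY_kA q hg hU ht y, cl_cn_X_dY_kB q hU ht y, cl_cn_X_dY_kC hg hU ht y,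
      cl_cn_X_dY_h2 q hU ht y, cl_cn_X_kb, cl_cn_X_dY_C1 hg hU ht y, cl_cn_kA q hg hU ht y,
      cl_cn_kC hg hU ht y]
  have hmain := cl_cn_atoms (ϖ := clV0 (ell2 q t) y) hq hε0 hε hN hC₀ hC₁ hη hη0 hσ0 hσ1.le hs0 hsσ' hϖ.le hX hX1
    (by linarith : (0 : ℝ) ≤ y) hy1 hcl.1 hcl.2.1 hcl.2.2.1 hcl.2.2.2.1 hcl.2.2.2.2 hu0.1 hu0.2 hu1.1
    hu1.2.1 hu1.2.2.1 hu1.2.2.2 hk0.1 hk0.2 hk1.1 hk1.2.1 hk1.2.2.1 hk1.2.2.2 hP0 hJ hsm.1 hsm.2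
    bW bv0 bv1 bb0 bb1 (rfl : h1F q U (t, y) = U 0 (t, y) + q / (q + 1) * (Xf y * U 2 (t, y)))
    (cl_cn_exp_A1 q hg U ht y) hF1 hCS hFS
  refine ⟨hmain.1, hmain.2.1, hmain.2.2.1, ?_⟩
  have habs : (1 - y ^ 2) * |fS q g U t y| = |(1 - y ^ 2) * fS q g U t y| := by
    rw [abs_mul, abs_of_nonneg (show (0 : ℝ) ≤ 1 - y ^ 2 from hX)]
  rw [habs]
  exact hmain.2.2.2

end Claimed.Agent.R324.Core
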