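/-
Row 324 (S0582), PDE core, module CL.   Architect: helper325.   Leaf CL.CoefS (helper893): the coefficients of the gauge ODE in ZONE S.      SORRY-FREE.

For `y < 3/4` the background is trivial (`BgGood.out`): `B = w = W = 0` for all `t < 0`, so `A₁ = h₁`, `C₁ = h₃`, `Z = 1`, and
   X 𝔤 = - q y (e^{β} - 1),
   X 𝔠 = X + y X 𝔤 + (q/4)(X h₂')² - q y X h₂' + (X h₃')²/2 + X e^{h₁} kA/2,
   X K = X kA'/2 - (q/2) X kB' - X kC' + (q/2)(X h₂' - 2y)(X kb) + X h₃' (kA - kC),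
 with `kA = ∂_t U₀ + q/(q+1) X ∂_t U₂`, `kB = ∂_t U₀ - X ∂_t U₂/(q+1)`, `kC = ∂_t U₁`, `kb = ∂_t U₂`.
`X ϖ₀ = X^{3/4} σ`, so `2 N X ϖ₀ ≤ σ` as soon as `X ≤ (2N+1)^{-2}`:  no smallness of `Λ` is needed.
-/
import Claimed.Agent.R324.Core.CL.OdeSlice
import Claimed.Agent.R324.Core.PR.Ph

set_option autoImplicit false

namespace Claimed.Agent.R324.Core

open Set Filter Topology MeasureTheory
open scoped ContDiff

/-! ### real inequalities -/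

theorem cl_S_abs_lin (a x y B : ℝ) (ha0 : 0 ≤ a) (ha1 : a ≤ 1) (hx : |x| ≤ B) (hy : |y| ≤ B) :
    |x + a * y| ≤ 2 * B ∧ |x - a * y| ≤ 2 * B := by
  have hB : 0 ≤ B := (abs_nonneg x).trans hx
  have h1 : |a * y| ≤ B := by
    rw [abs_mul, abs_of_nonneg ha0]
    calc a * |y| ≤ 1 * B := mul_le_mul ha1 hy (abs_nonneg _) zero_le_one
      _ = B := one_mul B
  obtain ⟨h2, h3⟩ := abs_le.1 h1
  obtain ⟨h4, h5⟩ := abs_le.1 hx
  exact ⟨abs_le.2 ⟨by linarith, by linarith⟩, abs_le.2 ⟨by linarith, by linarith⟩⟩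

theorem cl_S_abs_mul (x y A B : ℝ) (hx : |x| ≤ A) (hy : |y| ≤ B) : |x * y| ≤ A * B := by
  rw [abs_mul]
  exact mul_le_mul hx hy (abs_nonneg _) ((abs_nonneg _).trans hx)

theorem cl_S_exp_le (x : ℝ) (hx : |x| ≤ 1 / 500) : Real.exp x ≤ 2 := by
  have h := Real.abs_exp_sub_one_le (x := x) (by linarith)
  have h2 := (abs_le.1 h).2
  linarith

theorem cl_S_ineq (q y X σ ϖ ε N u0 β T0 T1 T2 k0 k1 κ2 S0 S1 S2 G C F : ℝ)
    (hq : (10 : ℝ) ^ 6 ≤ q) (hy : |y| ≤ 1) (hX0 : 0 ≤ X) (hX1 : X ≤ 1) (hσ0 : 0 ≤ σ) (hσ1 : σ ≤ 1)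
    (hϖ : 0 ≤ ϖ) (hε0 : 0 ≤ ε) (hε : ε ≤ 1 / 1000) (hN : 0 ≤ N) (hsm : 2 * N * (X * ϖ) ≤ σ)
    (hu0 : |u0| ≤ ε) (hβ : |β| ≤ ε * σ) (hT0 : |T0| ≤ ε * σ) (hT1 : |T1| ≤ ε * σ)
    (hT2 : |T2| ≤ ε * σ) (hk0 : |k0| ≤ N * ϖ) (hk1 : |k1| ≤ N * ϖ) (hκ2 : |κ2| ≤ N * ϖ * σ)
    (hS0 : |S0| ≤ N * ϖ * σ) (hS1 : |S1| ≤ N * ϖ * σ) (hS2 : |S2| ≤ N * ϖ * σ)
    (hG : G = -q * y * (Real.exp β - 1))
    (hC : C = X + y * G + q / 4 * (-(T0 - 1 / (q + 1) * T2)) ^ 2 - q * y * (-(T0 - 1 / (q + 1) * T2))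
      + (-T1) ^ 2 / 2 + X * Real.exp (u0 + q / (q + 1) * β) * (k0 + q / (q + 1) * κ2) / 2)
    (hF : F = Real.exp ((u0 + q / (q + 1) * β) / 2) * (-(S0 + q / (q + 1) * S2) / 2
      + q / 2 * (S0 - 1 / (q + 1) * S2) + S1 + q / 2 * (-(T0 - 1 / (q + 1) * T2) - 2 * y) * κ2
      + (-T1) * (k0 + q / (q + 1) * κ2 - k1))) :
    |G| ≤ q / 40 ∧ -(q / 40) * σ ≤ C ∧ |C| ≤ (6 + 6 * q) * (N + 1) ∧
      |F| ≤ (6 + 6 * q) * (N + 1) * σ * ϖ := by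
  have hq0 : (0 : ℝ) < q := lt_of_lt_of_le (by norm_num) hq
  have hq6 : (1000000 : ℝ) ≤ q := by
    have : (10 : ℝ) ^ 6 = 1000000 := by norm_num
    linarith
  obtain ⟨a, ha⟩ : ∃ a, a = q / (q + 1) := ⟨_, rfl⟩
  obtain ⟨b, hb⟩ : ∃ b, b = 1 / (q + 1) := ⟨_, rfl⟩
  rw [← ha, ← hb] at hC hF
  have ha0 : 0 ≤ a := by rw [ha]; positivity
  have ha1 : a ≤ 1 := by rw [ha, div_le_one (by linarith)]; linarith
  have hb0 : 0 ≤ b := by rw [hb]; positivity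
  have hb1 : b ≤ 1 := by rw [hb, div_le_one (by linarith)]; linarith
  -- abbreviations
  obtain ⟨es, hes⟩ : ∃ es, es = ε * σ := ⟨_, rfl⟩
  obtain ⟨K, hK⟩ : ∃ K, K = N * ϖ := ⟨_, rfl⟩
  obtain ⟨M, hM⟩ : ∃ M, M = K * σ := ⟨_, rfl⟩
  rw [← hK] at hk0 hk1 hκ2 hS0 hS1 hS2
  rw [← hM] at hκ2 hS0 hS1 hS2
  rw [← hes] at hβ hT0 hT1 hT2
  have hes0 : 0 ≤ es := by rw [hes]; positivity
  have hes1 : es ≤ ε := by
    rw [hes]
    calc ε * σ ≤ ε * 1 := mul_le_mul_of_nonneg_left hσ1 hε0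
      _ = ε := mul_one ε
  have hK0 : 0 ≤ K := by rw [hK]; positivity
  have hM0 : 0 ≤ M := by rw [hM]; positivity
  have hM1 : M ≤ K := by
    rw [hM]
    calc K * σ ≤ K * 1 := mul_le_mul_of_nonneg_left hσ1 hK0
      _ = K := mul_one K
  obtain ⟨P2, hP2d⟩ : ∃ P2, P2 = -(T0 - b * T2) := ⟨_, rfl⟩
  obtain ⟨h1, hh1d⟩ : ∃ h1, h1 = u0 + a * β := ⟨_, rfl⟩
  obtain ⟨kA, hkAd⟩ : ∃ kA, kA = k0 + a * κ2 := ⟨_, rfl⟩
  rw [← hP2d, ← hh1d, ← hkAd] at hC hF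
  have hP2 : |P2| ≤ 2 * es := by
    rw [hP2d, abs_neg]
    exact (cl_S_abs_lin b T0 T2 es hb0 hb1 hT0 hT2).2
  have hh1 : |h1| ≤ 2 * ε := by
    rw [hh1d]
    exact (cl_S_abs_lin a u0 β ε ha0 ha1 hu0 (hβ.trans hes1)).1
  have hkA : |kA| ≤ 2 * K := by
    rw [hkAd]
    exact (cl_S_abs_lin a k0 κ2 K ha0 ha1 hk0 (hκ2.trans hM1)).1
  have hE1 : Real.exp h1 ≤ 2 := cl_S_exp_le h1 (by linarith)
  have hE1p : 0 < Real.exp h1 := Real.exp_pos _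
  have hE2 : Real.exp (h1 / 2) ≤ 2 := by
    refine cl_S_exp_le _ ?_
    rw [abs_div, abs_of_pos (by norm_num : (0 : ℝ) < 2)]
    linarith
  have hE2p : 0 < Real.exp (h1 / 2) := Real.exp_pos _
  have hEβ : |Real.exp β - 1| ≤ 2 * es := by
    have h := Real.abs_exp_sub_one_le (x := β) (by linarith)
    linarith
  have hqy : |-q * y| ≤ q := by
    rw [abs_mul, abs_neg, abs_of_pos hq0]
    calc q * |y| ≤ q * 1 := mul_le_mul_of_nonneg_left hy hq0.le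
      _ = q := mul_one q
  have hqes : q * es ≤ q * σ / 1000 := by
    rw [hes]
    have : q * (ε * σ) ≤ q * (1 / 1000 * σ) :=
      mul_le_mul_of_nonneg_left (mul_le_mul_of_nonneg_right hε hσ0) hq0.le
    linarith
  have hqσ : q * σ ≤ q := by
    calc q * σ ≤ q * 1 := mul_le_mul_of_nonneg_left hσ1 hq0.le
      _ = q := mul_one q
  have hqσ0 : 0 ≤ q * σ := by positivity
  have hGb : |G| ≤ q * (2 * es) := by
    rw [hG]
    exact cl_S_abs_mul _ _ _ _ hqy hEβ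
  -- the three small terms of `C`
  have ht1 : |y * G| ≤ 1 * (q * (2 * es)) := cl_S_abs_mul _ _ _ _ hy hGb
  have ht2 : |-q * y * P2| ≤ q * (2 * es) := cl_S_abs_mul _ _ _ _ hqy hP2
  have ht3 : |X * Real.exp h1 * kA / 2| ≤ σ := by
    have h1' : |X * Real.exp h1| ≤ X * 2 := by
      rw [abs_mul, abs_of_nonneg hX0, abs_of_pos hE1p]
      exact mul_le_mul_of_nonneg_left hE1 hX0
    have h2' := cl_S_abs_mul _ _ _ _ h1' hkA
    rw [abs_div, abs_of_pos (by norm_num : (0 : ℝ) < 2)]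
    have h3' : X * 2 * (2 * K) / 2 = 2 * N * (X * ϖ) := by rw [hK]; ring
    have h4' : |X * Real.exp h1 * kA| / 2 ≤ X * 2 * (2 * K) / 2 :=
      div_le_div_of_nonneg_right h2' (by norm_num)
    linarith
  have hsq2 : P2 ^ 2 ≤ (2 * es) ^ 2 := sq_le_sq' (by linarith [(abs_le.1 hP2).1]) (abs_le.1 hP2).2
  have hsq3 : (-T1) ^ 2 ≤ es ^ 2 := by
    rw [neg_sq]
    exact sq_le_sq' (abs_le.1 hT1).1 (abs_le.1 hT1).2
  have hes3 : es ≤ 1 / 1000 := hes1.trans hε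
  have hes2 : es ^ 2 ≤ 1 / 1000000 := by
    calc es ^ 2 ≤ (1 / 1000) ^ 2 := pow_le_pow_left₀ hes0 hes3 2
      _ = 1 / 1000000 := by norm_num
  have hCe : C = X + y * G + q / 4 * P2 ^ 2 + -q * y * P2 + (-T1) ^ 2 / 2
      + X * Real.exp h1 * kA / 2 := by rw [hC]; ring
  obtain ⟨a1, a2⟩ := abs_le.1 ht1
  obtain ⟨b1, b2⟩ := abs_le.1 ht2
  obtain ⟨c1, c2⟩ := abs_le.1 ht3
  have hp2 : 0 ≤ q / 4 * P2 ^ 2 := by positivity
  have hp2' : q / 4 * P2 ^ 2 ≤ q / 4 * (4 / 1000000) := by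
    refine mul_le_mul_of_nonneg_left ?_ (by positivity)
    have e4 : (2 * es) ^ 2 = 4 * es ^ 2 := by ring
    linarith
  have hp3 : 0 ≤ (-T1) ^ 2 / 2 := by positivity
  have hCK : 3 + q ≤ (6 + 6 * q) * (N + 1) := by
    have e5 : 0 ≤ (6 + 6 * q) * N := by positivity
    have e6 : (6 + 6 * q) * (N + 1) = (6 + 6 * q) * N + (6 + 6 * q) := by ring
    linarith
  have hσq : 1000000 * σ ≤ q * σ := mul_le_mul_of_nonneg_right hq6 hσ0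
  refine ⟨?_, ?_, ?_, ?_⟩
  · linarith
  · rw [hCe]
    linarith
  · rw [hCe]
    refine abs_le.2 ⟨?_, ?_⟩
    · linarith
    · linarith
  · -- the five terms of `F`
    have hf1 : |-(S0 + a * S2) / 2| ≤ M := by
      rw [abs_div, abs_neg, abs_of_pos (by norm_num : (0 : ℝ) < 2)]
      have := (cl_S_abs_lin a S0 S2 M ha0 ha1 hS0 hS2).1
      linarith
    have hf2 : |q / 2 * (S0 - b * S2)| ≤ q / 2 * (2 * M) := by
      refine cl_S_abs_mul _ _ _ _ ?_ (cl_S_abs_lin b S0 S2 M hb0 hb1 hS0 hS2).2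
      rw [abs_of_pos (by positivity)]
    have hP2y : |P2 - 2 * y| ≤ 3 := by
      obtain ⟨p1, p2⟩ := abs_le.1 hP2
      obtain ⟨y1, y2⟩ := abs_le.1 hy
      exact abs_le.2 ⟨by linarith, by linarith⟩
    have hf4 : |q / 2 * (P2 - 2 * y) * κ2| ≤ q / 2 * 3 * M := by
      refine cl_S_abs_mul _ _ _ _ (cl_S_abs_mul _ _ _ _ ?_ hP2y) hκ2
      rw [abs_of_pos (by positivity)]
    have hkk : |kA - k1| ≤ 3 * K := by
      obtain ⟨p1, p2⟩ := abs_le.1 hkA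
      obtain ⟨y1, y2⟩ := abs_le.1 hk1
      exact abs_le.2 ⟨by linarith, by linarith⟩
    have hf5 : |(-T1) * (kA - k1)| ≤ es * (3 * K) :=
      cl_S_abs_mul _ _ _ _ (by rw [abs_neg]; exact hT1) hkk
    have hf5' : es * (3 * K) ≤ M := by
      rw [hM, hes]
      have : ε * σ * (3 * K) = (3 * ε) * (K * σ) := by ring
      rw [this]
      calc 3 * ε * (K * σ) ≤ 1 * (K * σ) :=
            mul_le_mul_of_nonneg_right (by linarith) (by positivity)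
        _ = K * σ := one_mul _
    have hsum : |-(S0 + a * S2) / 2 + q / 2 * (S0 - b * S2) + S1 + q / 2 * (P2 - 2 * y) * κ2
        + (-T1) * (kA - k1)| ≤ (3 + 5 * q / 2) * M := by
      obtain ⟨p1, p2⟩ := abs_le.1 hf1
      obtain ⟨p3, p4⟩ := abs_le.1 hf2
      obtain ⟨p5, p6⟩ := abs_le.1 hS1
      obtain ⟨p7, p8⟩ := abs_le.1 hf4
      obtain ⟨p9, p10⟩ := abs_le.1 hf5
      exact abs_le.2 ⟨by linarith, by linarith⟩
    have hFb : |F| ≤ 2 * ((3 + 5 * q / 2) * M) := by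
      rw [hF]
      refine cl_S_abs_mul _ _ _ _ ?_ hsum
      rw [abs_of_pos hE2p]
      exact hE2
    have hMM : M ≤ (N + 1) * σ * ϖ := by
      rw [hM, hK]
      have e7 : 0 ≤ σ * ϖ := by positivity
      have e8 : (N + 1) * σ * ϖ = N * ϖ * σ + σ * ϖ := by ring
      linarith
    have hfin : 2 * ((3 + 5 * q / 2) * M) ≤ (6 + 6 * q) * ((N + 1) * σ * ϖ) := by
      have h1' : 2 * ((3 + 5 * q / 2) * M) = (6 + 5 * q) * M := by ring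
      rw [h1']
      exact mul_le_mul (by linarith) hMM hM0 (by positivity)
    calc |F| ≤ 2 * ((3 + 5 * q / 2) * M) := hFb
      _ ≤ (6 + 6 * q) * ((N + 1) * σ * ϖ) := hfin
      _ = (6 + 6 * q) * (N + 1) * σ * ϖ := by ring

/-- `X ϖ₀ = X^{3/4} σ ≤ η σ` for `X ≤ η²`. -/
theorem cl_S_Xv0 (L y η : ℝ) (hL : 0 < L) (hX0 : 0 ≤ 1 - y ^ 2) (hη0 : 0 < η) (hη1 : η ≤ 1)
    (hX : 1 - y ^ 2 ≤ η ^ 2) : (1 - y ^ 2) * clV0 L y ≤ η * clSg L y := by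
  unfold clV0 clSg
  obtain ⟨X, hXd⟩ : ∃ X, X = 1 - y ^ 2 := ⟨_, rfl⟩
  rw [← hXd] at hX0 hX ⊢
  have hA : 0 < L + X := by linarith
  rw [Real.div_rpow hX0 hA.le, Real.rpow_neg hA.le]
  have h1 : X ^ ((3 : ℝ) / 4) * X ^ ((1 : ℝ) / 4) = X := by
    rw [← Real.rpow_add_of_nonneg hX0 (by norm_num) (by norm_num)]
    norm_num
  have h2 : X ^ ((3 : ℝ) / 4) ≤ η := by
    calc X ^ ((3 : ℝ) / 4) ≤ (η ^ 2) ^ ((3 : ℝ) / 4) := Real.rpow_le_rpow hX0 hX (by norm_num)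
      _ = η ^ ((3 : ℝ) / 2) := by
          rw [← Real.rpow_natCast, ← Real.rpow_mul hη0.le]
          norm_num
      _ ≤ η ^ (1 : ℝ) := Real.rpow_le_rpow_of_exponent_ge hη0 hη1 (by norm_num)
      _ = η := Real.rpow_one η
  have h3 : 0 ≤ X ^ ((1 : ℝ) / 4) / (L + X) ^ ((1 : ℝ) / 4) := by positivity
  calc X * ((L + X) ^ ((1 : ℝ) / 4))⁻¹
      = X ^ ((3 : ℝ) / 4) * X ^ ((1 : ℝ) / 4) * ((L + X) ^ ((1 : ℝ) / 4))⁻¹ := by rw [h1]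
    _ = X ^ ((3 : ℝ) / 4) * (X ^ ((1 : ℝ) / 4) / (L + X) ^ ((1 : ℝ) / 4)) := by
        rw [div_eq_mul_inv]; ring
    _ ≤ η * (X ^ ((1 : ℝ) / 4) / (L + X) ^ ((1 : ℝ) / 4)) := mul_le_mul_of_nonneg_right h2 h3

/-! ### the trivial background -/

section

variable {q : ℝ} {g : Bg} {U : Tri} {t y : ℝ}

theorem cl_S_A1_eq
    (hout : ∀ t < 0, ∀ y ≤ (3 / 4 : ℝ), g.B (t, y) = 0 ∧ g.w (t, y) = 0 ∧ g.W (t, y) = 0)
    {s z : ℝ} (hs : s < 0) (hz : z ≤ 3 / 4) : A1F q g U (s, z) = h1F q U (s, z) := by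
  unfold A1F
  simp only [(hout s hs z hz).1, mul_zero, add_zero, Real.log_one]

theorem cl_S_C1_eq
    (hout : ∀ t < 0, ∀ y ≤ (3 / 4 : ℝ), g.B (t, y) = 0 ∧ g.w (t, y) = 0 ∧ g.W (t, y) = 0)
    {s z : ℝ} (hs : s < 0) (hz : z ≤ 3 / 4) : C1F g U (s, z) = U 1 (s, z) := by
  unfold C1F
  simp only [(hout s hs z hz).2.1, zero_add]

theorem cl_S_dT_h1 (hU : ∀ j, Sm (U j)) (ht : t < 0) (z : ℝ) :
    dT (h1F q U) (t, z) = dT (U 0) (t, z) + q / (q + 1) * (Xf z * dT (U 2) (t, z)) := by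
  have h0 := (hU 0).hasDerivAt_t ht z
  have h2 := (hU 2).hasDerivAt_t ht z
  exact (h0.add ((h2.const_mul (Xf z)).const_mul (q / (q + 1)))).deriv

theorem cl_S_kB (hU : ∀ j, Sm (U j)) (ht : t < 0) (z : ℝ) :
    kBF q U (t, z) = dT (U 0) (t, z) + -(1 / (q + 1)) * (Xf z * dT (U 2) (t, z)) := by
  have h0 := (hU 0).hasDerivAt_t ht z
  have h2 := (hU 2).hasDerivAt_t ht z
  have h := (h0.sub ((h2.const_mul (Xf z)).const_mul (1 / (q + 1)))).deriv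
  have e : kBF q U (t, z) = dT (U 0) (t, z) - 1 / (q + 1) * (Xf z * dT (U 2) (t, z)) := h
  rw [e]
  ring

theorem cl_S_kA
    (hout : ∀ t < 0, ∀ y ≤ (3 / 4 : ℝ), g.B (t, y) = 0 ∧ g.w (t, y) = 0 ∧ g.W (t, y) = 0)
    (hU : ∀ j, Sm (U j)) (ht : t < 0) {z : ℝ} (hz : z ≤ 3 / 4) :
    kAF q g U (t, z) = dT (U 0) (t, z) + q / (q + 1) * (Xf z * dT (U 2) (t, z)) := by
  rw [← cl_S_dT_h1 hU ht z]
  exact dT_congr (fun s hs => cl_S_A1_eq hout hs hz) ht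

theorem cl_S_kC
    (hout : ∀ t < 0, ∀ y ≤ (3 / 4 : ℝ), g.B (t, y) = 0 ∧ g.w (t, y) = 0 ∧ g.W (t, y) = 0)
    (ht : t < 0) {z : ℝ} (hz : z ≤ 3 / 4) : kCF g U (t, z) = dT (U 1) (t, z) :=
  dT_congr (fun _ hs => cl_S_C1_eq hout hs hz) ht

theorem cl_S_Z
    (hout : ∀ t < 0, ∀ y ≤ (3 / 4 : ℝ), g.B (t, y) = 0 ∧ g.w (t, y) = 0 ∧ g.W (t, y) = 0)
    (ht : t < 0) {z : ℝ} (hz : z ≤ 3 / 4) : g.Z (t, z) = 1 := by
  unfold Bg.Z
  simp only [(hout t ht z hz).1, mul_zero, add_zero, div_one]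

theorem cl_S_kb
    (hout : ∀ t < 0, ∀ y ≤ (3 / 4 : ℝ), g.B (t, y) = 0 ∧ g.w (t, y) = 0 ∧ g.W (t, y) = 0)
    (ht : t < 0) {z : ℝ} (hz : z ≤ 3 / 4) : kbF g U (t, z) = dT (U 2) (t, z) := by
  have h : dT g.B (t, z) = dT (fun _ => (0 : ℝ)) (t, z) :=
    dT_congr (fun s hs => (hout s hs z hz).1) ht
  unfold kbF
  simp only [h, dT_const, mul_zero, add_zero]

theorem cl_S_wp
    (hout : ∀ t < 0, ∀ y ≤ (3 / 4 : ℝ), g.B (t, y) = 0 ∧ g.w (t, y) = 0 ∧ g.W (t, y) = 0)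
    (ht : t < 0) (hy : y < 3 / 4) : g.wp (t, y) = 0 := by
  have h : dY g.w (t, y) = dY (fun _ => (0 : ℝ)) (t, y) := by
    refine dY_congr_of_eventuallyEq ?_
    filter_upwards [Iio_mem_nhds hy] with z hz
    exact (hout t ht z (le_of_lt hz)).2.1
  unfold Bg.wp
  rw [h, dY_const]

/-- derivative in `y` of `f₀ + c X f₂`. -/
theorem cl_S_deriv_lin {f0 f2 : Fn} (h0 : Sm f0) (h2 : Sm f2) (c : ℝ) {F : ℝ → ℝ} (ht : t < 0)
    (he : F =ᶠ[𝓝 y] fun z => f0 (t, z) + c * (Xf z * f2 (t, z))) :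
    deriv F y = deriv (sl f0 t) y + c * deriv (fun z => Xf z * f2 (t, z)) y := by
  rw [he.deriv_eq]
  have k0 := h0.hasDerivAt_y ht y
  have k2 := (sm_Xf.mul h2).hasDerivAt_y ht y
  exact (k0.add (k2.const_mul c)).deriv

theorem cl_S_deriv_A1
    (hout : ∀ t < 0, ∀ y ≤ (3 / 4 : ℝ), g.B (t, y) = 0 ∧ g.w (t, y) = 0 ∧ g.W (t, y) = 0)
    (hU : ∀ j, Sm (U j)) (ht : t < 0) (hy : y < 3 / 4) :
    deriv (sl (A1F q g U) t) y
      = deriv (sl (U 0) t) y + q / (q + 1) * deriv (fun z => Xf z * U 2 (t, z)) y := by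
  refine cl_S_deriv_lin (hU 0) (hU 2) _ ht ?_
  filter_upwards [Iio_mem_nhds hy] with z hz
  exact cl_S_A1_eq hout ht (le_of_lt hz)

theorem cl_S_deriv_h1 (hU : ∀ j, Sm (U j)) (ht : t < 0) (y : ℝ) :
    deriv (sl (h1F q U) t) y
      = deriv (sl (U 0) t) y + q / (q + 1) * deriv (fun z => Xf z * U 2 (t, z)) y :=
  cl_S_deriv_lin (hU 0) (hU 2) _ ht (Eventually.of_forall fun _ => rfl)

theorem cl_S_deriv_h2 (hU : ∀ j, Sm (U j)) (ht : t < 0) (y : ℝ) :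
    deriv (sl (h2F q U) t) y
      = deriv (sl (U 0) t) y + -(1 / (q + 1)) * deriv (fun z => Xf z * U 2 (t, z)) y := by
  refine cl_S_deriv_lin (hU 0) (hU 2) _ ht (Eventually.of_forall fun z => ?_)
  show U 0 (t, z) - 1 / (q + 1) * (Xf z * U 2 (t, z)) = _
  ring

theorem cl_S_deriv_C1
    (hout : ∀ t < 0, ∀ y ≤ (3 / 4 : ℝ), g.B (t, y) = 0 ∧ g.w (t, y) = 0 ∧ g.W (t, y) = 0)
    (ht : t < 0) (hy : y < 3 / 4) : deriv (sl (C1F g U) t) y = deriv (sl (U 1) t) y := by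
  refine Filter.EventuallyEq.deriv_eq ?_
  filter_upwards [Iio_mem_nhds hy] with z hz
  exact cl_S_C1_eq hout ht (le_of_lt hz)

theorem cl_S_deriv_kA
    (hout : ∀ t < 0, ∀ y ≤ (3 / 4 : ℝ), g.B (t, y) = 0 ∧ g.w (t, y) = 0 ∧ g.W (t, y) = 0)
    (hU : ∀ j, Sm (U j)) (ht : t < 0) (hy : y < 3 / 4) :
    deriv (sl (kAF q g U) t) y
      = deriv (sl (dT (U 0)) t) y + q / (q + 1) * deriv (fun z => Xf z * dT (U 2) (t, z)) y := by
  refine cl_S_deriv_lin (hU 0).dT (hU 2).dT _ ht ?_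
  filter_upwards [Iio_mem_nhds hy] with z hz
  exact cl_S_kA hout hU ht (le_of_lt hz)

theorem cl_S_deriv_kB (hU : ∀ j, Sm (U j)) (ht : t < 0) (y : ℝ) :
    deriv (sl (kBF q U) t) y
      = deriv (sl (dT (U 0)) t) y + -(1 / (q + 1)) * deriv (fun z => Xf z * dT (U 2) (t, z)) y :=
  cl_S_deriv_lin (hU 0).dT (hU 2).dT _ ht (Eventually.of_forall fun z => cl_S_kB hU ht z)

theorem cl_S_deriv_kC
    (hout : ∀ t < 0, ∀ y ≤ (3 / 4 : ℝ), g.B (t, y) = 0 ∧ g.w (t, y) = 0 ∧ g.W (t, y) = 0)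
    (ht : t < 0) (hy : y < 3 / 4) : deriv (sl (kCF g U) t) y = deriv (sl (dT (U 1)) t) y := by
  refine Filter.EventuallyEq.deriv_eq ?_
  filter_upwards [Iio_mem_nhds hy] with z hz
  exact cl_S_kC hout ht (le_of_lt hz)

/-- the total gauge field over the trivial background. -/
theorem cl_S_mW
    (hout : ∀ t < 0, ∀ y ≤ (3 / 4 : ℝ), g.B (t, y) = 0 ∧ g.w (t, y) = 0 ∧ g.W (t, y) = 0)
    (ht : t < 0) (hy : y < 3 / 4) :
    mW q g U (t, y) = -(e1F q U (t, y) * (-deriv (sl (h1F q U) t) y / 2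
      + q / 2 * deriv (sl (h2F q U) t) y + deriv (sl (U 1) t) y) + q * y * bPh q U (t, y)) := by
  have e : mW q g U (t, y) = g.W (t, y) - (g.Z (t, y) * e1F q U (t, y) *
      (-deriv (sl (h1F q U) t) y / 2 + q / 2 * deriv (sl (h2F q U) t) y + deriv (sl (U 1) t) y)
      + q * y * g.Z (t, y) * bPh q U (t, y)
      - g.Z (t, y) * g.wp (t, y) * (e3F U (t, y) - e1F q U (t, y))) := rfl
  rw [e, cl_S_Z hout ht hy.le, cl_S_wp hout ht hy, (hout t ht y hy.le).2.2]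
  ring

/-- (F1) in zone S. -/
theorem cl_S_g (hq : 0 < q)
    (hout : ∀ t < 0, ∀ y ≤ (3 / 4 : ℝ), g.B (t, y) = 0 ∧ g.w (t, y) = 0 ∧ g.W (t, y) = 0)
    (hU : ∀ j, Sm (U j)) (ht : t < 0) (hy : y < 3 / 4) :
    (1 - y ^ 2) * gS q g U t y = -q * y * (Real.exp (Xf y * U 2 (t, y)) - 1) := by
  have e : gS q g U t y = -deriv (sl (A1F q g U) t) y / 2 + q / 2 * deriv (sl (h2F q U) t) y
      + deriv (sl (C1F g U) t) y + Real.exp (A1F q g U (t, y)) * mW q g U (t, y) := rfl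
  rw [e, cl_S_mW hout ht hy, cl_S_deriv_A1 hout hU ht hy, cl_S_deriv_C1 hout ht hy,
    cl_S_deriv_h1 hU ht y, cl_S_A1_eq hout ht hy.le]
  have hb : h1F q U (t, y) - h2F q U (t, y) = Xf y * U 2 (t, y) := by
    show U 0 (t, y) + q / (q + 1) * (Xf y * U 2 (t, y))
      - (U 0 (t, y) - 1 / (q + 1) * (Xf y * U 2 (t, y))) = _
    field_simp
    ring
  have hEe1 : Real.exp (h1F q U (t, y)) * e1F q U (t, y) = 1 := by
    show Real.exp (h1F q U (t, y)) * Real.exp (-h1F q U (t, y)) = 1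
    rw [← Real.exp_add, add_neg_cancel, Real.exp_zero]
  have hEe2 : Real.exp (h1F q U (t, y)) * e2F q U (t, y) = Real.exp (Xf y * U 2 (t, y)) := by
    show Real.exp (h1F q U (t, y)) * Real.exp (-h2F q U (t, y)) = _
    rw [← Real.exp_add, ← hb]
    ring_nf
  have hΦ := ph1_mul (Xf y * U 2 (t, y))
  have hββ : Real.exp (Xf y * U 2 (t, y)) * Real.exp (-(Xf y * U 2 (t, y))) = 1 := by
    rw [← Real.exp_add, add_neg_cancel, Real.exp_zero]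
  have hbP : bPh q U (t, y) = U 2 (t, y) * e2F q U (t, y) * Ph1 (Xf y * U 2 (t, y)) := rfl
  have hX : Xf y = 1 - y ^ 2 := rfl
  rw [hbP]
  rw [hX] at hEe2 hΦ hββ ⊢
  obtain ⟨A, hA⟩ : ∃ A, A = -(deriv (sl (U 0) t) y
      + q / (q + 1) * deriv (fun z => Xf z * U 2 (t, z)) y) / 2
      + q / 2 * deriv (sl (h2F q U) t) y + deriv (sl (U 1) t) y := ⟨_, rfl⟩
  rw [← hA]
  linear_combination (-((1 - y ^ 2) * A)) * hEe1
    - q * y * U 2 (t, y) * Ph1 ((1 - y ^ 2) * U 2 (t, y)) * (1 - y ^ 2) * hEe2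
    - q * y * Real.exp ((1 - y ^ 2) * U 2 (t, y)) * hΦ + q * y * hββ

/-- (F2) in zone S. -/
theorem cl_S_c
    (hout : ∀ t < 0, ∀ y ≤ (3 / 4 : ℝ), g.B (t, y) = 0 ∧ g.w (t, y) = 0 ∧ g.W (t, y) = 0)
    (hU : ∀ j, Sm (U j)) (ht : t < 0) (hy : y < 3 / 4) :
    (1 - y ^ 2) * cS q g U t y = (1 - y ^ 2) + y * ((1 - y ^ 2) * gS q g U t y)
      + q / 4 * (-(tt (sl (U 0) t) y - 1 / (q + 1) * tt (fun z => Xf z * U 2 (t, z)) y)) ^ 2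
      - q * y * (-(tt (sl (U 0) t) y - 1 / (q + 1) * tt (fun z => Xf z * U 2 (t, z)) y))
      + (-tt (sl (U 1) t) y) ^ 2 / 2
      + (1 - y ^ 2) * Real.exp (U 0 (t, y) + q / (q + 1) * (Xf y * U 2 (t, y)))
        * (dT (U 0) (t, y) + q / (q + 1) * (Xf y * dT (U 2) (t, y))) / 2 := by
  have e : cS q g U t y = 1 + y * gS q g U t y
      + q / 4 * (1 - y ^ 2) * (deriv (sl (h2F q U) t) y) ^ 2 - q * y * deriv (sl (h2F q U) t) y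
      + (1 - y ^ 2) * (deriv (sl (C1F g U) t) y) ^ 2 / 2
      + Real.exp (A1F q g U (t, y)) * kAF q g U (t, y) / 2 := rfl
  have eh : h1F q U (t, y) = U 0 (t, y) + q / (q + 1) * (Xf y * U 2 (t, y)) := rfl
  rw [e, cl_S_deriv_C1 hout ht hy, cl_S_deriv_h2 hU ht y, cl_S_A1_eq hout ht hy.le,
    cl_S_kA hout hU ht hy.le, eh]
  unfold tt
  ring

/-- (F3) in zone S. -/
theorem cl_S_f
    (hout : ∀ t < 0, ∀ y ≤ (3 / 4 : ℝ), g.B (t, y) = 0 ∧ g.w (t, y) = 0 ∧ g.W (t, y) = 0)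
    (hU : ∀ j, Sm (U j)) (ht : t < 0) (hy : y < 3 / 4) :
    (1 - y ^ 2) * fS q g U t y
      = Real.exp ((U 0 (t, y) + q / (q + 1) * (Xf y * U 2 (t, y))) / 2) *
        (-(tt (sl (dT (U 0)) t) y + q / (q + 1) * tt (fun z => Xf z * dT (U 2) (t, z)) y) / 2
        + q / 2 * (tt (sl (dT (U 0)) t) y - 1 / (q + 1) * tt (fun z => Xf z * dT (U 2) (t, z)) y)
        + tt (sl (dT (U 1)) t) y
        + q / 2 * (-(tt (sl (U 0) t) y - 1 / (q + 1) * tt (fun z => Xf z * U 2 (t, z)) y) - 2 * y)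
          * (Xf y * dT (U 2) (t, y))
        + (-tt (sl (U 1) t) y) * (dT (U 0) (t, y) + q / (q + 1) * (Xf y * dT (U 2) (t, y))
          - dT (U 1) (t, y))) := by
  have e : fS q g U t y = Real.exp (A1F q g U (t, y) / 2) *
      (deriv (sl (kAF q g U) t) y / 2 - q / 2 * deriv (sl (kBF q U) t) y - deriv (sl (kCF g U) t) y
        + q / 2 * ((1 - y ^ 2) * deriv (sl (h2F q U) t) y - 2 * y) * kbF g U (t, y)
        + deriv (sl (C1F g U) t) y * (kAF q g U (t, y) - kCF g U (t, y))) := rfl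
  have eh : h1F q U (t, y) = U 0 (t, y) + q / (q + 1) * (Xf y * U 2 (t, y)) := rfl
  have hX : Xf y = 1 - y ^ 2 := rfl
  rw [e, cl_S_deriv_C1 hout ht hy, cl_S_deriv_h2 hU ht y, cl_S_A1_eq hout ht hy.le,
    cl_S_kA hout hU ht hy.le, cl_S_kC hout ht hy.le, cl_S_kb hout ht hy.le,
    cl_S_deriv_kA hout hU ht hy, cl_S_deriv_kB hU ht y, cl_S_deriv_kC hout ht hy, eh, hX]
  unfold tt
  ring

end

/-- **zone S** (statement of `cl_coef_S`). -/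
theorem cl_coef_S_main (q : ℕ) (hq6 : 10 ^ 6 ≤ q) (g : Bg) (hg : BgGood q g) (U : Tri)
    (hU : ∀ j, Sm (U j)) (t₁ ε N : ℝ) (hε0 : 0 ≤ ε) (hε : ε ≤ 1 / 1000) (hN : 0 ≤ N)
    (hpt : CLPt q U t₁ ε N) :
    ∃ Λ₂ y₀ CK : ℝ, 0 < Λ₂ ∧ 19 / 20 ≤ y₀ ∧ y₀ < 1 ∧ 0 ≤ CK ∧
      ∀ t ∈ Ico (max t₁ (-Λ₂)) 0, ∀ y ∈ Icc (-1) (-y₀),
        |(1 - y ^ 2) * gS q g U t y| ≤ (q : ℝ) / 40 ∧
        -((q : ℝ) / 40) * clSg (ell2 q t) y ≤ (1 - y ^ 2) * cS q g U t y ∧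
        |(1 - y ^ 2) * cS q g U t y| ≤ CK ∧
        (1 - y ^ 2) * |fS q g U t y| ≤ CK * clSg (ell2 q t) y * clV0 (ell2 q t) y := by
  have hqR : (10 : ℝ) ^ 6 ≤ (q : ℝ) := by exact_mod_cast hq6
  have hq0 : (0 : ℝ) < (q : ℝ) := lt_of_lt_of_le (by norm_num) hqR
  have hq1 : (1 : ℝ) < (q : ℝ) := lt_of_lt_of_le (by norm_num) hqR
  obtain ⟨η, hη⟩ : ∃ η : ℝ, η = 1 / (2 * N + 1) := ⟨_, rfl⟩
  have hη0 : 0 < η := by rw [hη]; positivity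
  have hη1 : η ≤ 1 := by
    rw [hη, div_le_one (by positivity)]
    linarith
  have hNη : 2 * N * η ≤ 1 := by
    rw [hη, mul_one_div, div_le_one (by positivity)]
    linarith
  have hη2 : 0 < η ^ 2 := by positivity
  refine ⟨1, max (19 / 20) (1 - η ^ 2 / 2), (6 + 6 * (q : ℝ)) * (N + 1), one_pos, le_max_left _ _,
    max_lt (by norm_num) (by linarith), by positivity, ?_⟩
  intro t ht y hy
  have ht0 : t < 0 := ht.2
  have htI : t ∈ Ico t₁ 0 := ⟨(le_max_left _ _).trans ht.1, ht.2⟩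
  have hy1 : y ≤ -(19 / 20) := hy.2.trans (neg_le_neg (le_max_left _ _))
  have hy2 : y ≤ -(1 - η ^ 2 / 2) := hy.2.trans (neg_le_neg (le_max_right _ _))
  have hym : -1 ≤ y := hy.1
  have hyI : y ∈ Icc (-1 : ℝ) 1 := ⟨hy.1, by linarith⟩
  have hy34 : y < 3 / 4 := by linarith
  have hL : 0 < ell2 q t := by
    unfold ell2 lam2
    have h1 : 0 < (-t) ^ (2 * gaF q) := Real.rpow_pos_of_pos (by linarith) _
    have h2 : (0 : ℝ) < ((q : ℝ) - 1) / 100 := by linarith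
    exact mul_pos h2 h1
  obtain ⟨hσ0, hσ1, -⟩ := cl_sg_mem _ hL y hyI
  have hϖ := cl_v0_pos _ hL y hyI
  have hX0 := cl_u_nonneg y hyI
  have hX1 : 1 - y ^ 2 ≤ 1 := by nlinarith [sq_nonneg y]
  have hXη : 1 - y ^ 2 ≤ η ^ 2 := by
    have h1 : (1 + y) * (1 - y) ≤ (1 + y) * 2 :=
      mul_le_mul_of_nonneg_left (by linarith) (by linarith)
    have h2 : 1 - y ^ 2 = (1 + y) * (1 - y) := by ring
    linarith
  have hsm : 2 * N * ((1 - y ^ 2) * clV0 (ell2 q t) y) ≤ clSg (ell2 q t) y := by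
    have h1 := cl_S_Xv0 (ell2 q t) y η hL hX0 hη0 hη1 hXη
    calc 2 * N * ((1 - y ^ 2) * clV0 (ell2 q t) y) ≤ 2 * N * (η * clSg (ell2 q t) y) :=
          mul_le_mul_of_nonneg_left h1 (by positivity)
      _ = (2 * N * η) * clSg (ell2 q t) y := by ring
      _ ≤ 1 * clSg (ell2 q t) y := mul_le_mul_of_nonneg_right hNη hσ0
      _ = clSg (ell2 q t) y := one_mul _
  obtain ⟨hu0, -⟩ := hpt.u0 t htI y hyI
  obtain ⟨hb, hT0, hT1, hT2⟩ := hpt.u1 t htI y hyI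
  obtain ⟨hk0, hk1⟩ := hpt.k0 t htI y hyI
  obtain ⟨hκ, hS0, hS1, hS2⟩ := hpt.k1 t htI y hyI
  obtain ⟨k1, k2, k3, k4⟩ := cl_S_ineq (q : ℝ) y (1 - y ^ 2) (clSg (ell2 q t) y) (clV0 (ell2 q t) y)
    ε N (U 0 (t, y)) (Xf y * U 2 (t, y)) (tt (sl (U 0) t) y) (tt (sl (U 1) t) y)
    (tt (fun z => Xf z * U 2 (t, z)) y) (dT (U 0) (t, y)) (dT (U 1) (t, y))
    (Xf y * dT (U 2) (t, y)) (tt (sl (dT (U 0)) t) y) (tt (sl (dT (U 1)) t) y)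
    (tt (fun z => Xf z * dT (U 2) (t, z)) y) ((1 - y ^ 2) * gS q g U t y)
    ((1 - y ^ 2) * cS q g U t y) ((1 - y ^ 2) * fS q g U t y) hqR (abs_le.2 ⟨hym, hyI.2⟩) hX0 hX1
    hσ0 hσ1.le hϖ.le hε0 hε hN hsm hu0 hb hT0 hT1 hT2 hk0 hk1 hκ hS0 hS1 hS2
    (cl_S_g hq0 hg.out hU ht0 hy34) (cl_S_c hg.out hU ht0 hy34) (cl_S_f hg.out hU ht0 hy34)
  refine ⟨k1, k2, k3, ?_⟩
  rw [abs_mul, abs_of_nonneg hX0] at k4
  exact k4

end Claimed.Agent.R324.Core
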