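/-
Row 324 (S0582), PDE core, module CL.   Architect: helper325.   Blueprint: origin/helper325:docs/R324_CL.md, section C2.

Leaf CL.Coef: bounds of the coefficients `𝔤` (`gS`), `𝔠` (`cS`) and of the right hand side (`fS`) of the gauge ODE, in the three zones.
Notation at `(t,y)`:  `X = 1-y²`, `ℓ² = ell2 q t`, `s = X/(ℓ²+X)`, `σ = clSg ℓ² y = s^{1/4} ≥ s`, `ϖ₀ = clV0 ℓ² y = (ℓ²+X)^{-1/4}`;   `β = X U₂`, `h₁ = U₀ + q/(q+1) β`, `h₂ = U₀ - β/(q+1)`, `h₃ = U₁`.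
`X f' = - tt f`.   By `CLPt`:  |h_i| ≤ 2ε,  |β| ≤ εσ,  |X h₁'|, |X h₂'| ≤ 2εσ,  |X h₃'| ≤ εσ.

FORMULAS.   `e^{A₁} = e^{h₁} (1+XB) = e^{h₁}/Z`,   `X bPh = e₂ - e₁` (`s Φ₁(s) = 1 - e^{-s}`), so
   X e^{A₁} 𝒲 = e^{h₁} X W/Z - [ -X h₁'/2 + (q/2) X h₂' + X h₃' ] - q y (e^{β} - 1) + X w' (e^{h₁-h₃} - 1),
 (F1)  X 𝔤 = - X a'/2 + X w' e^{h₁-h₃} + e^{h₁} X W/Z - q y (e^{β} - 1)                                   [the gradient terms cancel]      (`cl_Xg_formula`)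
 (F2)  X 𝔠 = [X - y X a'/2 + y X w' + (X w')²/2] + y X w' (e^{h₁-h₃} - 1) + y e^{h₁} X W/Z - q y² (e^{β} - 1)
               + (q/4)(X h₂')² - q y X h₂' + X w' · X h₃' + (X h₃')²/2 + X e^{h₁} kA/(2Z)
 (F3)  X K = X kA'/2 - (q/2) X kB' - X kC' + (q/2)(X h₂' - 2y)(X kb) + X C₁' (kA - kC),
        kA = ∂_t U₀ + q/(q+1) X ∂_t U₂ + X Z ∂_t B,   kB = ∂_t U₀ - X ∂_t U₂/(q+1),   kC = ∂_t w + ∂_t U₁,   X kb = X ∂_t U₂ + X Z ∂_t B.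
BACKGROUND.  `BgGood.symJ`:  |∂_y^j ∂_t w| ≤ C (𝔍/Θ) r̂^{-2j},  |∂_y^j ∂_t B| ≤ C 𝔍/(r̂² Θ) r̂^{-2j},  |∂_y^j W| ≤ C (𝔍/Θ) r̂^{-2j};   for `y ≥ 1/2`: `r̂² = rh2 = ℓ² + X`, `Θ = Λ + X`.
 `cl_JJ_le`:  𝔍/Θ = Θ⁷ r̂^{-α} ≤ C ϖ₀ on `y ≥ 1/2`:   `X ≥ Λ`: Θ ≤ 2 r̂² ≤ 4;    `X ≤ Λ`: Θ ≤ 2Λ, r̂² ≥ ℓ² = c Λ^{2γ}, exponent 7 - γ α + γ/2 = γ/2 - 1 > 0 (γ α = 8, γ = 8/α > 3 because α < 2 + 5/q).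
 `cl_bg_small`:  X 𝔍/Θ = s · r̂^{2-α} Θ⁷ ≤ η s   once `Λ ≤ Λ₀(η)`, `X ≤ X₁(η)`   (r̂^{2-α} ≤ ℓ^{-(α-2)} = c Λ^{-γ(α-2)}, γ(α-2) ≤ 1;  Θ⁷ ≤ (Λ+X)⁷: if X ≤ Λ: Θ⁷Λ^{-1} ≤ 2⁷Λ⁶; if X ≥ Λ: r̂² ≥ X ≥ Θ/2, r̂^{2-α}Θ⁷ ≤ 2Θ⁶).
ZONE N (`cl_coef_N`; `y₀ ≥ y₁` of `BgCL`, `1 - y₀²` and `Λ₂` small depending on `N` and on the constants of `symJ`):
   |X 𝔤| ≤ 1/2 + 4 e^{4ε} + 4 X|W| + 2 q ε ≤ q/40;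
   X 𝔠 ≥ -3s - 4s·(e^{4ε}-1) - 4 X|W| - 2qεσ - 2qεσ - 4s εσ - 2 X|kA| ≥ -(q/40) σ        (ε ≤ 1/1000, q ≥ 10⁶;   4X|W| ≤ σ,   2X|kA| ≤ 2X(2Nϖ₀ + C s 𝔍/Θ) ≤ σ because X ϖ₀ = s (ℓ²+X)^{3/4});
   X |K| ≤ C(q)(N + C) σ ϖ₀:   every term of (F3) carries a factor σ:  tt-derivatives and `X ∂_t U₂` by `CLPt.k1`,  |X Z ∂_t B|, |tt (X Z ∂_t B)|, |tt ∂_t w| ≤ C s 𝔍/Θ,  |X C₁'| ≤ 4s + εσ ≤ 5σ.      e^{A₁/2} ≤ 2.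
ZONE S (`cl_coef_S`): `B = w = W = 0` for `y ≤ 3/4` and all `t` (`BgGood.out`), so also their `t`- and `y`-derivatives vanish for `y < 3/4`, `Z = 1`: the same formulas without background.
MIDDLE (`cl_coef_mid`): `X ≥ 1 - y₀² > 0`; divide the formulas by `X`; `BgGood.sym`, `symJ` bound the background (r̂², Θ are bounded below on `y ≤ y₀`: `Xt ≥ min (3/4) (1-y₀²)`), ϖ₀ ≤ (1-y₀²)^{-1/4}.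
   `om = e^{A₁/2} 𝒲`, `|𝒲| ≤ |W| + C(|h'| + q|bPh| + |w'|)`.
-/
import Claimed.Agent.R324.Core.CL.OdeSlice
import Claimed.Agent.R324.Core.CL.CoefN
import Claimed.Agent.R324.Core.CL.CoefM
import Claimed.Agent.R324.Core.CL.CoefA
import Claimed.Agent.R324.Core.CL.CoefS

set_option autoImplicit false

namespace Claimed.Agent.R324.Core

open Set Filter Topology MeasureTheory
open scoped ContDiff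

/-- (F1). -/
theorem cl_Xg_formula (q : ℝ) (hq : 0 < q) (g : Bg) (hg : BgSm g) (U : Tri) (hU : ∀ j, Sm (U j)) (t y : ℝ)
    (ht : t < 0) :
    (1 - y ^ 2) * gS q g U t y = -(Xf y * g.ap (t, y)) / 2
      + Xf y * g.wp (t, y) * Real.exp (h1F q U (t, y) - U 1 (t, y))
      + Real.exp (h1F q U (t, y)) * (Xf y * g.W (t, y)) / g.Z (t, y)
      - q * y * (Real.exp (beF U (t, y)) - 1) :=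
  cl_a_Xg_formula q hq g hg U hU t y ht

/-- `𝔍/Θ ≤ C ϖ₀` on the north side. -/
theorem cl_JJ_le (q : ℕ) (hq6 : 10 ^ 6 ≤ q) : ∃ C Λ₀ : ℝ, 0 < Λ₀ ∧ ∀ t ∈ Ico (-Λ₀) 0, ∀ y ∈ Icc (1 / 2 : ℝ) 1,
    JJ q t y / Th t y ≤ C * clV0 (ell2 q t) y :=
  cl_a_JJ_le q hq6

/-- `X 𝔍/Θ ≤ η s` near the north pole, close to the blow up time. -/
theorem cl_bg_small (q : ℕ) (hq6 : 10 ^ 6 ≤ q) (η : ℝ) (hη : 0 < η) :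
    ∃ Λ₀ y₁ : ℝ, 0 < Λ₀ ∧ 19 / 20 ≤ y₁ ∧ y₁ < 1 ∧ ∀ t ∈ Ico (-Λ₀) 0, ∀ y ∈ Icc y₁ 1,
      Xf y * (JJ q t y / Th t y) ≤ η * (Xf y / (ell2 q t + Xf y)) ∧
      Xf y * clV0 (ell2 q t) y ≤ η * (Xf y / (ell2 q t + Xf y)) :=
  cl_a_bg_small q hq6 η hη

theorem cl_coef_N (q : ℕ) (hq6 : 10 ^ 6 ≤ q) (g : Bg) (hg : BgGood q g) (hcl : BgCL q g) (U : Tri)
    (hU : ∀ j, Sm (U j)) (t₁ ε N : ℝ) (ht₁ : t₁ < 0) (hε0 : 0 ≤ ε) (hε : ε ≤ 1 / 1000) (hN : 0 ≤ N)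
    (hpt : CLPt q U t₁ ε N) :
    ∃ Λ₂ y₀ CK : ℝ, 0 < Λ₂ ∧ 19 / 20 ≤ y₀ ∧ y₀ < 1 ∧ 0 ≤ CK ∧
      ∀ t ∈ Ico (max t₁ (-Λ₂)) 0, ∀ y ∈ Icc y₀ 1,
        |(1 - y ^ 2) * gS q g U t y| ≤ (q : ℝ) / 40 ∧
        -((q : ℝ) / 40) * clSg (ell2 q t) y ≤ (1 - y ^ 2) * cS q g U t y ∧
        |(1 - y ^ 2) * cS q g U t y| ≤ CK ∧
        (1 - y ^ 2) * |fS q g U t y| ≤ CK * clSg (ell2 q t) y * clV0 (ell2 q t) y := by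
  have hqR : (10 : ℝ) ^ 6 ≤ (q : ℝ) := by exact_mod_cast hq6
  have hq0 : (0 : ℝ) < (q : ℝ) := by linarith
  obtain ⟨Λa, C, hΛa, hsw, hsB, hsW⟩ := hg.symJ
  obtain ⟨Λb, y₁, hΛb, hy₁a, hy₁b, hbg⟩ := hcl
  obtain ⟨C', Λc, hΛc, hJJ⟩ := cl_JJ_le q hq6
  have hC₀ : 0 ≤ max C 0 := le_max_right C 0
  have hC₁ : 0 ≤ max C' 0 := le_max_right C' 0
  have hpos : 0 < 8 * (N + max C 0 + 1) := by linarith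
  have hη0 : 0 < 1 / (8 * (N + max C 0 + 1)) := div_pos one_pos hpos
  obtain ⟨Λd, y₂, hΛd, hy₂a, hy₂b, hsm⟩ := cl_bg_small q hq6 (1 / (8 * (N + max C 0 + 1))) hη0
  refine ⟨min (min Λa Λb) (min Λc Λd), max y₁ y₂,
    3 * (q : ℝ) + 2 * ((6 * (q : ℝ) + 40) * (N + max C 0 * max C' 0)),
    lt_min (lt_min hΛa hΛb) (lt_min hΛc hΛd), hy₁a.trans (le_max_left _ _), max_lt hy₁b hy₂b, ?_, ?_⟩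
  · have h1 : 0 ≤ (6 * (q : ℝ) + 40) * (N + max C 0 * max C' 0) :=
      mul_nonneg (by linarith) (add_nonneg hN (mul_nonneg hC₀ hC₁))
    linarith
  intro t ht y hy
  have ht0 : t < 0 := ht.2
  have htt : t ∈ Ico t₁ 0 := ⟨(le_max_left _ _).trans ht.1, ht0⟩
  have htΛ : -(min (min Λa Λb) (min Λc Λd)) ≤ t := (le_max_right _ _).trans ht.1
  have m1 : min (min Λa Λb) (min Λc Λd) ≤ Λa := (min_le_left _ _).trans (min_le_left _ _)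
  have m2 : min (min Λa Λb) (min Λc Λd) ≤ Λb := (min_le_left _ _).trans (min_le_right _ _)
  have m3 : min (min Λa Λb) (min Λc Λd) ≤ Λc := (min_le_right _ _).trans (min_le_left _ _)
  have m4 : min (min Λa Λb) (min Λc Λd) ≤ Λd := (min_le_right _ _).trans (min_le_right _ _)
  have hta : t ∈ Ico (-Λa) 0 := ⟨by linarith, ht0⟩
  have htb : t ∈ Ico (-Λb) 0 := ⟨by linarith, ht0⟩
  have htc : t ∈ Ico (-Λc) 0 := ⟨by linarith, ht0⟩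
  have htd : t ∈ Ico (-Λd) 0 := ⟨by linarith, ht0⟩
  have hy1 : y₁ ≤ y := (le_max_left _ _).trans hy.1
  have hy2 : y₂ ≤ y := (le_max_right _ _).trans hy.1
  have hyI : y ∈ Icc (-1 : ℝ) 1 := ⟨by linarith, hy.2⟩
  have hL : 0 < ell2 q t := cl_cn_ell2_pos (by linarith) ht0
  have hϖ := cl_v0_pos _ hL y hyI
  exact cl_cn_point hqR hg.sm hU ht0 ⟨by linarith, hy.2⟩ hε0 hε hN (le_max_left C 0) hC₀ hC₁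
    (one_div_mul_cancel hpos.ne') hη0.le
    (cl_Xg_formula q hq0 g hg.sm U hU t y ht0) (hpt.u0 t htt y hyI) (hpt.u1 t htt y hyI)
    (hpt.k0 t htt y hyI) (hpt.k1 t htt y hyI) (hbg t htb y ⟨hy1, hy.2⟩)
    (cl_cn_sym (by norm_num) hsw hta hyI) (cl_cn_sym (by norm_num) hsB hta hyI)
    (cl_cn_sym (by norm_num) hsW hta hyI).1
    ((hJJ t htc y ⟨by linarith, hy.2⟩).trans
      (mul_le_mul_of_nonneg_right (le_max_left C' 0) hϖ.le))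
    (hsm t htd y ⟨hy2, hy.2⟩)

theorem cl_coef_S (q : ℕ) (hq6 : 10 ^ 6 ≤ q) (g : Bg) (hg : BgGood q g) (U : Tri)
    (hU : ∀ j, Sm (U j)) (t₁ ε N : ℝ) (ht₁ : t₁ < 0) (hε0 : 0 ≤ ε) (hε : ε ≤ 1 / 1000) (hN : 0 ≤ N)
    (hpt : CLPt q U t₁ ε N) :
    ∃ Λ₂ y₀ CK : ℝ, 0 < Λ₂ ∧ 19 / 20 ≤ y₀ ∧ y₀ < 1 ∧ 0 ≤ CK ∧
      ∀ t ∈ Ico (max t₁ (-Λ₂)) 0, ∀ y ∈ Icc (-1) (-y₀),
        |(1 - y ^ 2) * gS q g U t y| ≤ (q : ℝ) / 40 ∧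
        -((q : ℝ) / 40) * clSg (ell2 q t) y ≤ (1 - y ^ 2) * cS q g U t y ∧
        |(1 - y ^ 2) * cS q g U t y| ≤ CK ∧
        (1 - y ^ 2) * |fS q g U t y| ≤ CK * clSg (ell2 q t) y * clV0 (ell2 q t) y := by
  exact cl_coef_S_main q hq6 g hg U hU t₁ ε N hε0 hε hN hpt

theorem cl_coef_mid (q : ℕ) (hq6 : 10 ^ 6 ≤ q) (g : Bg) (hg : BgGood q g) (U : Tri)
    (hU : ∀ j, Sm (U j)) (t₁ ε N : ℝ) (ht₁ : t₁ < 0) (hε0 : 0 ≤ ε) (hε : ε ≤ 1 / 1000) (hN : 0 ≤ N)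
    (hpt : CLPt q U t₁ ε N) (y₀ : ℝ) (h0 : 0 < y₀) (h1 : y₀ < 1) :
    ∃ Λ₂ C : ℝ, 0 < Λ₂ ∧ 0 ≤ C ∧ ∀ t ∈ Ico (max t₁ (-Λ₂)) 0, ∀ y ∈ Icc (-y₀) y₀,
      |omF q g U (t, y)| ≤ C ∧ |gS q g U t y| ≤ C ∧ |cS q g U t y| ≤ C ∧ |fS q g U t y| ≤ C := by
  have hq : (100 : ℝ) ≤ (q : ℝ) := by
    have h : (10 : ℝ) ^ 6 ≤ (q : ℝ) := by exact_mod_cast hq6
    linarith
  exact cl_coef_mid_aux q hq g hg U hU t₁ ε N hε0 hε hN hpt y₀ h0 h1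

end Claimed.Agent.R324.Core
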