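/-
Row 324 (S0582), PDE core, module CL.   Architect: helper325.   Blueprint: origin/helper325:docs/R324_CL.md, section C3.

Leaf CL.Evol: the evolution equation of the smooth representative `scF` of the scalar curvature, up to the poles.
      ∂_t R = X Z e₁ R'' + 𝔟 R' + |ρ|²/2,        𝔟 = drF = - y Z (e₁ + q e₂) - X Z e₁ a'/2 + X Z w' e₃ + X W,      |ρ|² = ricF.

PROOF of `cl_scal_evol` on the open interval.   `scal_evolution` (R324/MaxPrin.lean) with `I = Ioo t₀ 0`, `J = Ioo (-1) 1`, `a p = laOf mA mB p.1 p.2`, `b p = lbOf mA p.1 p.2`, `c p = lcOf mC p.1 p.2`, `V p = Xf p.2 * mW q g U p`.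
  Smoothness on `I ×ˢ J`:  `cl_log_metric` (`A₁ - log X` etc., `X > 0`), `cl_sm_all`.    The three flow equations are `RedGF.flowA/B/C` (`fun z => a (t,z)` is `laOf mA mB t` by eta).
  By `cl_repr`, `scalRed q (la t) (lb t) (lc t) y = scF (t,y)` on the OPEN rectangle, so the `t`-derivative and the first two `y`-derivatives agree (`EventuallyEq.deriv_eq`, `iteratedDeriv 2 = deriv ∘ deriv`); `rfA = rAF` ...
  `exp (-la) = X e^{-A₁} = X Z e₁`   (`e^{-A₁} = e^{-h₁}/(1+XB)`).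
  Drift:   `X Z e₁ (-la'/2 + q lb'/2 + lc') + X 𝒲 = drF`:   `-la'/2 + q lb'/2 + lc' = -A₁'/2 + (q/2) h₂' + C₁' - (q+1) y/X`  and
      `X 𝒲 = X W - Z e₁ (-X h₁'/2 + (q/2) X h₂' + X h₃') - q y Z (e₂ - e₁) + Z X w' (e₃ - e₁)`   (`X bPh = e₂ - e₁`):  the gradient terms cancel.
At the poles:  both sides of `cl_scal_evol` are continuous functions of `y` on `ℝ` (`cl_sm_ric`, `cl_sm_all`; `dT`, `dY` of `Sm` are `Sm`), equal on `(-1,1)`, hence equal at `y = ±1`
  (closure); there `X = 0` and `drF = ∓ Z (e₁ + q e₂)`.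
-/
import Claimed.Agent.R324.Core.CL.Repr
import Claimed.Agent.R324.MaxPrin
import Claimed.Agent.R324.Core.PR.SmU

set_option autoImplicit false

namespace Claimed.Agent.R324.Core

open Set Filter Topology MeasureTheory
open scoped ContDiff

/-- `X b e₂ Φ₁(X b) = e₂ - e₁`. -/
theorem cl_evol_X_bPh (q : ℝ) (hq : q + 1 ≠ 0) (U : Tri) (p : ℝ × ℝ) :
    Xf p.2 * bPh q U p = e2F q U p - e1F q U p := by
  have h1 := ph1_mul (beF U p)
  have h2 : h1F q U p = h2F q U p + beF U p := by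
    unfold h1F h2F beF
    field_simp
    ring
  have h3 : Xf p.2 * U 2 p = beF U p := rfl
  unfold bPh e1F
  rw [h2, neg_add, Real.exp_add]
  unfold e2F
  calc Xf p.2 * (U 2 p * Real.exp (-h2F q U p) * Ph1 (beF U p))
      = Real.exp (-h2F q U p) * (beF U p * Ph1 (beF U p)) := by rw [← h3]; ring
    _ = _ := by rw [h1]; ring

theorem cl_evol_hasDerivAt_log {y : ℝ} (hy : y ∈ Ioo (-1 : ℝ) 1) :
    HasDerivAt (fun z : ℝ => Real.log (1 - z ^ 2)) (-2 * y / (1 - y ^ 2)) y := by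
  have hX : 0 < 1 - y ^ 2 := by nlinarith [hy.1, hy.2]
  have h := (hasDerivAt_Xf y).log (by unfold Xf; exact hX.ne')
  exact h

/-- the evolution equation on the open interval. -/
theorem cl_evol_int (q : ℕ) (hq : 1 ≤ q) (g : Bg) (hg : BgSm g) (U : Tri) (hU : ∀ j, Sm (U j)) (t₀ : ℝ)
    (h : RedGF q t₀ 0 (mA q U) (mB q g U) (mC g U) (mW q g U)) :
    ∀ t ∈ Ioo t₀ 0, ∀ y ∈ Ioo (-1 : ℝ) 1,
      dT (scF q g U) (t, y) = Xf y * g.Z (t, y) * e1F q U (t, y) * dY (dY (scF q g U)) (t, y)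
        + drF q g U (t, y) * dY (scF q g U) (t, y) + ricF q g U (t, y) / 2 := by
  intro t ht y hy
  have hq0 : (0 : ℝ) < q := by exact_mod_cast hq
  have hq1 : (q : ℝ) + 1 ≠ 0 := by positivity
  obtain ⟨smA1, smC1, smh1, smh2, -, -, -, -, smW, -, -⟩ := cl_sm_all q hq0 g hg U hU
  have hrep := cl_repr q hq g hg U hU t₀ h
  have hsub : Ioo t₀ 0 ×ˢ Ioo (-1 : ℝ) 1 ⊆ Iio (0 : ℝ) ×ˢ (univ : Set ℝ) :=
    fun p hp => ⟨hp.1.2, trivial⟩
  have hlogX : ContDiffOn ℝ ∞ (fun p : ℝ × ℝ => Real.log (1 - p.2 ^ 2))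
      (Ioo t₀ 0 ×ˢ Ioo (-1 : ℝ) 1) := by
    refine ContDiffOn.log (by fun_prop) ?_
    rintro ⟨s, z⟩ ⟨_, hz⟩
    have : 0 < 1 - z ^ 2 := by nlinarith [hz.1, hz.2]
    exact this.ne'
  have ha : ContDiffOn ℝ ∞ (fun p : ℝ × ℝ => laOf (mA q U) (mB q g U) p.1 p.2)
      (Ioo t₀ 0 ×ˢ Ioo (-1 : ℝ) 1) :=
    ((ContDiffOn.mono smA1 hsub).sub hlogX).congr
      (fun p hp => (cl_log_metric q hq0 g hg U p.1 p.2 hp.1.2 hp.2).1)
  have hb : ContDiffOn ℝ ∞ (fun p : ℝ × ℝ => lbOf (mA q U) p.1 p.2)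
      (Ioo t₀ 0 ×ˢ Ioo (-1 : ℝ) 1) :=
    ((ContDiffOn.mono smh2 hsub).add hlogX).congr
      (fun p hp => (cl_log_metric q hq0 g hg U p.1 p.2 hp.1.2 hp.2).2.1)
  have hc : ContDiffOn ℝ ∞ (fun p : ℝ × ℝ => lcOf (mC g U) p.1 p.2)
      (Ioo t₀ 0 ×ˢ Ioo (-1 : ℝ) 1) :=
    (ContDiffOn.mono smC1 hsub).congr
      (fun p hp => (cl_log_metric q hq0 g hg U p.1 p.2 hp.1.2 hp.2).2.2)
  have hV : ContDiffOn ℝ ∞ (fun p : ℝ × ℝ => (1 - p.2 ^ 2) * mW q g U p)
      (Ioo t₀ 0 ×ˢ Ioo (-1 : ℝ) 1) :=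
    ContDiffOn.mul (by fun_prop) (ContDiffOn.mono smW hsub)
  have key := scal_evolution (q : ℝ) (Ioo t₀ 0) (Ioo (-1 : ℝ) 1) isOpen_Ioo isOpen_Ioo
    (fun p : ℝ × ℝ => laOf (mA q U) (mB q g U) p.1 p.2) (fun p : ℝ × ℝ => lbOf (mA q U) p.1 p.2)
    (fun p : ℝ × ℝ => lcOf (mC g U) p.1 p.2) (fun p : ℝ × ℝ => (1 - p.2 ^ 2) * mW q g U p)
    ha hb hc hV (fun t ht r hr => h.flowA t ht r hr) (fun t ht r hr => h.flowB t ht r hr)
    (fun t ht r hr => h.flowC t ht r hr) t ht y hy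
  have htn : t < 0 := ht.2
  have hX : 0 < 1 - y ^ 2 := by nlinarith [hy.1, hy.2]
  have hD : 0 < 1 + Xf y * g.B (t, y) := hg.pos t htn y
  -- the representation of the scalar curvature
  have e1 : deriv (fun s => scalRed q (fun z => laOf (mA q U) (mB q g U) s z)
      (fun z => lbOf (mA q U) s z) (fun z => lcOf (mC g U) s z) y) t = dT (scF q g U) (t, y) := by
    show _ = deriv (fun s => scF q g U (s, y)) t
    apply Filter.EventuallyEq.deriv_eq
    filter_upwards [isOpen_Ioo.mem_nhds ht] with s hs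
    exact (hrep s hs y hy).2.2.2
  have ev : (scalRed q (fun z => laOf (mA q U) (mB q g U) t z)
      (fun z => lbOf (mA q U) t z) (fun z => lcOf (mC g U) t z))
      =ᶠ[𝓝 y] (fun z => scF q g U (t, z)) := by
    filter_upwards [isOpen_Ioo.mem_nhds hy] with z hz
    exact (hrep t ht z hz).2.2.2
  have e2 : deriv (scalRed q (fun z => laOf (mA q U) (mB q g U) t z)
      (fun z => lbOf (mA q U) t z) (fun z => lcOf (mC g U) t z)) y = dY (scF q g U) (t, y) :=
    ev.deriv_eq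
  have e3 : iteratedDeriv 2 (scalRed q (fun z => laOf (mA q U) (mB q g U) t z)
      (fun z => lbOf (mA q U) t z) (fun z => lcOf (mC g U) t z)) y
      = dY (dY (scF q g U)) (t, y) := by
    rw [iteratedDeriv_succ, iteratedDeriv_one]
    exact ev.deriv.deriv_eq
  obtain ⟨r1, r2, r3, -⟩ := hrep t ht y hy
  -- the logarithms
  obtain ⟨l1, -, -⟩ := cl_log_metric q hq0 g hg U t y htn hy
  have e5 : Real.exp (-laOf (mA q U) (mB q g U) t y) = Xf y * g.Z (t, y) * e1F q U (t, y) := by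
    rw [l1]
    unfold A1F
    rw [show -(h1F q U (t, y) + Real.log (1 + Xf (t, y).2 * g.B (t, y)) - Real.log (1 - y ^ 2))
      = -h1F q U (t, y) + Real.log (1 - y ^ 2) - Real.log (1 + Xf y * g.B (t, y)) by ring,
      Real.exp_sub, Real.exp_add, Real.exp_log hX, Real.exp_log hD]
    unfold Bg.Z e1F Xf
    simp only []
    field_simp
  have da : deriv (fun z => laOf (mA q U) (mB q g U) t z) y
      = dY (h1F q U) (t, y) + g.ap (t, y) + 2 * y / (1 - y ^ 2) := by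
    have hev : (fun z => laOf (mA q U) (mB q g U) t z)
        =ᶠ[𝓝 y] (fun z => A1F q g U (t, z) - Real.log (1 - z ^ 2)) := by
      filter_upwards [isOpen_Ioo.mem_nhds hy] with z hz
      exact (cl_log_metric q hq0 g hg U t z htn hz).1
    rw [hev.deriv_eq, ((smA1.hasDerivAt_y htn y).fun_sub (cl_evol_hasDerivAt_log hy)).deriv]
    have hA : dY (A1F q g U) (t, y) = dY (h1F q U) (t, y) + g.ap (t, y) := by
      have := dY_add smh1 (hg.smden.log hg.den_ne) htn y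
      have h2 := dY_log hg.smden htn y (hg.den_ne t htn y)
      have h3 := dY_add (sm_const 1) (sm_Xf.mul hg.smB) htn y
      rw [dY_const, zero_add] at h3
      unfold A1F
      rw [this, h2, h3]
      unfold Bg.ap Bg.Z Bg.dd
      simp only []
      ring
    rw [hA]
    ring
  have db : deriv (fun z => lbOf (mA q U) t z) y = dY (h2F q U) (t, y) - 2 * y / (1 - y ^ 2) := by
    have hev : (fun z => lbOf (mA q U) t z)
        =ᶠ[𝓝 y] (fun z => h2F q U (t, z) + Real.log (1 - z ^ 2)) := by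
      filter_upwards [isOpen_Ioo.mem_nhds hy] with z hz
      exact (cl_log_metric q hq0 g hg U t z htn hz).2.1
    rw [hev.deriv_eq, ((smh2.hasDerivAt_y htn y).fun_add (cl_evol_hasDerivAt_log hy)).deriv]
    ring
  have dc : deriv (fun z => lcOf (mC g U) t z) y = g.wp (t, y) + dY (U 1) (t, y) := by
    have hev : (fun z => lcOf (mC g U) t z) =ᶠ[𝓝 y] (fun z => C1F g U (t, z)) := by
      filter_upwards [isOpen_Ioo.mem_nhds hy] with z hz
      exact (cl_log_metric q hq0 g hg U t z htn hz).2.2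
    rw [hev.deriv_eq]
    exact dY_add hg.smw (hU 1) htn y
  have hb' := cl_evol_X_bPh q hq1 U (t, y)
  simp only [] at key hb'
  rw [e1, e2, e3, e5, da, db, dc, r1, r2, r3] at key
  rw [key]
  unfold drF ricF mW
  simp only []
  have hXf : (1 - y ^ 2) = Xf y := rfl
  have hXne : Xf y ≠ 0 := by rw [← hXf]; exact hX.ne'
  rw [hXf]
  obtain ⟨d, hd⟩ : ∃ d, d = 2 * y / Xf y := ⟨_, rfl⟩
  have hd' : Xf y * d = 2 * y := by rw [hd]; field_simp
  rw [← hd]
  linear_combination (-(q : ℝ) * y * g.Z (t, y) * dY (scF q g U) (t, y)) * hb'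
    + (g.Z (t, y) * e1F q U (t, y) * dY (scF q g U) (t, y) * (-1 / 2 - q / 2)) * hd'

theorem cl_scal_evol (q : ℕ) (hq : 1 ≤ q) (g : Bg) (hg : BgSm g) (U : Tri) (hU : ∀ j, Sm (U j)) (t₀ : ℝ)
    (h : RedGF q t₀ 0 (mA q U) (mB q g U) (mC g U) (mW q g U)) :
    ∀ t ∈ Ioo t₀ 0, ∀ y ∈ Icc (-1 : ℝ) 1,
      dT (scF q g U) (t, y) = Xf y * g.Z (t, y) * e1F q U (t, y) * dY (dY (scF q g U)) (t, y)
        + drF q g U (t, y) * dY (scF q g U) (t, y) + ricF q g U (t, y) / 2 := by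
  intro t ht y hy
  have htn : t < 0 := ht.2
  have hq0 : (0 : ℝ) < q := by exact_mod_cast hq
  obtain ⟨-, -, -, -, -, -, -, -, -, -, smdr⟩ := cl_sm_all q hq0 g hg U hU
  obtain ⟨-, -, -, smsc, smric⟩ := cl_sm_ric q hq0 g hg U hU
  have c0 : ∀ {f : Fn}, Sm f → Continuous (fun z => f (t, z)) := fun hf => (hf.sl htn).continuous
  have hL : Continuous (fun z => dT (scF q g U) (t, z)) := c0 smsc.dT
  have hR : Continuous (fun z => Xf z * g.Z (t, z) * e1F q U (t, z) * dY (dY (scF q g U)) (t, z)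
        + drF q g U (t, z) * dY (scF q g U) (t, z) + ricF q g U (t, z) / 2) :=
    ((((c0 sm_Xf).mul (c0 hg.smZ)).mul (c0 (sm_e1F q hU))).mul (c0 smsc.dY.dY)).add
      ((c0 smdr).mul (c0 smsc.dY)) |>.add ((c0 smric).div_const 2)
  have hE : EqOn (fun z => dT (scF q g U) (t, z))
      (fun z => Xf z * g.Z (t, z) * e1F q U (t, z) * dY (dY (scF q g U)) (t, z)
        + drF q g U (t, z) * dY (scF q g U) (t, z) + ricF q g U (t, z) / 2) (Ioo (-1 : ℝ) 1) :=
    fun z hz => cl_evol_int q hq g hg U hU t₀ h t ht z hz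
  have hcl := hE.closure hL hR
  rw [closure_Ioo (by norm_num)] at hcl
  exact hcl hy

end Claimed.Agent.R324.Core
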