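/-
Row 324 (S0582), PDE core, module CL.   Leaf CL.GaugeC (helper828): the bound of the Ricci curvature from the bounds of `om` and `X om'`
(all the work for `cl_ric_bound` of CL/Gauge.lean).
KEY IDENTITY:  with `E = e^{-A₁/2}`, `𝒲 = E om`, `X 𝒲' = E X om' - (X A₁'/2) 𝒲`:      rA = kA + 2 y 𝒲 - 2 E (X om')      (the terms with `X A₁'` cancel).
-/
import Claimed.Agent.R324.Core.CL.Coef
import Claimed.Agent.R324.Core.PR.Sm

set_option autoImplicit false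

namespace Claimed.Agent.R324.Core

open Set Filter Topology MeasureTheory
open scoped ContDiff

theorem cl_gc_ell2_pos (q t : ℝ) (hq : 1 < q) (ht : t < 0) : 0 < ell2 q t := by
  unfold ell2 lam2
  have h1 : 0 < (-t) ^ (2 * gaF q) := Real.rpow_pos_of_pos (by linarith) _
  have h2 : 0 < (q - 1) / 100 := by linarith
  exact mul_pos h2 h1

theorem cl_gc_Xt (y : ℝ) (hy : y ∈ Icc (-1 : ℝ) 1) : 0 ≤ Xt y ∧ Xf y ≤ 4 / 3 * Xt y := by
  have hX : 0 ≤ Xf y := cl_u_nonneg y hy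
  have hX1 : Xf y ≤ 1 := by unfold Xf; nlinarith [sq_nonneg y]
  by_cases h : 1 / 2 ≤ y
  · have hs : Real.smoothTransition (2 * y) = 1 := Real.smoothTransition.one_of_one_le (by linarith)
    have he : Xt y = Xf y := by
      unfold Xt sgY Xf
      rw [hs]; ring
    rw [he]
    exact ⟨hX, by linarith⟩
  · have h := not_le.1 h
    have hs0 : 0 ≤ Real.smoothTransition (2 * y) := Real.smoothTransition.nonneg _
    have hs1 : Real.smoothTransition (2 * y) ≤ 1 := Real.smoothTransition.le_one _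
    have hsg : 0 ≤ sgY y ∧ sgY y ≤ 1 / 2 := by
      rcases le_or_gt y 0 with h0 | h0
      · have hz : Real.smoothTransition (2 * y) = 0 :=
          Real.smoothTransition.zero_of_nonpos (by linarith)
        unfold sgY
        rw [hz]
        constructor <;> norm_num
      · unfold sgY
        constructor <;> nlinarith
    have h34 : 3 / 4 ≤ Xt y := by
      unfold Xt
      nlinarith [hsg.1, hsg.2]
    exact ⟨by linarith, by linarith⟩

theorem cl_gc_Xt_eq (y : ℝ) (h : 1 / 2 ≤ y) : Xt y = Xf y := by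
  have hs : Real.smoothTransition (2 * y) = 1 := Real.smoothTransition.one_of_one_le (by linarith)
  unfold Xt sgY Xf
  rw [hs]; ring

/-- lower bound of `1 + X B`. -/
theorem cl_gc_low {C r B x : ℝ} (hr : 0 < r) (hB : |B| ≤ C * (1 / r) / r ^ 0) (hl : 1 / C ≤ 1 + x * B) :
    (max C 1)⁻¹ ≤ 1 + x * B := by
  have hm : (1 : ℝ) ≤ max C 1 := le_max_right _ _
  rcases le_or_gt C 0 with hC | hC
  · have h1 : C * (1 / r) / r ^ 0 ≤ 0 := by
      rw [pow_zero, div_one]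
      exact mul_nonpos_of_nonpos_of_nonneg hC (by positivity)
    have h2 : B = 0 := abs_eq_zero.1 (le_antisymm (hB.trans h1) (abs_nonneg _))
    rw [h2, mul_zero, add_zero]
    exact inv_le_one_of_one_le₀ hm
  · refine le_trans ?_ hl
    rw [← one_div]
    exact one_div_le_one_div_of_le hC (le_max_left _ _)

theorem cl_gc_exp_half (a : ℝ) : Real.exp (a / 2) ≤ 1 + Real.exp a := by
  rcases le_or_gt a 0 with h | h
  · have : Real.exp (a / 2) ≤ 1 := Real.exp_le_one_iff.2 (by linarith)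
    linarith [Real.exp_pos a]
  · have : Real.exp (a / 2) ≤ Real.exp a := Real.exp_le_exp.2 (by linarith)
    linarith

theorem cl_gc_tri {a b c A B C v : ℝ} (ha : |a| ≤ A * v) (hb : |b| ≤ B * v) (hc : |c| ≤ C) (hB : 0 ≤ B)
    (hv : 0 ≤ v) : |a - b * c| ≤ (A + B * C) * v := by
  have h1 : |b * c| ≤ (B * v) * C := by
    rw [abs_mul]
    exact mul_le_mul hb hc (abs_nonneg _) (mul_nonneg hB hv)
  have h2 := abs_sub a (b * c)
  nlinarith

theorem cl_gc_sq {r K v : ℝ} (h : |r| ≤ K * v) : r ^ 2 ≤ K ^ 2 * v ^ 2 := by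
  rw [← sq_abs r, ← mul_pow]
  exact pow_le_pow_left₀ (abs_nonneg _) h 2

/-- the three Ricci eigenvalues through `om`, `X om'`. -/
theorem cl_gc_ident (q : ℝ) (hq : 0 < q) (g : Bg) (hg : BgSm g) (U : Tri) (hU : ∀ j, Sm (U j)) (t y : ℝ)
    (ht : t < 0) :
    rAF q g U (t, y) = kAF q g U (t, y)
        - (Real.exp (-A1F q g U (t, y) / 2) * omF q g U (t, y)) * (-(2 * y))
        - (Real.exp (-A1F q g U (t, y) / 2) * ((1 - y ^ 2) * dY (omF q g U) (t, y))) * 2 ∧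
    rBF q g U (t, y) = kBF q U (t, y)
        - (Real.exp (-A1F q g U (t, y) / 2) * omF q g U (t, y)) * ((1 - y ^ 2) * dY (h2F q U) (t, y) - 2 * y) ∧
    rCF q g U (t, y) = kCF g U (t, y)
        - (Real.exp (-A1F q g U (t, y) / 2) * omF q g U (t, y)) * ((1 - y ^ 2) * dY (C1F g U) (t, y)) := by
  obtain ⟨sA, -, -, -, -, -, -, -, sW, -, -⟩ := cl_sm_all q hq g hg U hU
  have cA : ContDiff ℝ ∞ (sl (A1F q g U) t) := cl_sl_contDiff _ sA t ht
  have cW : ContDiff ℝ ∞ (sl (mW q g U) t) := cl_sl_contDiff _ sW t ht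
  have hE : Real.exp (-A1F q g U (t, y) / 2) * Real.exp (A1F q g U (t, y) / 2) = 1 := by
    rw [← Real.exp_add]
    have : -A1F q g U (t, y) / 2 + A1F q g U (t, y) / 2 = 0 := by ring
    rw [this, Real.exp_zero]
  have hom : omF q g U (t, y) = Real.exp (A1F q g U (t, y) / 2) * mW q g U (t, y) := rfl
  have hW : Real.exp (-A1F q g U (t, y) / 2) * omF q g U (t, y) = mW q g U (t, y) := by
    rw [hom, ← mul_assoc, hE, one_mul]
  have hdom : dY (omF q g U) (t, y) = Real.exp (A1F q g U (t, y) / 2) * (deriv (sl (A1F q g U) t) y / 2)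
      * mW q g U (t, y) + Real.exp (A1F q g U (t, y) / 2) * deriv (sl (mW q g U) t) y := by
    have := congrFun (cl_deriv_om cA cW) y
    exact this
  have hXW : deriv (fun z => (1 - z ^ 2) * sl (mW q g U) t z) y
      = -(2 * y) * mW q g U (t, y) + (1 - y ^ 2) * deriv (sl (mW q g U) t) y :=
    congrFun (cl_deriv_XW cW) y
  refine ⟨?_, ?_, ?_⟩
  · rw [hW, hdom]
    show clRA (sl (A1F q g U) t) (sl (mW q g U) t) (sl (kAF q g U) t) y = _
    unfold clRA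
    rw [hXW]
    show kAF q g U (t, y) - mW q g U (t, y) * ((1 - y ^ 2) * deriv (sl (A1F q g U) t) y + 2 * y)
      - 2 * (-(2 * y) * mW q g U (t, y) + (1 - y ^ 2) * deriv (sl (mW q g U) t) y) = _
    linear_combination (2 * ((1 - y ^ 2) * ((deriv (sl (A1F q g U) t) y / 2) * mW q g U (t, y)
      + deriv (sl (mW q g U) t) y))) * hE
  · rw [hW]
    rfl
  · rw [hW]
    show clRC (sl (C1F g U) t) (sl (mW q g U) t) (sl (kCF g U) t) y = _
    unfold clRC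
    show kCF g U (t, y) - (1 - y ^ 2) * mW q g U (t, y) * dY (C1F g U) (t, y) = _
    ring

/-- the time derivatives. -/
theorem cl_gc_k (q : ℝ) (g : Bg) (hg : BgSm g) (U : Tri) (hU : ∀ j, Sm (U j)) (t y : ℝ) (ht : t < 0) :
    kAF q g U (t, y) = dT (U 0) (t, y) + q / (q + 1) * (Xf y * dT (U 2) (t, y))
        + Xf y * dT g.B (t, y) / (1 + Xf y * g.B (t, y)) ∧
    kBF q U (t, y) = dT (U 0) (t, y) - 1 / (q + 1) * (Xf y * dT (U 2) (t, y)) ∧
    kCF g U (t, y) = dT g.w (t, y) + dT (U 1) (t, y) := by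
  have h0 := (hU 0).hasDerivAt_t ht y
  have h1 := (hU 1).hasDerivAt_t ht y
  have h2 := (hU 2).hasDerivAt_t ht y
  have hB := hg.smB.hasDerivAt_t ht y
  have hw := hg.smw.hasDerivAt_t ht y
  have hpos := hg.pos t ht y
  refine ⟨?_, ?_, ?_⟩
  · have hl : HasDerivAt (fun s => Real.log (1 + Xf y * g.B (s, y)))
        (Xf y * dT g.B (t, y) / (1 + Xf y * g.B (t, y))) t :=
      ((hB.const_mul (Xf y)).const_add 1).log hpos.ne'
    exact ((h0.add ((h2.const_mul (Xf y)).const_mul (q / (q + 1)))).add hl).deriv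
  · exact (h0.sub ((h2.const_mul (Xf y)).const_mul (1 / (q + 1)))).deriv
  · exact (hw.add h1).deriv

/-- the `y`-derivatives. -/
theorem cl_gc_y (q : ℝ) (g : Bg) (hg : BgSm g) (U : Tri) (hU : ∀ j, Sm (U j)) (t y : ℝ) (ht : t < 0) :
    (1 - y ^ 2) * dY (h2F q U) (t, y) = -tt (sl (U 0) t) y + 1 / (q + 1) * tt (fun z => Xf z * U 2 (t, z)) y ∧
    (1 - y ^ 2) * dY (C1F g U) (t, y) = Xf y * dY g.w (t, y) - tt (sl (U 1) t) y := by
  have h0 := (hU 0).hasDerivAt_y ht y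
  have h1 := (hU 1).hasDerivAt_y ht y
  have h2 := (hU 2).hasDerivAt_y ht y
  have hw := hg.smw.hasDerivAt_y ht y
  have hβ : HasDerivAt (fun z => Xf z * U 2 (t, z)) (deriv (fun z => Xf z * U 2 (t, z)) y) y :=
    ((hasDerivAt_Xf y).mul h2).differentiableAt.hasDerivAt
  constructor
  · have e : dY (h2F q U) (t, y) = dY (U 0) (t, y) - 1 / (q + 1) * deriv (fun z => Xf z * U 2 (t, z)) y :=
      (h0.sub (hβ.const_mul (1 / (q + 1)))).deriv
    rw [e]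
    unfold tt
    show _ = -(-(1 - y ^ 2) * dY (U 0) (t, y)) + _
    ring
  · have e : dY (C1F g U) (t, y) = dY g.w (t, y) + dY (U 1) (t, y) := (hw.add h1).deriv
    rw [e]
    unfold tt Xf
    show _ = _ - -(1 - y ^ 2) * dY (U 1) (t, y)
    ring

/-- the time derivatives of the background are `O(ϖ₀)`. -/
theorem cl_gc_bgT (q : ℕ) (hq6 : 10 ^ 6 ≤ q) (g : Bg) (hg : BgGood q g) :
    ∃ Λ K : ℝ, 0 < Λ ∧ 0 ≤ K ∧ ∀ t ∈ Ico (-Λ) 0, ∀ y ∈ Icc (-1 : ℝ) 1,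
      |dT g.w (t, y)| ≤ K * clV0 (ell2 q t) y ∧ |Xf y * dT g.B (t, y)| ≤ K * clV0 (ell2 q t) y := by
  obtain ⟨ΛJ, CJ, hΛJ, hw, hB, -⟩ := hg.symJ
  obtain ⟨C4, Λ4, hΛ4, h4⟩ := cl_JJ_le q hq6
  have hq1 : (1 : ℝ) < q := by
    have : (10 ^ 6 : ℝ) ≤ q := by exact_mod_cast hq6
    linarith
  refine ⟨min ΛJ Λ4, 4 / 3 * (|CJ| * |C4|), lt_min hΛJ hΛ4, by positivity, ?_⟩
  intro t ht y hy
  have ht0 : t < 0 := ht.2
  have htJ : t ∈ Ico (-ΛJ) 0 := ⟨by linarith [ht.1, min_le_left ΛJ Λ4], ht0⟩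
  have ht4 : t ∈ Ico (-Λ4) 0 := ⟨by linarith [ht.1, min_le_right ΛJ Λ4], ht0⟩
  have hL : 0 < ell2 q t := cl_gc_ell2_pos q t hq1 ht0
  have hv : 0 < clV0 (ell2 q t) y := cl_v0_pos _ hL y hy
  have hK : 0 ≤ 4 / 3 * (|CJ| * |C4|) * clV0 (ell2 q t) y := by positivity
  rcases lt_or_ge y (1 / 2) with hy2 | hy2
  · have e1 : dT g.w (t, y) = 0 := by
      rw [dT_congr (f := g.w) (g := fun _ => 0) (fun s hs => (hg.out s hs y (by linarith)).2.1) ht0]
      exact dT_const 0 _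
    have e2 : dT g.B (t, y) = 0 := by
      rw [dT_congr (f := g.B) (g := fun _ => 0) (fun s hs => (hg.out s hs y (by linarith)).1) ht0]
      exact dT_const 0 _
    rw [e1, e2, mul_zero, abs_zero]
    exact ⟨hK, hK⟩
  · obtain ⟨hXt0, hXt⟩ := cl_gc_Xt y hy
    have hX0 : 0 ≤ Xf y := cl_u_nonneg y hy
    have hr : 0 < rh2 q t y := by unfold rh2; linarith
    have hT : 0 < Th t y := by unfold Th; linarith
    have hJ : 0 ≤ JJ q t y := by
      unfold JJ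
      exact mul_nonneg (pow_nonneg hT.le _) (Real.rpow_nonneg hr.le _)
    have hJT : 0 ≤ JJ q t y / Th t y := div_nonneg hJ hT.le
    have h5 : JJ q t y / Th t y ≤ |C4| * clV0 (ell2 q t) y :=
      (h4 t ht4 y ⟨hy2, hy.2⟩).trans (mul_le_mul_of_nonneg_right (le_abs_self _) hv.le)
    have hw0 := hw t htJ y hy 0 (Nat.zero_le _)
    have hB0 := hB t htJ y hy 0 (Nat.zero_le _)
    simp only [iteratedDeriv_zero, pow_zero, div_one] at hw0 hB0
    have hw1 : |dT g.w (t, y)| ≤ CJ * (JJ q t y / Th t y) := hw0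
    have hB1 : |dT g.B (t, y)| ≤ CJ * (JJ q t y / (rh2 q t y * Th t y)) := hB0
    have h6 : |CJ| * (JJ q t y / Th t y) ≤ |CJ| * |C4| * clV0 (ell2 q t) y := by
      rw [mul_assoc]
      exact mul_le_mul_of_nonneg_left h5 (abs_nonneg _)
    have h60 : 0 ≤ |CJ| * |C4| * clV0 (ell2 q t) y := by positivity
    constructor
    · have h7 : CJ * (JJ q t y / Th t y) ≤ |CJ| * (JJ q t y / Th t y) :=
        mul_le_mul_of_nonneg_right (le_abs_self _) hJT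
      linarith
    · rw [abs_mul, abs_of_nonneg hX0]
      have h7 : CJ * (JJ q t y / (rh2 q t y * Th t y)) ≤ |CJ| * (JJ q t y / (rh2 q t y * Th t y)) :=
        mul_le_mul_of_nonneg_right (le_abs_self _) (div_nonneg hJ (mul_pos hr hT).le)
      have h8 : Xf y / rh2 q t y ≤ 4 / 3 := by
        rw [div_le_iff₀ hr]
        unfold rh2
        linarith
      have h9 : Xf y * (|CJ| * (JJ q t y / (rh2 q t y * Th t y)))
          = (Xf y / rh2 q t y) * (|CJ| * (JJ q t y / Th t y)) := by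
        field_simp
      calc Xf y * |dT g.B (t, y)| ≤ Xf y * (|CJ| * (JJ q t y / (rh2 q t y * Th t y))) :=
            mul_le_mul_of_nonneg_left (hB1.trans h7) hX0
        _ = (Xf y / rh2 q t y) * (|CJ| * (JJ q t y / Th t y)) := h9
        _ ≤ 4 / 3 * (|CJ| * (JJ q t y / Th t y)) :=
            mul_le_mul_of_nonneg_right h8 (mul_nonneg (abs_nonneg _) hJT)
        _ ≤ 4 / 3 * (|CJ| * |C4|) * clV0 (ell2 q t) y := by linarith

/-- static bounds of the background. -/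
theorem cl_gc_bgS (q : ℕ) (hq6 : 10 ^ 6 ≤ q) (g : Bg) (hg : BgGood q g) :
    ∃ Λ K : ℝ, 0 < Λ ∧ 1 ≤ K ∧ ∀ t ∈ Ico (-Λ) 0, ∀ y ∈ Icc (-1 : ℝ) 1,
      K⁻¹ ≤ 1 + Xf y * g.B (t, y) ∧ |Xf y * dY g.w (t, y)| ≤ K := by
  obtain ⟨Λ₀, C, hΛ₀, hB, hw, -, -, hlow⟩ := hg.sym
  have hq1 : (1 : ℝ) < q := by
    have : (10 ^ 6 : ℝ) ≤ q := by exact_mod_cast hq6
    linarith
  have hm : (1 : ℝ) ≤ max C 1 := le_max_right _ _
  refine ⟨Λ₀, 4 / 3 * max C 1, hΛ₀, by linarith, ?_⟩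
  intro t ht y hy
  have ht0 : t < 0 := ht.2
  have hL : 0 < ell2 q t := cl_gc_ell2_pos q t hq1 ht0
  obtain ⟨hXt0, hXt⟩ := cl_gc_Xt y hy
  have hX0 : 0 ≤ Xf y := cl_u_nonneg y hy
  have hr : 0 < rh2 q t y := by unfold rh2; linarith
  have hB0 := hB t ht y hy 0 (Nat.zero_le _)
  have hw0 := hw t ht y hy 0 (Nat.zero_le _)
  rw [iteratedDeriv_zero] at hB0 hw0
  constructor
  · refine le_trans ?_ (cl_gc_low hr hB0 (hlow t ht y hy))
    exact inv_anti₀ (by linarith) (by linarith)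
  · have hw1 : |dY g.w (t, y)| ≤ C * (1 / rh2 q t y) := by
      rw [pow_zero, div_one] at hw0
      exact hw0
    have h1 : C * (1 / rh2 q t y) ≤ max C 1 * (1 / rh2 q t y) :=
      mul_le_mul_of_nonneg_right (le_max_left _ _) (by positivity)
    have h8 : Xf y / rh2 q t y ≤ 4 / 3 := by
      rw [div_le_iff₀ hr]
      unfold rh2
      linarith
    rw [abs_mul, abs_of_nonneg hX0]
    calc Xf y * |dY g.w (t, y)| ≤ Xf y * (max C 1 * (1 / rh2 q t y)) :=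
          mul_le_mul_of_nonneg_left (hw1.trans h1) hX0
      _ = (Xf y / rh2 q t y) * max C 1 := by field_simp
      _ ≤ 4 / 3 * max C 1 := mul_le_mul_of_nonneg_right h8 (by linarith)

/-- **the Ricci curvature is `O(ϱ^{-1/2})`**, given the bounds of `om` and of `X om'`. -/
theorem cl_gc_main (q : ℕ) (hq6 : 10 ^ 6 ≤ q) (g : Bg) (hg : BgGood q g) (U : Tri)
    (hU : ∀ j, Sm (U j)) (t₁ ε N : ℝ) (hε0 : 0 ≤ ε) (hε : ε ≤ 1 / 1000) (hN : 0 ≤ N)
    (hpt : CLPt q U t₁ ε N) (Λa Ca Λb Cb : ℝ) (hΛa : 0 < Λa) (hCa : 0 ≤ Ca) (hΛb : 0 < Λb) (hCb : 0 ≤ Cb)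
    (hom : ∀ t ∈ Ico (max t₁ (-Λa)) 0, ∀ y ∈ Icc (-1 : ℝ) 1, |omF q g U (t, y)| ≤ Ca * clV0 (ell2 q t) y)
    (hP : ∀ t ∈ Ico (max t₁ (-Λb)) 0, ∀ y ∈ Icc (-1 : ℝ) 1,
      |(1 - y ^ 2) * dY (omF q g U) (t, y)| ≤ Cb * clV0 (ell2 q t) y) :
    ∃ Λ₃ C : ℝ, 0 < Λ₃ ∧ 0 ≤ C ∧ ∀ t ∈ Ico (max t₁ (-Λ₃)) 0, ∀ y ∈ Icc (-1 : ℝ) 1,
      ricF q g U (t, y) ≤ C * (clV0 (ell2 q t) y) ^ 2 := by
  obtain ⟨ΛT, KT, hΛT, hKT, hT⟩ := cl_gc_bgT q hq6 g hg
  obtain ⟨ΛS, K, hΛS, hK, hS⟩ := cl_gc_bgS q hq6 g hg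
  have hq1 : (1 : ℝ) < q := by
    have : (10 ^ 6 : ℝ) ≤ q := by exact_mod_cast hq6
    linarith
  have hq0 : (0 : ℝ) < q := by linarith
  have hK0 : 0 < K := by linarith
  set E₀ : ℝ := 1 + 3 * K with hE₀
  have hE₀0 : 0 ≤ E₀ := by rw [hE₀]; linarith
  set KA : ℝ := (2 * N + K * KT + E₀ * Ca * 2) + E₀ * Cb * 2 with hKA
  set KB : ℝ := 2 * N + E₀ * Ca * 3 with hKB
  set KC : ℝ := (KT + N) + E₀ * Ca * (K + 1) with hKC
  refine ⟨min (min Λa Λb) (min ΛT ΛS), KA ^ 2 + q * KB ^ 2 + 2 * KC ^ 2,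
    lt_min (lt_min hΛa hΛb) (lt_min hΛT hΛS), by positivity, ?_⟩
  intro t ht y hy
  have ht0 : t < 0 := ht.2
  have hl1 : t₁ ≤ t := (le_max_left _ _).trans ht.1
  have hl2 : -(min (min Λa Λb) (min ΛT ΛS)) ≤ t := (le_max_right _ _).trans ht.1
  have m1 : min (min Λa Λb) (min ΛT ΛS) ≤ Λa := (min_le_left _ _).trans (min_le_left _ _)
  have m2 : min (min Λa Λb) (min ΛT ΛS) ≤ Λb := (min_le_left _ _).trans (min_le_right _ _)
  have m3 : min (min Λa Λb) (min ΛT ΛS) ≤ ΛT := (min_le_right _ _).trans (min_le_left _ _)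
  have m4 : min (min Λa Λb) (min ΛT ΛS) ≤ ΛS := (min_le_right _ _).trans (min_le_right _ _)
  have hta : t ∈ Ico (max t₁ (-Λa)) 0 := ⟨max_le hl1 (by linarith), ht0⟩
  have htb : t ∈ Ico (max t₁ (-Λb)) 0 := ⟨max_le hl1 (by linarith), ht0⟩
  have htT : t ∈ Ico (-ΛT) 0 := ⟨by linarith, ht0⟩
  have htS : t ∈ Ico (-ΛS) 0 := ⟨by linarith, ht0⟩
  have ht1 : t ∈ Ico t₁ 0 := ⟨hl1, ht0⟩
  have hL : 0 < ell2 q t := cl_gc_ell2_pos q t hq1 ht0
  have hv : 0 < clV0 (ell2 q t) y := cl_v0_pos _ hL y hy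
  obtain ⟨hσ0, hσ1, -⟩ := cl_sg_mem _ hL y hy
  set v : ℝ := clV0 (ell2 q t) y with hvdef
  set σ : ℝ := clSg (ell2 q t) y with hσdef
  obtain ⟨hTw, hTB⟩ := hT t htT y hy
  obtain ⟨hSZ, hSw⟩ := hS t htS y hy
  obtain ⟨hu00, hu01⟩ := hpt.u0 t ht1 y hy
  obtain ⟨hu1β, hu10, hu11, hu12⟩ := hpt.u1 t ht1 y hy
  obtain ⟨hk00, hk01⟩ := hpt.k0 t ht1 y hy
  obtain ⟨hk1β, -, -, -⟩ := hpt.k1 t ht1 y hy
  obtain ⟨iA, iB, iC⟩ := cl_gc_ident q hq0 g hg.sm U hU t y ht0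
  obtain ⟨fA, fB, fC⟩ := cl_gc_k q g hg.sm U hU t y ht0
  obtain ⟨yB, yC⟩ := cl_gc_y q g hg.sm U hU t y ht0
  have hεσ : ε * σ ≤ ε := by
    calc ε * σ ≤ ε * 1 := mul_le_mul_of_nonneg_left hσ1.le hε0
      _ = ε := mul_one _
  have hNσ : N * v * σ ≤ N * v := by
    calc N * v * σ ≤ N * v * 1 := mul_le_mul_of_nonneg_left hσ1.le (mul_nonneg hN hv.le)
      _ = N * v := mul_one _
  have hc1 : 0 ≤ (q : ℝ) / (q + 1) ∧ (q : ℝ) / (q + 1) ≤ 1 := by
    constructor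
    · positivity
    · rw [div_le_one (by linarith)]; linarith
  have hc2 : 0 ≤ 1 / ((q : ℝ) + 1) ∧ 1 / ((q : ℝ) + 1) ≤ 1 := by
    constructor
    · positivity
    · rw [div_le_one (by linarith)]; linarith
  have hZpos : 0 < 1 + Xf y * g.B (t, y) := lt_of_lt_of_le (inv_pos.2 hK0) hSZ
  have hZinv : (1 + Xf y * g.B (t, y))⁻¹ ≤ K := by
    have := inv_anti₀ (inv_pos.2 hK0) hSZ
    rwa [inv_inv] at this
  -- `E ≤ E₀`
  have hh1 : |h1F q U (t, y)| ≤ 1 := by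
    unfold h1F
    have h1 : |(q : ℝ) / (q + 1) * (Xf y * U 2 (t, y))| ≤ ε := by
      rw [abs_mul, abs_of_nonneg hc1.1]
      calc (q : ℝ) / (q + 1) * |Xf y * U 2 (t, y)| ≤ 1 * |Xf y * U 2 (t, y)| :=
            mul_le_mul_of_nonneg_right hc1.2 (abs_nonneg _)
        _ ≤ ε := by rw [one_mul]; exact hu1β.trans hεσ
    have h2 := abs_add_le (U 0 (t, y)) ((q : ℝ) / (q + 1) * (Xf y * U 2 (t, y)))
    show |U 0 (t, y) + (q : ℝ) / (q + 1) * (Xf y * U 2 (t, y))| ≤ 1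
    linarith
  have hE : Real.exp (-A1F q g U (t, y) / 2) ≤ E₀ := by
    refine (cl_gc_exp_half _).trans ?_
    have e1 : Real.exp (-A1F q g U (t, y))
        = Real.exp (-h1F q U (t, y)) * (1 + Xf y * g.B (t, y))⁻¹ := by
      have : -A1F q g U (t, y) = -h1F q U (t, y) + -Real.log (1 + Xf y * g.B (t, y)) := by
        show -(h1F q U (t, y) + Real.log (1 + Xf y * g.B (t, y))) = _
        ring
      rw [this, Real.exp_add, Real.exp_neg (Real.log _), Real.exp_log hZpos]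
    have e2 : Real.exp (-h1F q U (t, y)) ≤ 3 := by
      have h1 : Real.exp (-h1F q U (t, y)) ≤ Real.exp 1 :=
        Real.exp_le_exp.2 (by linarith [(abs_le.1 hh1).1])
      have h2 := Real.exp_one_lt_d9
      linarith
    rw [e1, hE₀]
    have := mul_le_mul e2 hZinv (inv_nonneg.2 hZpos.le) (by norm_num : (0:ℝ) ≤ 3)
    linarith
  have hEpos : 0 < Real.exp (-A1F q g U (t, y) / 2) := Real.exp_pos _
  have hW : |Real.exp (-A1F q g U (t, y) / 2) * omF q g U (t, y)| ≤ E₀ * Ca * v := by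
    rw [abs_mul, abs_of_pos hEpos, mul_assoc]
    exact mul_le_mul hE (hom t hta y hy) (abs_nonneg _) hE₀0
  have hPb : |Real.exp (-A1F q g U (t, y) / 2) * ((1 - y ^ 2) * dY (omF q g U) (t, y))| ≤ E₀ * Cb * v := by
    rw [abs_mul, abs_of_pos hEpos, mul_assoc]
    exact mul_le_mul hE (hP t htb y hy) (abs_nonneg _) hE₀0
  -- the time derivatives
  have hβt : |Xf y * dT (U 2) (t, y)| ≤ N * v := hk1β.trans hNσ
  have hkA : |kAF q g U (t, y)| ≤ (2 * N + K * KT) * v := by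
    rw [fA]
    have h1 : |(q : ℝ) / (q + 1) * (Xf y * dT (U 2) (t, y))| ≤ N * v := by
      rw [abs_mul, abs_of_nonneg hc1.1]
      calc (q : ℝ) / (q + 1) * |Xf y * dT (U 2) (t, y)| ≤ 1 * |Xf y * dT (U 2) (t, y)| :=
            mul_le_mul_of_nonneg_right hc1.2 (abs_nonneg _)
        _ ≤ N * v := by rw [one_mul]; exact hβt
    have h2 : |Xf y * dT g.B (t, y) / (1 + Xf y * g.B (t, y))| ≤ K * KT * v := by
      rw [div_eq_mul_inv, abs_mul, abs_of_pos (inv_pos.2 hZpos), mul_comm, mul_assoc]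
      exact mul_le_mul hZinv hTB (abs_nonneg _) hK0.le
    have h3 := abs_add_le (dT (U 0) (t, y) + (q : ℝ) / (q + 1) * (Xf y * dT (U 2) (t, y)))
      (Xf y * dT g.B (t, y) / (1 + Xf y * g.B (t, y)))
    have h4 := abs_add_le (dT (U 0) (t, y)) ((q : ℝ) / (q + 1) * (Xf y * dT (U 2) (t, y)))
    linarith
  have hkB : |kBF q U (t, y)| ≤ (2 * N) * v := by
    rw [fB]
    have h1 : |1 / ((q : ℝ) + 1) * (Xf y * dT (U 2) (t, y))| ≤ N * v := by
      rw [abs_mul, abs_of_nonneg hc2.1]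
      calc 1 / ((q : ℝ) + 1) * |Xf y * dT (U 2) (t, y)| ≤ 1 * |Xf y * dT (U 2) (t, y)| :=
            mul_le_mul_of_nonneg_right hc2.2 (abs_nonneg _)
        _ ≤ N * v := by rw [one_mul]; exact hβt
    have h4 := abs_sub (dT (U 0) (t, y)) (1 / ((q : ℝ) + 1) * (Xf y * dT (U 2) (t, y)))
    linarith
  have hkC : |kCF g U (t, y)| ≤ (KT + N) * v := by
    rw [fC]
    have h4 := abs_add_le (dT g.w (t, y)) (dT (U 1) (t, y))
    linarith
  -- the `y`-derivatives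
  have hy2 : |y| ≤ 1 := abs_le.2 hy
  have hcB : |(1 - y ^ 2) * dY (h2F q U) (t, y) - 2 * y| ≤ 3 := by
    rw [yB]
    have h1 : |1 / ((q : ℝ) + 1) * tt (fun z => Xf z * U 2 (t, z)) y| ≤ ε := by
      rw [abs_mul, abs_of_nonneg hc2.1]
      calc 1 / ((q : ℝ) + 1) * |tt (fun z => Xf z * U 2 (t, z)) y|
          ≤ 1 * |tt (fun z => Xf z * U 2 (t, z)) y| :=
            mul_le_mul_of_nonneg_right hc2.2 (abs_nonneg _)
        _ ≤ ε := by rw [one_mul]; exact hu12.trans hεσ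
    have h2 := abs_sub (-tt (sl (U 0) t) y + 1 / ((q : ℝ) + 1) * tt (fun z => Xf z * U 2 (t, z)) y) (2 * y)
    have h3 := abs_add_le (-tt (sl (U 0) t) y) (1 / ((q : ℝ) + 1) * tt (fun z => Xf z * U 2 (t, z)) y)
    rw [abs_neg] at h3
    have h4 : |2 * y| ≤ 2 := by rw [abs_mul, abs_two]; linarith
    linarith
  have hcC : |(1 - y ^ 2) * dY (C1F g U) (t, y)| ≤ K + 1 := by
    rw [yC]
    have h2 := abs_sub (Xf y * dY g.w (t, y)) (tt (sl (U 1) t) y)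
    linarith
  have hcA : |-(2 * y)| ≤ 2 := by rw [abs_neg, abs_mul, abs_two]; linarith
  have hBC : 0 ≤ E₀ * Ca := mul_nonneg hE₀0 hCa
  have hBC' : 0 ≤ E₀ * Cb := mul_nonneg hE₀0 hCb
  have rA : |rAF q g U (t, y)| ≤ KA * v := by
    rw [iA, hKA]
    exact cl_gc_tri (cl_gc_tri hkA hW hcA hBC hv.le) hPb (by rw [abs_two]) hBC' hv.le
  have rB : |rBF q g U (t, y)| ≤ KB * v := by
    rw [iB, hKB]
    exact cl_gc_tri hkB hW hcB hBC hv.le
  have rC : |rCF q g U (t, y)| ≤ KC * v := by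
    rw [iC, hKC]
    exact cl_gc_tri hkC hW hcC hBC hv.le
  have sA := cl_gc_sq rA
  have sB := cl_gc_sq rB
  have sC := cl_gc_sq rC
  show (rAF q g U (t, y)) ^ 2 + q * (rBF q g U (t, y)) ^ 2 + 2 * (rCF q g U (t, y)) ^ 2 ≤ _
  have sB' : (q : ℝ) * (rBF q g U (t, y)) ^ 2 ≤ q * (KB ^ 2 * v ^ 2) := mul_le_mul_of_nonneg_left sB hq0.le
  have e : (KA ^ 2 + q * KB ^ 2 + 2 * KC ^ 2) * v ^ 2
      = KA ^ 2 * v ^ 2 + q * (KB ^ 2 * v ^ 2) + 2 * (KC ^ 2 * v ^ 2) := by ring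
  rw [e]
  linarith

end Claimed.Agent.R324.Core
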