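/-
Row 324 (S0582), PDE core, module CL (a posteriori bounds, barrier for R).   Architect: helper325.
Blueprint: origin/helper325:docs/R324_CL.md, section C2.

Leaf CL.Ode: two elementary comparison lemmas for linear ODEs on `[y₀,1]` which degenerate at the pole `y = 1`.

`cl_ode2`.  PROOF.  It is enough to show `om ≤ Ps` (apply the result to `-om`, `-f`).  `om/Ps` is continuous on the compact `[y₀,1]`; let `ρ` be its
maximum, attained at `y*`; assume `ρ > 1`.  Put `φ = om - ρ Ps ≤ 0` on `[y₀,1]`, `φ(y*) = 0`.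
 * `y* = y₀` is impossible by `hbd`.
 * `y* = 1` is impossible: `om` is `C¹`, hence Lipschitz on `[y₀,1]` with a constant `L`;  `hpole` with `K = L/ρ` gives `y<1` with
   `ρ Ps y < ρ Ps 1 - L (1-y) = om 1 - L (1-y) ≤ om y`, i.e. `φ(y) > 0`.
 * `y*` interior: local maximum of `φ`, so `φ' = 0`, `φ'' ≤ 0` (`mp_iteratedDeriv_two_nonpos` of R324/MP/WeakMax.lean has the second order test), hence
   `0 ≥ X φ'' - D φ' - c φ = f - ρ (X Ps'' - D Ps' - c Ps) > f + ρ |f| ≥ 0`   (if `f = 0` the strict inequality `hsup` still gives `> 0`).  Contradiction.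

`cl_ode1`.  PROOF.  Same scheme for `P/Ps`:  the maximum `ρ > 1` is not attained at `1` (`P 1 = 0 < Ps 1`);  at `y* ∈ [y₀,1)` one has `φ'(y*) ≤ 0`
(`= 0` in the interior, `≤ 0` at the left end point, `mp_deriv_nonpos_of_max_right`), so `X φ' - D φ ≤ 0` at `y*` (`X ≥ 0`, `φ(y*) = 0`), but it equals
`f - ρ (X Ps' - D Ps) > f + ρ |f| ≥ 0`.   NO boundary condition at `y₀` is needed.
-/
import Claimed.Agent.R324.MP.WeakMax

set_option autoImplicit false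

namespace Claimed.Agent.R324.Core

open Set Filter Topology
open scoped ContDiff

/-- the final contradiction of both comparison lemmas. -/
theorem cl_ode_absurd {ρ S f : ℝ} (hρ : 1 < ρ) (hS : S < -|f|) (hf : f ≤ ρ * S) : False := by
  have a4 : ρ * S < ρ * (-|f|) := mul_lt_mul_of_pos_left hS (by linarith)
  have a5 : |f| ≤ ρ * |f| := by nlinarith [abs_nonneg f]
  have a6 := neg_abs_le f
  linarith

/-- one-sided version of `cl_ode2`, with explicit derivatives. -/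
theorem cl_ode2_aux (y₀ : ℝ) (h0 : -1 ≤ y₀) (h1 : y₀ < 1) (om om1 om2 Ps Ps1 Ps2 D c f : ℝ → ℝ)
    (homc : ContinuousOn om (Icc y₀ 1))
    (hom1 : ∀ y ∈ Ioo y₀ 1, HasDerivAt om (om1 y) y)
    (hom2 : ∀ y ∈ Ioo y₀ 1, HasDerivAt om1 (om2 y) y)
    (hlip : ∃ L : ℝ, ∀ y ∈ Icc y₀ 1, om 1 - L * (1 - y) ≤ om y)
    (hPc : ContinuousOn Ps (Icc y₀ 1)) (hPpos : ∀ y ∈ Icc y₀ 1, 0 < Ps y)
    (hP1 : ∀ y ∈ Ioo y₀ 1, HasDerivAt Ps (Ps1 y) y) (hP2 : ∀ y ∈ Ioo y₀ 1, HasDerivAt Ps1 (Ps2 y) y)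
    (hode : ∀ y ∈ Ioo y₀ 1, (1 - y ^ 2) * om2 y - D y * om1 y - c y * om y = f y)
    (hsup : ∀ y ∈ Ioo y₀ 1, (1 - y ^ 2) * Ps2 y - D y * Ps1 y - c y * Ps y < -|f y|)
    (hbd : om y₀ ≤ Ps y₀)
    (hpole : ∀ K : ℝ, ∃ y ∈ Ioo y₀ 1, Ps y + K * (1 - y) < Ps 1) :
    ∀ y ∈ Icc y₀ 1, om y ≤ Ps y := by
  intro y hy
  by_contra hcon
  push Not at hcon
  have hq : ContinuousOn (fun z => om z / Ps z) (Icc y₀ 1) :=
    homc.div hPc (fun z hz => (hPpos z hz).ne')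
  obtain ⟨ys, hys, hmax⟩ := isCompact_Icc.exists_isMaxOn ⟨y, hy⟩ hq
  set ρ := om ys / Ps ys with hρ
  have hρ1 : 1 < ρ := by
    have h2 : om y / Ps y ≤ ρ := hmax hy
    have h3 : 1 < om y / Ps y := (one_lt_div (hPpos y hy)).2 hcon
    linarith
  have hle : ∀ z ∈ Icc y₀ 1, om z ≤ ρ * Ps z := by
    intro z hz
    have h2 : om z / Ps z ≤ ρ := hmax hz
    exact (div_le_iff₀ (hPpos z hz)).1 h2
  have heq : om ys = ρ * Ps ys := by
    rw [hρ, div_mul_cancel₀ _ (hPpos ys hys).ne']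
  rcases eq_or_lt_of_le hys.1 with hL | hL
  · rw [← hL] at heq
    have h2 := hPpos y₀ ⟨le_rfl, h1.le⟩
    nlinarith
  rcases eq_or_lt_of_le hys.2 with hR | hR
  · obtain ⟨L, hLip⟩ := hlip
    obtain ⟨z, hz, hzK⟩ := hpole (L / ρ)
    have hz' : z ∈ Icc y₀ 1 := Ioo_subset_Icc_self hz
    have h2 := hLip z hz'
    have h3 := hle z hz'
    rw [hR] at heq
    have hρ0 : 0 < ρ := by linarith
    have h4 : ρ * (Ps z + L / ρ * (1 - z)) < ρ * Ps 1 := mul_lt_mul_of_pos_left hzK hρ0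
    have h5 : ρ * (Ps z + L / ρ * (1 - z)) = ρ * Ps z + L * (1 - z) := by
      field_simp
    linarith
  · have hI : ys ∈ Ioo y₀ 1 := ⟨hL, hR⟩
    have hφ1 : ∀ z ∈ Ioo y₀ 1, HasDerivAt (fun z => om z - ρ * Ps z) (om1 z - ρ * Ps1 z) z :=
      fun z hz => (hom1 z hz).sub ((hP1 z hz).const_mul ρ)
    have hφ2 : HasDerivAt (fun z => om1 z - ρ * Ps1 z) (om2 ys - ρ * Ps2 ys) ys :=
      (hom2 ys hI).sub ((hP2 ys hI).const_mul ρ)
    have hlm : IsLocalMax (fun z => om z - ρ * Ps z) ys := by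
      filter_upwards [Icc_mem_nhds hL hR] with z hz
      linarith [hle z hz]
    have hd1 : om1 ys - ρ * Ps1 ys = 0 := hlm.hasDerivAt_eq_zero (hφ1 ys hI)
    have hd2 : om2 ys - ρ * Ps2 ys ≤ 0 := by
      have h2 := mp_iteratedDeriv_two_nonpos (hφ1 ys hI).continuousAt hlm
      have e : iteratedDeriv 2 (fun z => om z - ρ * Ps z) ys
          = deriv (deriv (fun z => om z - ρ * Ps z)) ys := by
        rw [iteratedDeriv_succ, iteratedDeriv_one]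
      have e2 : deriv (fun z => om z - ρ * Ps z) =ᶠ[𝓝 ys] fun z => om1 z - ρ * Ps1 z := by
        filter_upwards [Ioo_mem_nhds hL hR] with z hz
        exact (hφ1 z hz).deriv
      rw [e, e2.deriv_eq, hφ2.deriv] at h2
      exact h2
    have hX : 0 ≤ 1 - ys ^ 2 := by nlinarith
    have hS := hsup ys hI
    have hO := hode ys hI
    have a1 : (1 - ys ^ 2) * (om2 ys - ρ * Ps2 ys) ≤ 0 := mul_nonpos_of_nonneg_of_nonpos hX hd2
    have a2 : om1 ys = ρ * Ps1 ys := by linarith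
    have a3 : f ys ≤ ρ * ((1 - ys ^ 2) * Ps2 ys - D ys * Ps1 ys - c ys * Ps ys) := by
      rw [← hO, a2, heq]
      have e3 : ρ * ((1 - ys ^ 2) * Ps2 ys - D ys * Ps1 ys - c ys * Ps ys)
          - ((1 - ys ^ 2) * om2 ys - D ys * (ρ * Ps1 ys) - c ys * (ρ * Ps ys))
          = -((1 - ys ^ 2) * (om2 ys - ρ * Ps2 ys)) := by ring
      linarith
    exact cl_ode_absurd hρ1 hS a3

/-- a `C¹` function is Lipschitz on `[y₀,1]`. -/
theorem cl_ode_lip (y₀ : ℝ) (h1 : y₀ < 1) (om : ℝ → ℝ) (hom : ContDiff ℝ 1 om) :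
    ∃ L : ℝ, ∀ y ∈ Icc y₀ 1, |om 1 - om y| ≤ L * (1 - y) := by
  obtain ⟨L, hL⟩ := isCompact_Icc.exists_bound_of_continuousOn
    (hom.continuous_deriv le_rfl).continuousOn (s := Icc y₀ 1)
  refine ⟨L, fun y hy => ?_⟩
  have h2 := Convex.norm_image_sub_le_of_norm_deriv_le (f := om) (s := Icc y₀ 1) (C := L)
    (fun x _ => (hom.differentiable one_ne_zero) x) hL (convex_Icc y₀ 1) hy
    (⟨h1.le, le_rfl⟩ : (1 : ℝ) ∈ Icc y₀ 1)
  rw [Real.norm_eq_abs, Real.norm_eq_abs, abs_of_nonneg (by linarith [hy.2] : (0 : ℝ) ≤ 1 - y)] at h2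
  exact h2

/-- second order comparison on `[y₀,1]`; the barrier `Ps` may have infinite slope at the pole (`hpole`). -/
theorem cl_ode2 (y₀ : ℝ) (h0 : -1 ≤ y₀) (h1 : y₀ < 1) (om Ps Ps1 Ps2 D c f : ℝ → ℝ)
    (hom : ContDiff ℝ 2 om)
    (hPc : ContinuousOn Ps (Icc y₀ 1)) (hPpos : ∀ y ∈ Icc y₀ 1, 0 < Ps y)
    (hP1 : ∀ y ∈ Ioo y₀ 1, HasDerivAt Ps (Ps1 y) y) (hP2 : ∀ y ∈ Ioo y₀ 1, HasDerivAt Ps1 (Ps2 y) y)
    (hode : ∀ y ∈ Ioo y₀ 1, (1 - y ^ 2) * deriv (deriv om) y - D y * deriv om y - c y * om y = f y)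
    (hsup : ∀ y ∈ Ioo y₀ 1, (1 - y ^ 2) * Ps2 y - D y * Ps1 y - c y * Ps y < -|f y|)
    (hbd : |om y₀| ≤ Ps y₀)
    (hpole : ∀ K : ℝ, ∃ y ∈ Ioo y₀ 1, Ps y + K * (1 - y) < Ps 1) :
    ∀ y ∈ Icc y₀ 1, |om y| ≤ Ps y := by
  have hd1 : ∀ y, HasDerivAt om (deriv om y) y :=
    fun y => ((hom.differentiable two_ne_zero) y).hasDerivAt
  have hc1 : ContDiff ℝ 1 (deriv om) := by
    have h2 : ContDiff ℝ (1 + 1) om := by
      rw [one_add_one_eq_two]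
      exact hom
    exact ((contDiff_succ_iff_deriv (n := 1)).1 h2).2.2
  have hd2 : ∀ y, HasDerivAt (deriv om) (deriv (deriv om) y) y :=
    fun y => ((hc1.differentiable one_ne_zero) y).hasDerivAt
  obtain ⟨L, hL⟩ := cl_ode_lip y₀ h1 om (hom.of_le (by norm_num))
  have hA := cl_ode2_aux y₀ h0 h1 om (deriv om) (deriv (deriv om)) Ps Ps1 Ps2 D c f
    hom.continuous.continuousOn (fun y _ => hd1 y) (fun y _ => hd2 y)
    ⟨L, fun y hy => by linarith [(abs_le.1 (hL y hy)).2]⟩ hPc hPpos hP1 hP2 hode hsup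
    ((le_abs_self _).trans hbd) hpole
  have hB := cl_ode2_aux y₀ h0 h1 (fun y => -om y) (fun y => -deriv om y)
    (fun y => -deriv (deriv om) y) Ps Ps1 Ps2 D c (fun y => -f y)
    hom.continuous.neg.continuousOn (fun y _ => (hd1 y).neg) (fun y _ => (hd2 y).neg)
    ⟨L, fun y hy => by linarith [(abs_le.1 (hL y hy)).1]⟩ hPc hPpos hP1 hP2
    (fun y hy => by
      have := hode y hy
      linarith)
    (fun y hy => by
      rw [abs_neg]
      exact hsup y hy)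
    ((neg_le_abs _).trans hbd) hpole
  intro y hy
  exact abs_le.2 ⟨by linarith [hB y hy], hA y hy⟩

/-- one-sided version of `cl_ode1`, with an explicit derivative. -/
theorem cl_ode1_aux (y₀ : ℝ) (h0 : -1 ≤ y₀) (P P1 Ps Ps1 D f : ℝ → ℝ)
    (hPcont : ContinuousOn P (Icc y₀ 1)) (hPd : ∀ y ∈ Ico y₀ 1, HasDerivAt P (P1 y) y)
    (hP0 : P 1 = 0)
    (hPc : ContinuousOn Ps (Icc y₀ 1)) (hPpos : ∀ y ∈ Icc y₀ 1, 0 < Ps y)
    (hP1 : ∀ y ∈ Ico y₀ 1, HasDerivAt Ps (Ps1 y) y)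
    (hode : ∀ y ∈ Ico y₀ 1, (1 - y ^ 2) * P1 y - D y * P y = f y)
    (hsup : ∀ y ∈ Ico y₀ 1, (1 - y ^ 2) * Ps1 y - D y * Ps y < -|f y|) :
    ∀ y ∈ Icc y₀ 1, P y ≤ Ps y := by
  intro y hy
  by_contra hcon
  push Not at hcon
  have hq : ContinuousOn (fun z => P z / Ps z) (Icc y₀ 1) :=
    hPcont.div hPc (fun z hz => (hPpos z hz).ne')
  obtain ⟨ys, hys, hmax⟩ := isCompact_Icc.exists_isMaxOn ⟨y, hy⟩ hq
  set ρ := P ys / Ps ys with hρ
  have hρ1 : 1 < ρ := by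
    have h2 : P y / Ps y ≤ ρ := hmax hy
    have h3 : 1 < P y / Ps y := (one_lt_div (hPpos y hy)).2 hcon
    linarith
  have hle : ∀ z ∈ Icc y₀ 1, P z ≤ ρ * Ps z := by
    intro z hz
    have h2 : P z / Ps z ≤ ρ := hmax hz
    exact (div_le_iff₀ (hPpos z hz)).1 h2
  have heq : P ys = ρ * Ps ys := by
    rw [hρ, div_mul_cancel₀ _ (hPpos ys hys).ne']
  rcases eq_or_lt_of_le hys.2 with hR | hR
  · rw [hR, hP0] at heq
    have h2 := hPpos 1 (hR ▸ hys)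
    nlinarith
  · have hI : ys ∈ Ico y₀ 1 := ⟨hys.1, hR⟩
    have hφ1 : HasDerivAt (fun z => P z - ρ * Ps z) (P1 ys - ρ * Ps1 ys) ys :=
      (hPd ys hI).sub ((hP1 ys hI).const_mul ρ)
    have hd1 : P1 ys - ρ * Ps1 ys ≤ 0 := by
      refine mp_deriv_nonpos_of_max_right hR hφ1 fun z hz => ?_
      have := hle z ⟨hys.1.trans hz.1, hz.2⟩
      show P z - ρ * Ps z ≤ P ys - ρ * Ps ys
      linarith
    have hX : 0 ≤ 1 - ys ^ 2 := by nlinarith [hys.1]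
    have hS := hsup ys hI
    have hO := hode ys hI
    have a1 : (1 - ys ^ 2) * (P1 ys - ρ * Ps1 ys) ≤ 0 := mul_nonpos_of_nonneg_of_nonpos hX hd1
    have a3 : f ys ≤ ρ * ((1 - ys ^ 2) * Ps1 ys - D ys * Ps ys) := by
      rw [← hO, heq]
      have e3 : ρ * ((1 - ys ^ 2) * Ps1 ys - D ys * Ps ys)
          - ((1 - ys ^ 2) * P1 ys - D ys * (ρ * Ps ys))
          = -((1 - ys ^ 2) * (P1 ys - ρ * Ps1 ys)) := by ring
      linarith
    exact cl_ode_absurd hρ1 hS a3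

/-- first order comparison on `[y₀,1]`, information flows from the pole: no condition at `y₀`. -/
theorem cl_ode1 (y₀ : ℝ) (h0 : -1 ≤ y₀) (h1 : y₀ < 1) (P Ps Ps1 D f : ℝ → ℝ)
    (hP : ContDiff ℝ 1 P) (hP0 : P 1 = 0)
    (hPc : ContinuousOn Ps (Icc y₀ 1)) (hPpos : ∀ y ∈ Icc y₀ 1, 0 < Ps y)
    (hP1 : ∀ y ∈ Ico y₀ 1, HasDerivAt Ps (Ps1 y) y)
    (hode : ∀ y ∈ Ico y₀ 1, (1 - y ^ 2) * deriv P y - D y * P y = f y)
    (hsup : ∀ y ∈ Ico y₀ 1, (1 - y ^ 2) * Ps1 y - D y * Ps y < -|f y|) :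
    ∀ y ∈ Icc y₀ 1, |P y| ≤ Ps y := by
  have hd1 : ∀ y, HasDerivAt P (deriv P y) y :=
    fun y => ((hP.differentiable one_ne_zero) y).hasDerivAt
  have hA := cl_ode1_aux y₀ h0 P (deriv P) Ps Ps1 D f hP.continuous.continuousOn
    (fun y _ => hd1 y) hP0 hPc hPpos hP1 hode hsup
  have hB := cl_ode1_aux y₀ h0 (fun y => -P y) (fun y => -deriv P y) Ps Ps1 D (fun y => -f y)
    hP.continuous.neg.continuousOn (fun y _ => (hd1 y).neg) (by rw [hP0, neg_zero]) hPc hPpos hP1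
    (fun y hy => by
      have := hode y hy
      linarith)
    (fun y hy => by
      rw [abs_neg]
      exact hsup y hy)
  intro y hy
  exact abs_le.2 ⟨by linarith [hB y hy], hA y hy⟩

end Claimed.Agent.R324.Core
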