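/-
Row 324 (S0582), PDE core, module CL.   Architect: helper325.   Blueprint: origin/helper325:docs/R324_CL.md, section C2.

Leaf CL.Zone: the two comparison lemmas with the explicit barriers, near the north pole (`y ∈ [y₀,1]`) and, by the reflection `y ↦ -y`, near the south pole.

`cl_zone2`:  `cl_ode2` with `Ps = A ϖ` (`clVp L2`), `Ps1 = A ϖ'`, `Ps2 = A ϖ''` (`cl_vp_contDiffOn` gives the two `HasDerivAt` on `(y₀,1) ⊆ (-1,1)`).
   `hsup`: by `cl_vp_ineq`,  `X (X Ps'' - D Ps' - c Ps) ≤ -(q/4) A σ ϖ₀ < - CK σ ϖ₀ ≤ - X |f|`  (σ ϖ₀ > 0 because `X > 0`); divide by `X > 0`.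
   `hpole`: `cl_vp_pole` with `K/A`.    Conclusion with `cl_vp_bounds`.
`cl_zone1`:  `cl_ode1` with `Ps = A m(y) exp (K (1-y))`:   `X Ps' - D Ps = Ps (X m'/m - K X - D) ≤ - Ps`  and `Ps ≥ A m > C m ≥ |f|` (`K ≥ 0`, `y ≤ 1`).
`cl_zone2_S`, `cl_zone1_S`:  apply the N versions to `om ∘ neg` etc.:  `(om ∘ neg)' = -om' ∘ neg`, `(om ∘ neg)'' = om'' ∘ neg`;  `clVp, clSg, clV0` are even in `y`.
-/
import Claimed.Agent.R324.Core.CL.Ode
import Claimed.Agent.R324.Core.CL.Barrier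

set_option autoImplicit false

namespace Claimed.Agent.R324.Core

open Set Filter Topology
open scoped ContDiff

theorem cl_zone_sg_neg (L2 y : ℝ) : clSg L2 (-y) = clSg L2 y := by
  show ((1 - (-y) ^ 2) / (L2 + (1 - (-y) ^ 2))) ^ ((1 : ℝ) / 4)
    = ((1 - y ^ 2) / (L2 + (1 - y ^ 2))) ^ ((1 : ℝ) / 4)
  rw [neg_sq]

theorem cl_zone_v0_neg (L2 y : ℝ) : clV0 L2 (-y) = clV0 L2 y := by
  show (L2 + (1 - (-y) ^ 2)) ^ (-((1 : ℝ) / 4)) = (L2 + (1 - y ^ 2)) ^ (-((1 : ℝ) / 4))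
  rw [neg_sq]

theorem cl_zone_vp_deriv (L2 : ℝ) (hL : 0 < L2) {y : ℝ} (hy : y ∈ Ioo (-1 : ℝ) 1) :
    HasDerivAt (clVp L2) (deriv (clVp L2) y) y ∧
      HasDerivAt (deriv (clVp L2)) (deriv (deriv (clVp L2)) y) y := by
  have h1 := (contDiffOn_infty_iff_deriv_of_isOpen isOpen_Ioo).1 (cl_vp_contDiffOn L2 hL)
  have h2 := (contDiffOn_infty_iff_deriv_of_isOpen isOpen_Ioo).1 h1.2
  exact ⟨((h1.1 y hy).differentiableAt (isOpen_Ioo.mem_nhds hy)).hasDerivAt,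
    ((h2.1 y hy).differentiableAt (isOpen_Ioo.mem_nhds hy)).hasDerivAt⟩

/-- arithmetic of `hsup` in `cl_zone2`. -/
theorem cl_zone2_arith {q A CK X T F sg v0 : ℝ} (hA : 0 < A) (hAK : 4 * CK < q * A) (hX : 0 < X)
    (hsg : 0 < sg) (hv0 : 0 < v0) (h1 : X * T ≤ -(q / 4) * sg * v0) (h2 : X * F ≤ CK * sg * v0) :
    A * T < -F := by
  have h3 : 0 < sg * v0 := mul_pos hsg hv0
  have h4 : X * (A * T) ≤ A * (-(q / 4) * sg * v0) := by
    have := mul_le_mul_of_nonneg_left h1 hA.le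
    linarith
  have h5 : X * (A * T) < X * (-F) := by nlinarith
  exact lt_of_mul_lt_mul_left h5 hX.le

theorem cl_zone_deriv_neg (om : ℝ → ℝ) : deriv (fun y => om (-y)) = fun y => -deriv om (-y) :=
  funext fun y => deriv_comp_neg om y

theorem cl_zone_deriv2_neg (om : ℝ → ℝ) (y : ℝ) :
    deriv (deriv (fun y => om (-y))) y = deriv (deriv om) (-y) := by
  rw [cl_zone_deriv_neg]
  have h1 : (fun y => -deriv om (-y)) = -(fun y => deriv om (-y)) := rfl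
  rw [h1, deriv.neg, deriv_comp_neg, neg_neg]

theorem cl_zone2 (q L2 A CK y₀ : ℝ) (hq : 100 ≤ q) (hL : 0 < L2) (hA : 0 < A) (hAK : 4 * CK < q * A)
    (h0 : 19 / 20 ≤ y₀) (h1 : y₀ < 1) (om D c f : ℝ → ℝ) (hom : ContDiff ℝ 2 om)
    (hode : ∀ y ∈ Ioo y₀ 1, (1 - y ^ 2) * deriv (deriv om) y - D y * deriv om y - c y * om y = f y)
    (hD : ∀ y ∈ Ioo y₀ 1, |D y - (q + 3) * y| ≤ q / 40)
    (hc : ∀ y ∈ Ioo y₀ 1, -(q / 40) * clSg L2 y ≤ (1 - y ^ 2) * c y)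
    (hf : ∀ y ∈ Ioo y₀ 1, (1 - y ^ 2) * |f y| ≤ CK * clSg L2 y * clV0 L2 y)
    (hbd : |om y₀| ≤ A * clV0 L2 y₀) :
    ∀ y ∈ Icc y₀ 1, |om y| ≤ 2 * A * clV0 L2 y := by
  have hsub : Icc y₀ 1 ⊆ Icc (-1 : ℝ) 1 := Icc_subset_Icc (by linarith) le_rfl
  have hsubo : Ioo y₀ 1 ⊆ Ioo (-1 : ℝ) 1 := Ioo_subset_Ioo (by linarith) le_rfl
  have key := cl_ode2 y₀ (by linarith) h1 om (fun y => A * clVp L2 y)
    (fun y => A * deriv (clVp L2) y) (fun y => A * deriv (deriv (clVp L2)) y) D c f hom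
    (continuousOn_const.mul ((cl_vp_continuousOn L2 hL).mono hsub))
    (fun y hy => mul_pos hA ((cl_v0_pos L2 hL y (hsub hy)).trans_le (cl_vp_bounds L2 hL y (hsub hy)).1))
    (fun y hy => (cl_zone_vp_deriv L2 hL (hsubo hy)).1.const_mul A)
    (fun y hy => (cl_zone_vp_deriv L2 hL (hsubo hy)).2.const_mul A)
    hode ?_ ?_ ?_
  · intro y hy
    have h2 := (cl_vp_bounds L2 hL y (hsub hy)).2
    have h3 := mul_le_mul_of_nonneg_left h2 hA.le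
    have h4 := key y hy
    linarith
  · intro y hy
    have hyI : y ∈ Icc (-1 : ℝ) 1 := hsub (Ioo_subset_Icc_self hy)
    have hX : 0 < 1 - y ^ 2 := by nlinarith [hy.1, hy.2]
    have hsg : 0 < clSg L2 y := by
      have h5 := (cl_sg_mem L2 hL y hyI).2.2
      have h6 : 0 < (1 - y ^ 2) / (L2 + (1 - y ^ 2)) := by positivity
      linarith
    have h7 := cl_zone2_arith hA hAK hX hsg (cl_v0_pos L2 hL y hyI)
      (cl_vp_ineq q L2 hq hL y (D y) (c y) ⟨by linarith [hy.1], hy.2⟩ (hD y hy) (hc y hy)) (hf y hy)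
    linarith
  · have h2 := (cl_vp_bounds L2 hL y₀ (hsub ⟨le_rfl, h1.le⟩)).1
    have h3 := mul_le_mul_of_nonneg_left h2 hA.le
    linarith
  · intro K
    obtain ⟨y, hy, h2⟩ := cl_vp_pole L2 hL y₀ (by linarith) h1 (K / A)
    refine ⟨y, hy, ?_⟩
    have h3 := mul_lt_mul_of_pos_left h2 hA
    have h4 : A * (clVp L2 y + K / A * (1 - y)) = A * clVp L2 y + K * (1 - y) := by
      field_simp
    rw [h4] at h3
    exact h3

theorem cl_zone2_S (q L2 A CK y₀ : ℝ) (hq : 100 ≤ q) (hL : 0 < L2) (hA : 0 < A) (hAK : 4 * CK < q * A)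
    (h0 : 19 / 20 ≤ y₀) (h1 : y₀ < 1) (om D c f : ℝ → ℝ) (hom : ContDiff ℝ 2 om)
    (hode : ∀ y ∈ Ioo (-1) (-y₀), (1 - y ^ 2) * deriv (deriv om) y - D y * deriv om y - c y * om y = f y)
    (hD : ∀ y ∈ Ioo (-1) (-y₀), |D y - (q + 3) * y| ≤ q / 40)
    (hc : ∀ y ∈ Ioo (-1) (-y₀), -(q / 40) * clSg L2 y ≤ (1 - y ^ 2) * c y)
    (hf : ∀ y ∈ Ioo (-1) (-y₀), (1 - y ^ 2) * |f y| ≤ CK * clSg L2 y * clV0 L2 y)
    (hbd : |om (-y₀)| ≤ A * clV0 L2 (-y₀)) :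
    ∀ y ∈ Icc (-1) (-y₀), |om y| ≤ 2 * A * clV0 L2 y := by
  have hmem : ∀ y ∈ Ioo y₀ 1, -y ∈ Ioo (-1 : ℝ) (-y₀) := fun y hy =>
    ⟨by linarith [hy.2], by linarith [hy.1]⟩
  have key := cl_zone2 q L2 A CK y₀ hq hL hA hAK h0 h1 (fun y => om (-y)) (fun y => -D (-y))
    (fun y => c (-y)) (fun y => f (-y)) (hom.comp contDiff_neg) ?_ ?_ ?_ ?_ ?_
  · intro y hy
    have h2 := key (-y) ⟨by linarith [hy.2], by linarith [hy.1]⟩
    simp only [neg_neg] at h2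
    rw [cl_zone_v0_neg] at h2
    exact h2
  · intro y hy
    have h2 := hode (-y) (hmem y hy)
    rw [cl_zone_deriv2_neg, cl_zone_deriv_neg]
    rw [neg_sq] at h2
    simp only
    linarith
  · intro y hy
    have h2 := hD (-y) (hmem y hy)
    have h3 : -D (-y) - (q + 3) * y = -(D (-y) - (q + 3) * -y) := by ring
    rw [h3, abs_neg]
    exact h2
  · intro y hy
    have h2 := hc (-y) (hmem y hy)
    rw [neg_sq, cl_zone_sg_neg] at h2
    exact h2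
  · intro y hy
    have h2 := hf (-y) (hmem y hy)
    rw [neg_sq, cl_zone_sg_neg, cl_zone_v0_neg] at h2
    exact h2
  · rw [cl_zone_v0_neg] at hbd
    exact hbd

theorem cl_zone1 (y₁ K C A : ℝ) (h0 : -1 ≤ y₁) (h1 : y₁ < 1) (hK : 0 ≤ K) (hCA : C < A) (hC : 0 ≤ C) (P D f m m1 : ℝ → ℝ)
    (hP : ContDiff ℝ 1 P) (hP0 : P 1 = 0)
    (hm : ∀ y ∈ Icc y₁ 1, HasDerivAt m (m1 y) y) (hmpos : ∀ y ∈ Icc y₁ 1, 0 < m y)
    (hode : ∀ y ∈ Ico y₁ 1, (1 - y ^ 2) * deriv P y - D y * P y = f y)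
    (hD : ∀ y ∈ Ico y₁ 1, (1 - y ^ 2) * m1 y + m y ≤ (K * (1 - y ^ 2) + D y) * m y)
    (hf : ∀ y ∈ Ico y₁ 1, |f y| ≤ C * m y) :
    ∀ y ∈ Icc y₁ 1, |P y| ≤ A * m y * Real.exp (K * (1 - y)) := by
  have hA : 0 < A := lt_of_le_of_lt hC hCA
  have hder : ∀ y ∈ Icc y₁ 1, HasDerivAt (fun y => A * m y * Real.exp (K * (1 - y)))
      (A * m1 y * Real.exp (K * (1 - y)) + A * m y * (Real.exp (K * (1 - y)) * (K * (0 - 1)))) y := by
    intro y hy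
    have h2 : HasDerivAt (fun y : ℝ => K * (1 - y)) (K * (0 - 1)) y :=
      ((hasDerivAt_const y (1 : ℝ)).sub (hasDerivAt_id y)).const_mul K
    exact ((hm y hy).const_mul A).mul h2.exp
  refine cl_ode1 y₁ h0 h1 P (fun y => A * m y * Real.exp (K * (1 - y)))
    (fun y => A * m1 y * Real.exp (K * (1 - y)) + A * m y * (Real.exp (K * (1 - y)) * (K * (0 - 1))))
    D f hP hP0 (fun y hy => (hder y hy).continuousAt.continuousWithinAt)
    (fun y hy => mul_pos (mul_pos hA (hmpos y hy)) (Real.exp_pos _))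
    (fun y hy => hder y (Ico_subset_Icc_self hy)) hode ?_
  intro y hy
  have hyI := Ico_subset_Icc_self hy
  have hm0 := hmpos y hyI
  have hE : 1 ≤ Real.exp (K * (1 - y)) :=
    Real.one_le_exp (mul_nonneg hK (by linarith [hy.2]))
  obtain ⟨E, hEdef⟩ : ∃ E : ℝ, E = Real.exp (K * (1 - y)) := ⟨_, rfl⟩
  rw [← hEdef] at hE ⊢
  have h2 := hD y hy
  have h3 := hf y hy
  have h4 : (1 - y ^ 2) * (A * m1 y * E + A * m y * (E * (K * (0 - 1)))) - D y * (A * m y * E)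
      = A * E * ((1 - y ^ 2) * m1 y - (K * (1 - y ^ 2) + D y) * m y) := by ring
  rw [h4]
  have h5 : (1 - y ^ 2) * m1 y - (K * (1 - y ^ 2) + D y) * m y ≤ -m y := by linarith
  have h6 : A * E * ((1 - y ^ 2) * m1 y - (K * (1 - y ^ 2) + D y) * m y) ≤ A * E * (-m y) :=
    mul_le_mul_of_nonneg_left h5 (by positivity)
  have h7 : A * m y ≤ A * E * m y := by
    have : A * m y * 1 ≤ A * m y * E := mul_le_mul_of_nonneg_left hE (by positivity)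
    linarith
  have h8 : C * m y < A * m y := mul_lt_mul_of_pos_right hCA hm0
  linarith

theorem cl_zone1_S (y₁ K C A : ℝ) (h0 : -1 ≤ y₁) (h1 : y₁ < 1) (hK : 0 ≤ K) (hCA : C < A) (hC : 0 ≤ C) (P D f m m1 : ℝ → ℝ)
    (hP : ContDiff ℝ 1 P) (hP0 : P (-1) = 0)
    (hm : ∀ y ∈ Icc (-1) (-y₁), HasDerivAt m (m1 y) y) (hmpos : ∀ y ∈ Icc (-1) (-y₁), 0 < m y)
    (hode : ∀ y ∈ Ioc (-1) (-y₁), (1 - y ^ 2) * deriv P y - D y * P y = f y)
    (hD : ∀ y ∈ Ioc (-1) (-y₁), -((1 - y ^ 2) * m1 y) + m y ≤ (K * (1 - y ^ 2) - D y) * m y)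
    (hf : ∀ y ∈ Ioc (-1) (-y₁), |f y| ≤ C * m y) :
    ∀ y ∈ Icc (-1) (-y₁), |P y| ≤ A * m y * Real.exp (K * (1 + y)) := by
  have hmemI : ∀ y ∈ Icc y₁ 1, -y ∈ Icc (-1 : ℝ) (-y₁) := fun y hy =>
    ⟨by linarith [hy.2], by linarith [hy.1]⟩
  have hmem : ∀ y ∈ Ico y₁ 1, -y ∈ Ioc (-1 : ℝ) (-y₁) := fun y hy =>
    ⟨by linarith [hy.2], by linarith [hy.1]⟩
  have key := cl_zone1 y₁ K C A h0 h1 hK hCA hC (fun y => P (-y)) (fun y => -D (-y))
    (fun y => -f (-y)) (fun y => m (-y)) (fun y => -m1 (-y)) (hP.comp contDiff_neg) hP0 ?_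
    (fun y hy => hmpos (-y) (hmemI y hy)) ?_ ?_ ?_
  · intro y hy
    have h2 := key (-y) ⟨by linarith [hy.2], by linarith [hy.1]⟩
    simp only [neg_neg, sub_neg_eq_add] at h2
    exact h2
  · intro y hy
    have h2 := (hm (-y) (hmemI y hy)).comp y (hasDerivAt_neg y)
    have h3 : m1 (-y) * -1 = -m1 (-y) := by ring
    rw [h3] at h2
    exact h2
  · intro y hy
    have h2 := hode (-y) (hmem y hy)
    rw [neg_sq] at h2
    rw [cl_zone_deriv_neg]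
    simp only
    linarith
  · intro y hy
    have h2 := hD (-y) (hmem y hy)
    rw [neg_sq] at h2
    linarith
  · intro y hy
    rw [abs_neg]
    exact hf (-y) (hmem y hy)

end Claimed.Agent.R324.Core
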