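/-
Row 324 (S0582), PDE core, module CL.   Architect: helper325.   Blueprint: origin/helper325:docs/R324_CL.md, section C2.

Leaf CL.Gauge: the bound of the total gauge field and of its derivative;  the bound of the Ricci curvature.       `ϖ₀ = clV0 (ell2 q t) y = (ℓ²+X)^{-1/4}`.

`cl_om_bound`.   Take `(Λ_N, y_N, CK_N)` from `cl_coef_N`, `(Λ_S, y_S, CK_S)` from `cl_coef_S`, `y₀ := max y_N y_S`, `(Λ_M, C_M)` from `cl_coef_mid` for this `y₀`, `Λ₃ := min` of the three (and `≤ 1`, so that `ℓ² ≤ 1`... any bound `ℓ² + X ≤ 2`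
   gives `ϖ₀ ≥ 2^{-1/4} ≥ 1/2`).   Fix `t ∈ [max t₁ (-Λ₃), 0)` with `t₀ < t`.
   middle `|y| ≤ y₀`:  `|om| ≤ C_M ≤ 2 C_M ϖ₀`.
   north `[y₀,1]`:  `cl_zone2` with `L2 = ell2 q t > 0`, `om = sl (omF ..) t` (`ContDiff`: `cl_sm_all`, `cl_sl_contDiff`), `D = (q+3) y - X 𝔤`, `c = cS`, `f = fS`, ODE = `cl_omega_ode`,  `A := max (2 C_M) (4 CK/q) + 1`.
   south:  `cl_zone2_S`.
`cl_P_bound`  (`P = X om'`).   `cl_zone1` on `[-y₀,1]` with `m = clV0 (ell2 q t)`, `m1 = (y/2)(ℓ²+X)^{-5/4}` (so `X m1 = (y/2) s m`, `|X m1| ≤ m/2`), `D = (q+1) y - X 𝔤`, `f = X (𝔠 om + fS)`, ODE = `cl_P_ode`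
   (at `y = -y₀` it is an interior point of `(-1,1)`);   `hD`:  on `[y₀,1)`: `D ≥ (q+1)(19/20) - q/40 ≥ 2`;  on `[-y₀,y₀]`: `|D| ≤ q + 1 + C_M`, `X ≥ 1 - y₀²`, so `K := (q + 3 + C_M)/(1-y₀²)` works;
   `hf`:  `|X 𝔠| |om| + X |fS| ≤ C ϖ₀`.    `cl_zone1_S` on `[-1,y₀]`.    `exp (K (1 ∓ y)) ≤ exp (2K)`.
`cl_ric_bound`.   `𝒲 = e^{-A₁/2} om`,  `X 𝒲' = e^{-A₁/2} (X om' - (X A₁'/2) om)`,  `(X 𝒲)' = X 𝒲' - 2 y 𝒲`;   `e^{-A₁/2} = e^{-h₁/2} √Z ≤ C`,  `|X A₁'|, |X h₂'|, |X C₁'| ≤ C`  (`CLPt.u1`; `BgGood.sym`: `|X w'| ≤ C X/r̂² ≤ C`, `X a' = X Z (XB)'`),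
   `|kA|, |kB|, |kC| ≤ C ϖ₀`  (`CLPt.k0, k1`, `σ ≤ 1`; `BgGood.symJ` + `cl_JJ_le` for `y ≥ 1/2`; for `y ≤ 3/4` the background is independent of `t`).      Then  `|rA| + |rB| + |rC| ≤ C ϖ₀`.
-/
import Claimed.Agent.R324.Core.CL.Coef
import Claimed.Agent.R324.Core.CL.Zone
import Claimed.Agent.R324.Core.CL.GaugeC

set_option autoImplicit false

namespace Claimed.Agent.R324.Core

open Set Filter Topology MeasureTheory
open scoped ContDiff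

/-- `0 < ℓ² ≤ q` for `-1 ≤ t < 0`. -/
theorem cl_om_ell2 (q : ℕ) (hq6 : 10 ^ 6 ≤ q) (t : ℝ) (ht : t < 0) (ht1 : -1 ≤ t) :
    0 < ell2 q t ∧ ell2 q t ≤ q := by
  have hq : (10 ^ 6 : ℝ) ≤ q := by exact_mod_cast hq6
  have hal : 0 ≤ bAl (q : ℝ) := by
    unfold bAl
    have h1 : Real.sqrt (((q : ℝ) + 1) ^ 2 - 8 * ((q : ℝ) + 1)) ≤ (q : ℝ) + 1 :=
      Real.sqrt_le_iff.2 ⟨by linarith, by nlinarith⟩
    linarith
  have hga : 0 ≤ 2 * gaF (q : ℝ) := by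
    unfold gaF
    positivity
  have h1 : 0 < (-t) ^ (2 * gaF (q : ℝ)) := Real.rpow_pos_of_pos (by linarith) _
  have h2 : (-t) ^ (2 * gaF (q : ℝ)) ≤ 1 := Real.rpow_le_one (by linarith) (by linarith) hga
  unfold ell2 lam2
  constructor
  · have h3 : 0 < ((q : ℝ) - 1) / 100 := by linarith
    positivity
  · nlinarith

/-- lower bound of `ϖ₀`. -/
theorem cl_om_v0_ge (L2 Q : ℝ) (hL : 0 < L2) (hLQ : L2 ≤ Q) (y : ℝ) (hy : y ∈ Icc (-1 : ℝ) 1) :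
    (Q + 1) ^ (-((1 : ℝ) / 4)) ≤ clV0 L2 y := by
  have hu := cl_u_nonneg y hy
  have hu1 : 1 - y ^ 2 ≤ 1 := by nlinarith [sq_nonneg y]
  exact Real.rpow_le_rpow_of_nonpos (by linarith) (by linarith) (by norm_num)

theorem cl_om_bound (q : ℕ) (hq6 : 10 ^ 6 ≤ q) (g : Bg) (hg : BgGood q g) (hcl : BgCL q g) (U : Tri)
    (hU : ∀ j, Sm (U j)) (t₀ t₁ ε N : ℝ) (h01 : t₀ < t₁) (ht₁ : t₁ < 0) (hε0 : 0 ≤ ε) (hε : ε ≤ 1 / 1000) (hN : 0 ≤ N)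
    (hgf : RedGF q t₀ 0 (mA q U) (mB q g U) (mC g U) (mW q g U)) (hpt : CLPt q U t₁ ε N) :
    ∃ Λ₃ C : ℝ, 0 < Λ₃ ∧ 0 ≤ C ∧ ∀ t ∈ Ico (max t₁ (-Λ₃)) 0, ∀ y ∈ Icc (-1 : ℝ) 1,
      |omF q g U (t, y)| ≤ C * clV0 (ell2 q t) y := by
  have hq : (10 ^ 6 : ℝ) ≤ q := by exact_mod_cast hq6
  obtain ⟨ΛN, yN, CN, hΛN, hyN0, hyN1, hCN, hcN⟩ :=
    cl_coef_N q hq6 g hg hcl U hU t₁ ε N ht₁ hε0 hε hN hpt
  obtain ⟨ΛS, yS, CS, hΛS, hyS0, hyS1, hCS, hcS⟩ :=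
    cl_coef_S q hq6 g hg U hU t₁ ε N ht₁ hε0 hε hN hpt
  obtain ⟨y₀, hy₀⟩ : ∃ y₀ : ℝ, y₀ = max yN yS := ⟨_, rfl⟩
  have hyN : yN ≤ y₀ := hy₀ ▸ le_max_left _ _
  have hyS : yS ≤ y₀ := hy₀ ▸ le_max_right _ _
  have h0 : 19 / 20 ≤ y₀ := le_trans hyN0 hyN
  have h1 : y₀ < 1 := hy₀ ▸ max_lt hyN1 hyS1
  obtain ⟨ΛM, CM, hΛM, hCM, hcM⟩ :=
    cl_coef_mid q hq6 g hg U hU t₁ ε N ht₁ hε0 hε hN hpt y₀ (by linarith) h1
  obtain ⟨c₀, hc₀⟩ : ∃ c₀ : ℝ, c₀ = ((q : ℝ) + 1) ^ (-((1 : ℝ) / 4)) := ⟨_, rfl⟩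
  have hc₀pos : 0 < c₀ := hc₀ ▸ Real.rpow_pos_of_pos (by linarith) _
  obtain ⟨A, hAdef⟩ : ∃ A : ℝ, A = CM / c₀ + CN + CS + 1 := ⟨_, rfl⟩
  have hMc : 0 ≤ CM / c₀ := div_nonneg hCM hc₀pos.le
  have hA : 0 < A := by rw [hAdef]; linarith
  have hAN : 4 * CN < q * A := by rw [hAdef]; nlinarith
  have hAS : 4 * CS < q * A := by rw [hAdef]; nlinarith
  refine ⟨min (min ΛN ΛS) (min ΛM 1), 2 * A, by positivity, by positivity, ?_⟩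
  intro t ht y hy
  have ht1 : t₁ ≤ t := le_trans (le_max_left _ _) ht.1
  have htΛ : -(min (min ΛN ΛS) (min ΛM 1)) ≤ t := le_trans (le_max_right _ _) ht.1
  have hmN : min (min ΛN ΛS) (min ΛM 1) ≤ ΛN := le_trans (min_le_left _ _) (min_le_left _ _)
  have hmS : min (min ΛN ΛS) (min ΛM 1) ≤ ΛS := le_trans (min_le_left _ _) (min_le_right _ _)
  have hmM : min (min ΛN ΛS) (min ΛM 1) ≤ ΛM := le_trans (min_le_right _ _) (min_le_left _ _)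
  have hm1 : min (min ΛN ΛS) (min ΛM 1) ≤ 1 := le_trans (min_le_right _ _) (min_le_right _ _)
  have htN : t ∈ Ico (max t₁ (-ΛN)) 0 := ⟨max_le ht1 (by linarith), ht.2⟩
  have htS : t ∈ Ico (max t₁ (-ΛS)) 0 := ⟨max_le ht1 (by linarith), ht.2⟩
  have htM : t ∈ Ico (max t₁ (-ΛM)) 0 := ⟨max_le ht1 (by linarith), ht.2⟩
  have ht0 : t ∈ Ioo t₀ 0 := ⟨by linarith, ht.2⟩
  obtain ⟨hL, hLq⟩ := cl_om_ell2 q hq6 t ht.2 (by linarith)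
  have hv0 : ∀ z ∈ Icc (-1 : ℝ) 1, c₀ ≤ clV0 (ell2 q t) z := fun z hz =>
    hc₀ ▸ cl_om_v0_ge (ell2 q t) q hL hLq z hz
  have hmid : ∀ z ∈ Icc (-y₀) y₀, |omF q g U (t, z)| ≤ A * clV0 (ell2 q t) z := by
    intro z hz
    have h2 := (hcM t htM z hz).1
    have h3 := hv0 z ⟨by linarith [hz.1], by linarith [hz.2]⟩
    have h4 : CM = CM / c₀ * c₀ := by field_simp
    have h5 : CM / c₀ * c₀ ≤ CM / c₀ * clV0 (ell2 q t) z := mul_le_mul_of_nonneg_left h3 hMc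
    have h6 : CM / c₀ * clV0 (ell2 q t) z ≤ A * clV0 (ell2 q t) z :=
      mul_le_mul_of_nonneg_right (by rw [hAdef]; linarith) (hc₀pos.le.trans h3)
    linarith
  have hsm : Sm (omF q g U) :=
    (cl_sm_all q (by linarith) g hg.sm U hU).2.2.2.2.2.2.2.2.2.1
  have hom : ContDiff ℝ 2 (sl (omF q g U) t) :=
    (cl_sl_contDiff _ hsm t ht.2).of_le (by norm_cast)
  have hode := cl_omega_ode q (by omega) g hg.sm U hU t₀ hgf t ht0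
  have hDabs : ∀ z : ℝ, |((q : ℝ) + 3) * z - (1 - z ^ 2) * gS q g U t z - ((q : ℝ) + 3) * z|
      = |(1 - z ^ 2) * gS q g U t z| := by
    intro z
    rw [← abs_neg]
    congr 1
    ring
  rcases le_total y₀ y with hyn | hyn
  · -- north
    exact cl_zone2 (q : ℝ) (ell2 q t) A CN y₀ (by linarith) hL hA hAN h0 h1 (sl (omF q g U) t)
      (fun z => ((q : ℝ) + 3) * z - (1 - z ^ 2) * gS q g U t z) (cS q g U t) (fS q g U t) hom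
      (fun z hz => hode z ⟨by linarith [hz.1], hz.2⟩)
      (fun z hz => by
        rw [hDabs z]
        exact (hcN t htN z ⟨by linarith [hz.1], hz.2.le⟩).1)
      (fun z hz => (hcN t htN z ⟨by linarith [hz.1], hz.2.le⟩).2.1)
      (fun z hz => (hcN t htN z ⟨by linarith [hz.1], hz.2.le⟩).2.2.2)
      (hmid y₀ ⟨by linarith, le_rfl⟩) y ⟨hyn, hy.2⟩
  rcases le_total y (-y₀) with hys | hys
  · -- south
    exact cl_zone2_S (q : ℝ) (ell2 q t) A CS y₀ (by linarith) hL hA hAS h0 h1 (sl (omF q g U) t)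
      (fun z => ((q : ℝ) + 3) * z - (1 - z ^ 2) * gS q g U t z) (cS q g U t) (fS q g U t) hom
      (fun z hz => hode z ⟨hz.1, by linarith [hz.2]⟩)
      (fun z hz => by
        rw [hDabs z]
        exact (hcS t htS z ⟨hz.1.le, by linarith [hz.2]⟩).1)
      (fun z hz => (hcS t htS z ⟨hz.1.le, by linarith [hz.2]⟩).2.1)
      (fun z hz => (hcS t htS z ⟨hz.1.le, by linarith [hz.2]⟩).2.2.2)
      (hmid (-y₀) ⟨le_rfl, by linarith⟩) y ⟨hy.1, hys⟩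
  · -- middle
    have h2 := hmid y ⟨hys, hyn⟩
    have h3 : 0 ≤ A * clV0 (ell2 q t) y := mul_nonneg hA.le (hc₀pos.le.trans (hv0 y hy))
    linarith

theorem cl_Pb_gaF_nonneg (q : ℝ) (hq : 0 ≤ q) : 0 ≤ gaF q := by
  unfold gaF bAl
  refine div_nonneg (by norm_num) ?_
  have h1 : Real.sqrt ((q + 1) ^ 2 - 8 * (q + 1)) ≤ q + 1 :=
    Real.sqrt_le_iff.2 ⟨by linarith, by nlinarith⟩
  linarith

theorem cl_Pb_ell2_pos (q t : ℝ) (hq : 1 < q) (ht : t < 0) : 0 < ell2 q t := by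
  unfold ell2 lam2
  exact mul_pos (div_pos (by linarith) (by norm_num)) (Real.rpow_pos_of_pos (by linarith) _)

theorem cl_Pb_ell2_le (q t : ℝ) (hq : 1 < q) (ht : t < 0) (ht1 : -1 ≤ t) :
    ell2 q t ≤ (q - 1) / 100 := by
  unfold ell2 lam2
  have h1 : (-t) ^ (2 * gaF q) ≤ 1 :=
    Real.rpow_le_one (by linarith) (by linarith)
      (by have := cl_Pb_gaF_nonneg q (by linarith); linarith)
  have h2 : 0 ≤ (q - 1) / 100 := div_nonneg (by linarith) (by norm_num)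
  calc (q - 1) / 100 * (-t) ^ (2 * gaF q) ≤ (q - 1) / 100 * 1 := mul_le_mul_of_nonneg_left h1 h2
    _ = (q - 1) / 100 := mul_one _

theorem cl_Pb_v0_ge (q t : ℝ) (hq : 1 < q) (ht : t < 0) (ht1 : -1 ≤ t) (y : ℝ)
    (hy : y ∈ Icc (-1 : ℝ) 1) : ((q - 1) / 100 + 1) ^ (-((1 : ℝ) / 4)) ≤ clV0 (ell2 q t) y := by
  have hu := cl_u_nonneg y hy
  have h1 := cl_Pb_ell2_pos q t hq ht
  have h2 := cl_Pb_ell2_le q t hq ht ht1
  unfold clV0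
  exact Real.rpow_le_rpow_of_nonpos (by linarith) (by nlinarith) (by norm_num)

theorem cl_Pb_v0_deriv (L2 y : ℝ) (hA : 0 < L2 + (1 - y ^ 2)) :
    HasDerivAt (clV0 L2) (y / 2 * (L2 + (1 - y ^ 2)) ^ (-((5 : ℝ) / 4))) y := by
  have h1 : HasDerivAt (fun y : ℝ => L2 + (1 - y ^ 2)) (-(2 * y)) y := by
    have h := ((hasDerivAt_pow 2 y).const_sub 1).const_add L2
    refine h.congr_deriv ?_
    norm_num
  have h := h1.rpow_const (p := -((1 : ℝ) / 4)) (Or.inl hA.ne')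
  have e : -((1 : ℝ) / 4) - 1 = -((5 : ℝ) / 4) := by norm_num
  rw [e] at h
  refine h.congr_deriv ?_
  ring

theorem cl_Pb_Xm1 (L2 y : ℝ) (hL : 0 < L2) (hy : y ∈ Icc (-1 : ℝ) 1) :
    |(1 - y ^ 2) * (y / 2 * (L2 + (1 - y ^ 2)) ^ (-((5 : ℝ) / 4)))| ≤ clV0 L2 y / 2 := by
  have hu := cl_u_nonneg y hy
  have hA : 0 < L2 + (1 - y ^ 2) := by linarith
  have e : (L2 + (1 - y ^ 2)) ^ (-((5 : ℝ) / 4)) = clV0 L2 y / (L2 + (1 - y ^ 2)) := by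
    unfold clV0
    rw [eq_div_iff hA.ne', ← Real.rpow_add_one hA.ne']
    norm_num
  rw [e]
  have hv := cl_v0_pos L2 hL y hy
  have hs : (1 - y ^ 2) / (L2 + (1 - y ^ 2)) ≤ 1 := by
    rw [div_le_one hA]
    linarith
  have hs0 : 0 ≤ (1 - y ^ 2) / (L2 + (1 - y ^ 2)) := div_nonneg hu hA.le
  have e2 : (1 - y ^ 2) * (y / 2 * (clV0 L2 y / (L2 + (1 - y ^ 2))))
      = y * ((1 - y ^ 2) / (L2 + (1 - y ^ 2))) * (clV0 L2 y / 2) := by ring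
  have hv2 : 0 < clV0 L2 y / 2 := by positivity
  rw [e2, abs_mul, abs_mul, abs_of_nonneg hs0, abs_of_pos hv2]
  have hy1 : |y| ≤ 1 := abs_le.2 hy
  have h3 : |y| * ((1 - y ^ 2) / (L2 + (1 - y ^ 2))) ≤ 1 * 1 :=
    mul_le_mul hy1 hs hs0 zero_le_one
  calc |y| * ((1 - y ^ 2) / (L2 + (1 - y ^ 2))) * (clV0 L2 y / 2)
      ≤ 1 * 1 * (clV0 L2 y / 2) := mul_le_mul_of_nonneg_right h3 hv2.le
    _ = clV0 L2 y / 2 := by ring

theorem cl_Pb_f_pole {X c o f C Co sg m : ℝ} (hX : 0 ≤ X) (hC : 0 ≤ C) (hm : 0 < m) (hsg : sg ≤ 1)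
    (h1 : |X * c| ≤ C) (h2 : |o| ≤ Co * m) (h3 : X * |f| ≤ C * sg * m) :
    |X * (c * o + f)| ≤ C * (Co + 1) * m := by
  have e : X * (c * o + f) = (X * c) * o + X * f := by ring
  rw [e]
  calc |X * c * o + X * f| ≤ |X * c * o| + |X * f| := abs_add_le _ _
    _ = |X * c| * |o| + X * |f| := by rw [abs_mul (X * c) o, abs_mul X f, abs_of_nonneg hX]
    _ ≤ C * (Co * m) + C * sg * m := add_le_add (mul_le_mul h1 h2 (abs_nonneg _) hC) h3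
    _ ≤ C * (Co * m) + C * 1 * m := by gcongr
    _ = C * (Co + 1) * m := by ring

theorem cl_Pb_f_mid {X c o f C Co v m : ℝ} (hX : 0 ≤ X) (hX1 : X ≤ 1) (hC : 0 ≤ C)
    (hv : 0 < v) (hvm : v ≤ m) (h1 : |c| ≤ C) (h2 : |o| ≤ Co * m) (h3 : |f| ≤ C) :
    |X * (c * o + f)| ≤ (C * Co + C / v) * m := by
  have h4 : |c * o + f| ≤ C * (Co * m) + C :=
    (abs_add_le _ _).trans (add_le_add (by
      rw [abs_mul]
      exact mul_le_mul h1 h2 (abs_nonneg _) hC) h3)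
  have h5 : C ≤ C / v * m := by
    rw [div_mul_eq_mul_div, le_div_iff₀ hv]
    exact mul_le_mul_of_nonneg_left hvm hC
  rw [abs_mul, abs_of_nonneg hX]
  calc X * |c * o + f| ≤ 1 * |c * o + f| := mul_le_mul_of_nonneg_right hX1 (abs_nonneg _)
    _ ≤ C * (Co * m) + C / v * m := by linarith
    _ = (C * Co + C / v) * m := by ring

/-- the static part of `cl_P_bound` (fixed time). -/
theorem cl_Pb_core (q L2 y₀ Co CN CS CM v : ℝ) (hq : 10 ^ 6 ≤ q) (hL : 0 < L2) (h0 : 19 / 20 ≤ y₀)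
    (h1 : y₀ < 1) (hCo : 0 ≤ Co) (hCN : 0 ≤ CN) (hCS : 0 ≤ CS) (hCM : 0 ≤ CM) (hv : 0 < v)
    (om gs cs fs : ℝ → ℝ) (hom : ContDiff ℝ ∞ om)
    (hv0 : ∀ y ∈ Icc (-1 : ℝ) 1, v ≤ clV0 L2 y)
    (hode : ∀ y ∈ Ioo (-1 : ℝ) 1, (1 - y ^ 2) * deriv (fun z => (1 - z ^ 2) * deriv om z) y
        - ((q + 1) * y - (1 - y ^ 2) * gs y) * ((1 - y ^ 2) * deriv om y)
      = (1 - y ^ 2) * (cs y * om y + fs y))
    (hob : ∀ y ∈ Icc (-1 : ℝ) 1, |om y| ≤ Co * clV0 L2 y)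
    (hN : ∀ y ∈ Icc y₀ 1, |(1 - y ^ 2) * gs y| ≤ q / 40 ∧ |(1 - y ^ 2) * cs y| ≤ CN ∧
      (1 - y ^ 2) * |fs y| ≤ CN * clSg L2 y * clV0 L2 y)
    (hS : ∀ y ∈ Icc (-1) (-y₀), |(1 - y ^ 2) * gs y| ≤ q / 40 ∧ |(1 - y ^ 2) * cs y| ≤ CS ∧
      (1 - y ^ 2) * |fs y| ≤ CS * clSg L2 y * clV0 L2 y)
    (hM : ∀ y ∈ Icc (-y₀) y₀, |gs y| ≤ CM ∧ |cs y| ≤ CM ∧ |fs y| ≤ CM) :
    ∀ y ∈ Icc (-1 : ℝ) 1, |(1 - y ^ 2) * deriv om y| ≤
      (CN * (Co + 1) + CS * (Co + 1) + CM * Co + CM / v + 1)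
        * Real.exp (2 * ((q + 3 + CM) / (1 - y₀ ^ 2))) * clV0 L2 y := by
  have hden : 0 < 1 - y₀ ^ 2 := by nlinarith
  obtain ⟨K, hKdef⟩ : ∃ K : ℝ, K = (q + 3 + CM) / (1 - y₀ ^ 2) := ⟨_, rfl⟩
  obtain ⟨Cf, hCfdef⟩ : ∃ Cf : ℝ, Cf = CN * (Co + 1) + CS * (Co + 1) + CM * Co + CM / v := ⟨_, rfl⟩
  rw [← hKdef, ← hCfdef]
  have hK : 0 ≤ K := by
    rw [hKdef]
    exact div_nonneg (by linarith) hden.le
  have hKd : K * (1 - y₀ ^ 2) = q + 3 + CM := by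
    rw [hKdef]
    exact div_mul_cancel₀ _ hden.ne'
  have a1 : 0 ≤ CN * (Co + 1) := by positivity
  have a2 : 0 ≤ CS * (Co + 1) := by positivity
  have a3 : 0 ≤ CM * Co := by positivity
  have a4 : 0 ≤ CM / v := by positivity
  have hCf : 0 ≤ Cf := by
    rw [hCfdef]
    linarith
  have hd : ContDiff ℝ ∞ (deriv om) := (contDiff_infty_iff_deriv.1 hom).2
  have hP : ContDiff ℝ 1 (fun z => (1 - z ^ 2) * deriv om z) := by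
    have h : ContDiff ℝ ∞ (fun z => (1 - z ^ 2) * deriv om z) :=
      (contDiff_const.sub (contDiff_id.pow 2)).mul hd
    exact h.of_le (by simp)
  have hmpos : ∀ y ∈ Icc (-1 : ℝ) 1, 0 < clV0 L2 y := fun y hy => cl_v0_pos L2 hL y hy
  have hmder : ∀ y ∈ Icc (-1 : ℝ) 1,
      HasDerivAt (clV0 L2) (y / 2 * (L2 + (1 - y ^ 2)) ^ (-((5 : ℝ) / 4))) y := fun y hy =>
    cl_Pb_v0_deriv L2 y (by have := cl_u_nonneg y hy; linarith)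
  have hfN : ∀ y ∈ Icc y₀ 1, |(1 - y ^ 2) * (cs y * om y + fs y)| ≤ Cf * clV0 L2 y := by
    intro y hy
    have hyI : y ∈ Icc (-1 : ℝ) 1 := ⟨by linarith [hy.1], hy.2⟩
    obtain ⟨-, b2, b3⟩ := hN y hy
    have h := cl_Pb_f_pole (cl_u_nonneg y hyI) hCN (hmpos y hyI) (cl_sg_mem L2 hL y hyI).2.1.le b2
      (hob y hyI) b3
    have hm := hmpos y hyI
    have : CN * (Co + 1) * clV0 L2 y ≤ Cf * clV0 L2 y :=
      mul_le_mul_of_nonneg_right (by rw [hCfdef]; linarith) hm.le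
    linarith
  have hfS : ∀ y ∈ Icc (-1) (-y₀), |(1 - y ^ 2) * (cs y * om y + fs y)| ≤ Cf * clV0 L2 y := by
    intro y hy
    have hyI : y ∈ Icc (-1 : ℝ) 1 := ⟨hy.1, by linarith [hy.2]⟩
    obtain ⟨-, b2, b3⟩ := hS y hy
    have h := cl_Pb_f_pole (cl_u_nonneg y hyI) hCS (hmpos y hyI) (cl_sg_mem L2 hL y hyI).2.1.le b2
      (hob y hyI) b3
    have hm := hmpos y hyI
    have : CS * (Co + 1) * clV0 L2 y ≤ Cf * clV0 L2 y :=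
      mul_le_mul_of_nonneg_right (by rw [hCfdef]; linarith) hm.le
    linarith
  have hfM : ∀ y ∈ Icc (-y₀) y₀, |(1 - y ^ 2) * (cs y * om y + fs y)| ≤ Cf * clV0 L2 y := by
    intro y hy
    have hyI : y ∈ Icc (-1 : ℝ) 1 := ⟨by linarith [hy.1], by linarith [hy.2]⟩
    obtain ⟨-, b2, b3⟩ := hM y hy
    have h := cl_Pb_f_mid (cl_u_nonneg y hyI) (by nlinarith [sq_nonneg y]) hCM hv (hv0 y hyI) b2
      (hob y hyI) b3
    have hm := hmpos y hyI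
    have : (CM * Co + CM / v) * clV0 L2 y ≤ Cf * clV0 L2 y :=
      mul_le_mul_of_nonneg_right (by rw [hCfdef]; linarith) hm.le
    linarith
  have keyN := cl_zone1 (-y₀) K Cf (Cf + 1) (by linarith) (by linarith) hK (by linarith) hCf
    (fun z => (1 - z ^ 2) * deriv om z) (fun y => (q + 1) * y - (1 - y ^ 2) * gs y)
    (fun y => (1 - y ^ 2) * (cs y * om y + fs y)) (clV0 L2)
    (fun y => y / 2 * (L2 + (1 - y ^ 2)) ^ (-((5 : ℝ) / 4))) hP (by norm_num)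
    (fun y hy => hmder y ⟨by linarith [hy.1], hy.2⟩)
    (fun y hy => hmpos y ⟨by linarith [hy.1], hy.2⟩)
    (fun y hy => hode y ⟨by linarith [hy.1], hy.2⟩)
    (by
      intro y hy
      have hyI : y ∈ Icc (-1 : ℝ) 1 := ⟨by linarith [hy.1], hy.2.le⟩
      have hm := hmpos y hyI
      have hx := (abs_le.1 (cl_Pb_Xm1 L2 y hL hyI)).2
      have hu := cl_u_nonneg y hyI
      have hkey : 3 / 2 ≤ K * (1 - y ^ 2) + ((q + 1) * y - (1 - y ^ 2) * gs y) := by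
        rcases le_or_gt y₀ y with hc | hc
        · have b1 := (abs_le.1 (hN y ⟨hc, hy.2.le⟩).1).2
          have : 0 ≤ K * (1 - y ^ 2) := mul_nonneg hK hu
          nlinarith
        · have b1 := (hM y ⟨hy.1, hc.le⟩).1
          have hX : 1 - y₀ ^ 2 ≤ 1 - y ^ 2 := by nlinarith [hy.1]
          have c1 : K * (1 - y₀ ^ 2) ≤ K * (1 - y ^ 2) := mul_le_mul_of_nonneg_left hX hK
          have c2 : |(1 - y ^ 2) * gs y| ≤ 1 * CM := by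
            rw [abs_mul, abs_of_nonneg hu]
            exact mul_le_mul (by nlinarith [sq_nonneg y]) b1 (abs_nonneg _) zero_le_one
          have c3 := (abs_le.1 c2).2
          have c4 : -(q + 1) ≤ (q + 1) * y := by nlinarith [hyI.1]
          linarith
      have := mul_le_mul_of_nonneg_right hkey hm.le
      linarith)
    (by
      intro y hy
      rcases le_or_gt y₀ y with hc | hc
      · exact hfN y ⟨hc, hy.2.le⟩
      · exact hfM y ⟨hy.1, hc.le⟩)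
  have keyS := cl_zone1_S y₀ 0 Cf (Cf + 1) (by linarith) h1 le_rfl (by linarith) hCf
    (fun z => (1 - z ^ 2) * deriv om z) (fun y => (q + 1) * y - (1 - y ^ 2) * gs y)
    (fun y => (1 - y ^ 2) * (cs y * om y + fs y)) (clV0 L2)
    (fun y => y / 2 * (L2 + (1 - y ^ 2)) ^ (-((5 : ℝ) / 4))) hP (by norm_num)
    (fun y hy => hmder y ⟨hy.1, by linarith [hy.2]⟩)
    (fun y hy => hmpos y ⟨hy.1, by linarith [hy.2]⟩)
    (fun y hy => hode y ⟨hy.1, by linarith [hy.2]⟩)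
    (by
      intro y hy
      have hyI : y ∈ Icc (-1 : ℝ) 1 := ⟨hy.1.le, by linarith [hy.2]⟩
      have hm := hmpos y hyI
      have hx := (abs_le.1 (cl_Pb_Xm1 L2 y hL hyI)).1
      have b1 := (abs_le.1 (hS y ⟨hy.1.le, hy.2⟩).1).1
      have hkey : 3 / 2 ≤ 0 * (1 - y ^ 2) - ((q + 1) * y - (1 - y ^ 2) * gs y) := by
        nlinarith [hy.2]
      have := mul_le_mul_of_nonneg_right hkey hm.le
      linarith)
    (fun y hy => hfS y ⟨hy.1.le, hy.2⟩)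
  intro y hy
  have hm := hmpos y hy
  have hA : 0 < Cf + 1 := by linarith
  rcases le_or_gt y (-y₀) with hc | hc
  · have h := keyS y ⟨hy.1, hc⟩
    simp only [zero_mul, Real.exp_zero, mul_one] at h
    have hE : 1 ≤ Real.exp (2 * K) := Real.one_le_exp (by linarith)
    calc |(1 - y ^ 2) * deriv om y| ≤ (Cf + 1) * clV0 L2 y := h
      _ = (Cf + 1) * 1 * clV0 L2 y := by ring
      _ ≤ (Cf + 1) * Real.exp (2 * K) * clV0 L2 y := by gcongr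
  · have h := keyN y ⟨hc.le, hy.2⟩
    have hE : Real.exp (K * (1 - y)) ≤ Real.exp (2 * K) :=
      Real.exp_le_exp.2 (by nlinarith [hy.1])
    calc |(1 - y ^ 2) * deriv om y| ≤ (Cf + 1) * clV0 L2 y * Real.exp (K * (1 - y)) := h
      _ ≤ (Cf + 1) * clV0 L2 y * Real.exp (2 * K) := by gcongr
      _ = (Cf + 1) * Real.exp (2 * K) * clV0 L2 y := by ring

theorem cl_P_bound (q : ℕ) (hq6 : 10 ^ 6 ≤ q) (g : Bg) (hg : BgGood q g) (hcl : BgCL q g) (U : Tri)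
    (hU : ∀ j, Sm (U j)) (t₀ t₁ ε N : ℝ) (h01 : t₀ < t₁) (ht₁ : t₁ < 0) (hε0 : 0 ≤ ε) (hε : ε ≤ 1 / 1000) (hN : 0 ≤ N)
    (hgf : RedGF q t₀ 0 (mA q U) (mB q g U) (mC g U) (mW q g U)) (hpt : CLPt q U t₁ ε N) :
    ∃ Λ₃ C : ℝ, 0 < Λ₃ ∧ 0 ≤ C ∧ ∀ t ∈ Ico (max t₁ (-Λ₃)) 0, ∀ y ∈ Icc (-1 : ℝ) 1,
      |(1 - y ^ 2) * dY (omF q g U) (t, y)| ≤ C * clV0 (ell2 q t) y := by
  have hq : (10 : ℝ) ^ 6 ≤ (q : ℝ) := by exact_mod_cast hq6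
  have hq1 : 1 ≤ q := le_trans (by norm_num) hq6
  obtain ⟨Λo, Co, hΛo, hCo, hom⟩ :=
    cl_om_bound q hq6 g hg hcl U hU t₀ t₁ ε N h01 ht₁ hε0 hε hN hgf hpt
  obtain ⟨ΛN, yN, CN, hΛN, hyN, hyN1, hCN, hcN⟩ :=
    cl_coef_N q hq6 g hg hcl U hU t₁ ε N ht₁ hε0 hε hN hpt
  obtain ⟨ΛS, yS, CS, hΛS, hyS, hyS1, hCS, hcS⟩ :=
    cl_coef_S q hq6 g hg U hU t₁ ε N ht₁ hε0 hε hN hpt
  obtain ⟨y₀, hy₀⟩ : ∃ y₀ : ℝ, y₀ = max yN yS := ⟨_, rfl⟩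
  have hy0N : yN ≤ y₀ := hy₀ ▸ le_max_left _ _
  have hy0S : yS ≤ y₀ := hy₀ ▸ le_max_right _ _
  have hy01 : y₀ < 1 := hy₀ ▸ max_lt hyN1 hyS1
  have hy00 : 19 / 20 ≤ y₀ := hyN.trans hy0N
  obtain ⟨ΛM, CM, hΛM, hCM, hcM⟩ :=
    cl_coef_mid q hq6 g hg U hU t₁ ε N ht₁ hε0 hε hN hpt y₀ (by linarith) hy01
  have hR : (0 : ℝ) < ((q : ℝ) - 1) / 100 + 1 := by
    have : (0 : ℝ) ≤ ((q : ℝ) - 1) / 100 := div_nonneg (by linarith) (by norm_num)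
    linarith
  have hv : (0 : ℝ) < (((q : ℝ) - 1) / 100 + 1) ^ (-((1 : ℝ) / 4)) := Real.rpow_pos_of_pos hR _
  have hden : 0 < 1 - y₀ ^ 2 := by nlinarith
  refine ⟨min (min Λo ΛN) (min (min ΛS ΛM) 1),
    (CN * (Co + 1) + CS * (Co + 1) + CM * Co + CM / (((q : ℝ) - 1) / 100 + 1) ^ (-((1 : ℝ) / 4)) + 1)
      * Real.exp (2 * (((q : ℝ) + 3 + CM) / (1 - y₀ ^ 2))),
    lt_min (lt_min hΛo hΛN) (lt_min (lt_min hΛS hΛM) one_pos), by positivity, ?_⟩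
  intro t ht
  have hl1 : min (min Λo ΛN) (min (min ΛS ΛM) 1) ≤ Λo := (min_le_left _ _).trans (min_le_left _ _)
  have hl2 : min (min Λo ΛN) (min (min ΛS ΛM) 1) ≤ ΛN := (min_le_left _ _).trans (min_le_right _ _)
  have hl3 : min (min Λo ΛN) (min (min ΛS ΛM) 1) ≤ ΛS :=
    (min_le_right _ _).trans ((min_le_left _ _).trans (min_le_left _ _))
  have hl4 : min (min Λo ΛN) (min (min ΛS ΛM) 1) ≤ ΛM :=
    (min_le_right _ _).trans ((min_le_left _ _).trans (min_le_right _ _))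
  have hl5 : min (min Λo ΛN) (min (min ΛS ΛM) 1) ≤ 1 := (min_le_right _ _).trans (min_le_right _ _)
  have ht1 : t₁ ≤ t := (le_max_left _ _).trans ht.1
  have ht2 : -min (min Λo ΛN) (min (min ΛS ΛM) 1) ≤ t := (le_max_right _ _).trans ht.1
  have hto : t ∈ Ico (max t₁ (-Λo)) 0 := ⟨max_le ht1 (by linarith), ht.2⟩
  have htN : t ∈ Ico (max t₁ (-ΛN)) 0 := ⟨max_le ht1 (by linarith), ht.2⟩
  have htS : t ∈ Ico (max t₁ (-ΛS)) 0 := ⟨max_le ht1 (by linarith), ht.2⟩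
  have htM : t ∈ Ico (max t₁ (-ΛM)) 0 := ⟨max_le ht1 (by linarith), ht.2⟩
  have ht0 : t ∈ Ioo t₀ 0 := ⟨lt_of_lt_of_le h01 ht1, ht.2⟩
  have hsm : Sm (omF q g U) :=
    (cl_sm_all (q : ℝ) (by linarith) g hg.sm U hU).2.2.2.2.2.2.2.2.2.1
  exact cl_Pb_core (q : ℝ) (ell2 q t) y₀ Co CN CS CM _ hq
    (cl_Pb_ell2_pos q t (by linarith) ht.2) hy00 hy01 hCo hCN hCS hCM hv
    (sl (omF q g U) t) (gS q g U t) (cS q g U t) (fS q g U t)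
    (cl_sl_contDiff _ hsm t ht.2)
    (fun y hy => cl_Pb_v0_ge q t (by linarith) ht.2 (by linarith) y hy)
    (cl_P_ode q hq1 g hg.sm U hU t₀ hgf t ht0)
    (fun y hy => hom t hto y hy)
    (fun y hy => by
      obtain ⟨a1, -, a3, a4⟩ := hcN t htN y ⟨hy0N.trans hy.1, hy.2⟩
      exact ⟨a1, a3, a4⟩)
    (fun y hy => by
      obtain ⟨a1, -, a3, a4⟩ := hcS t htS y ⟨hy.1, hy.2.trans (by linarith)⟩
      exact ⟨a1, a3, a4⟩)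
    (fun y hy => (hcM t htM y hy).2)

/-- **the Ricci curvature is `O(ϱ^{-1/2})`**. -/
theorem cl_ric_bound (q : ℕ) (hq6 : 10 ^ 6 ≤ q) (g : Bg) (hg : BgGood q g) (hcl : BgCL q g) (U : Tri)
    (hU : ∀ j, Sm (U j)) (t₀ t₁ ε N : ℝ) (h01 : t₀ < t₁) (ht₁ : t₁ < 0) (hε0 : 0 ≤ ε) (hε : ε ≤ 1 / 1000) (hN : 0 ≤ N)
    (hgf : RedGF q t₀ 0 (mA q U) (mB q g U) (mC g U) (mW q g U)) (hpt : CLPt q U t₁ ε N) :
    ∃ Λ₃ C : ℝ, 0 < Λ₃ ∧ 0 ≤ C ∧ ∀ t ∈ Ico (max t₁ (-Λ₃)) 0, ∀ y ∈ Icc (-1 : ℝ) 1,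
      ricF q g U (t, y) ≤ C * (clV0 (ell2 q t) y) ^ 2 := by
  obtain ⟨Λa, Ca, hΛa, hCa, hom⟩ := cl_om_bound q hq6 g hg hcl U hU t₀ t₁ ε N h01 ht₁ hε0 hε hN hgf hpt
  obtain ⟨Λb, Cb, hΛb, hCb, hP⟩ := cl_P_bound q hq6 g hg hcl U hU t₀ t₁ ε N h01 ht₁ hε0 hε hN hgf hpt
  exact cl_gc_main q hq6 g hg U hU t₁ ε N hε0 hε hN hpt Λa Ca Λb Cb hΛa hCa hΛb hCb hom hP

end Claimed.Agent.R324.Core
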