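/-
Row 324 (S0582), PDE core, module CL (C1): Gronwall with an integrable coefficient (copy of R325/Core/CL/Gron.lean), and elementary rules for `𝕀`.
Architect: helper325.
-/
import Claimed.Agent.R324.Core.Defs

set_option autoImplicit false

namespace Claimed.Agent.R324.Core

open Set Filter Topology MeasureTheory
open scoped ContDiff

/-- **Gronwall.**   `Φ(t) = (E t + 1) exp (-K ∫_a^t d)` is non-increasing. -/
theorem cl_gronwall {a b : ℝ} (E E' d : ℝ → ℝ) (K M : ℝ) (hK : 0 ≤ K)
    (hEc : ContinuousOn E (Ico a b)) (hE : ∀ t ∈ Ioo a b, HasDerivAt E (E' t) t)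
    (hE0 : ∀ t ∈ Ico a b, 0 ≤ E t) (hd : ContinuousOn d (Ico a b))
    (hineq : ∀ t ∈ Ioo a b, E' t ≤ K * (E t + 1) * d t)
    (hint : ∀ t ∈ Ioo a b, ∫ s in a..t, d s ≤ M) :
    ∀ t ∈ Ioo a b, E t ≤ (E a + 1) * Real.exp (K * M) := by
  intro t ht
  have hat : a ≤ t := ht.1.le
  have hsub : Icc a t ⊆ Ico a b := fun s hs => ⟨hs.1, lt_of_le_of_lt hs.2 ht.2⟩
  have hsubo : Ioo a t ⊆ Ioo a b := fun s hs => ⟨hs.1, lt_trans hs.2 ht.2⟩
  set I : ℝ → ℝ := fun s => ∫ x in a..s, d x with hI
  set Φ : ℝ → ℝ := fun s => (E s + 1) * Real.exp (-(K * I s)) with hΦ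
  have hdI : ∀ s ∈ Icc a t, IntervalIntegrable d volume a s := by
    intro s hs
    apply ContinuousOn.intervalIntegrable
    rw [uIcc_of_le hs.1]
    exact hd.mono (fun y hy => hsub ⟨hy.1, hy.2.trans hs.2⟩)
  have hIc : ContinuousOn I (Icc a t) := by
    have h := intervalIntegral.continuousOn_primitive_interval (μ := volume) (f := d) (a := a) (b := t)
      (by
        rw [uIcc_of_le hat]
        exact (hd.mono hsub).integrableOn_Icc)
    rwa [uIcc_of_le hat] at h
  have hId : ∀ s ∈ Ioo a t, HasDerivAt I (d s) s := by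
    intro s hs
    have hsb : s ∈ Ioo a b := hsubo hs
    apply intervalIntegral.integral_hasDerivAt_right (hdI s ⟨hs.1.le, hs.2.le⟩)
    · exact (hd.mono Ioo_subset_Ico_self).stronglyMeasurableAtFilter isOpen_Ioo s hsb
    · exact hd.continuousAt (Ico_mem_nhds hsb.1 hsb.2)
  have hΦc : ContinuousOn Φ (Icc a t) := by
    apply ContinuousOn.mul
    · exact (hEc.mono hsub).add continuousOn_const
    · exact Real.continuous_exp.comp_continuousOn ((continuousOn_const.mul hIc).neg)
  have hΦd : ∀ s ∈ Ioo a t, HasDerivAt Φ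
      (E' s * Real.exp (-(K * I s)) + (E s + 1) * (Real.exp (-(K * I s)) * (-(K * d s)))) s := by
    intro s hs
    have h1 : HasDerivAt (fun s => E s + 1) (E' s) s := (hE s (hsubo hs)).add_const 1
    have h2 : HasDerivAt (fun s => -(K * I s)) (-(K * d s)) s := ((hId s hs).const_mul K).neg
    exact h1.mul h2.exp
  have hanti : AntitoneOn Φ (Icc a t) := by
    apply antitoneOn_of_deriv_nonpos (convex_Icc a t) hΦc
    · rw [interior_Icc]
      intro s hs
      exact (hΦd s hs).differentiableAt.differentiableWithinAt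
    · rw [interior_Icc]
      intro s hs
      rw [(hΦd s hs).deriv]
      have h := hineq s (hsubo hs)
      have hpos := Real.exp_pos (-(K * I s))
      have : E' s * Real.exp (-(K * I s)) + (E s + 1) * (Real.exp (-(K * I s)) * (-(K * d s)))
          = (E' s - K * (E s + 1) * d s) * Real.exp (-(K * I s)) := by ring
      rw [this]
      exact mul_nonpos_of_nonpos_of_nonneg (by linarith) hpos.le
  have hle : Φ t ≤ Φ a := hanti (left_mem_Icc.2 hat) (right_mem_Icc.2 hat) hat
  have hΦa : Φ a = E a + 1 := by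
    simp [hΦ, hI]
  have hEa : 0 ≤ E a := hE0 a ⟨le_refl a, lt_trans ht.1 ht.2⟩
  have hEt : 0 ≤ E t := hE0 t ⟨hat, ht.2⟩
  have hIt : I t ≤ M := hint t ht
  have hexp : Real.exp (K * I t) ≤ Real.exp (K * M) :=
    Real.exp_le_exp.2 (mul_le_mul_of_nonneg_left hIt hK)
  have hEq : E t + 1 = Φ t * Real.exp (K * I t) := by
    simp only [hΦ]
    rw [mul_assoc, ← Real.exp_add]
    simp
  calc E t ≤ E t + 1 := by linarith
    _ = Φ t * Real.exp (K * I t) := hEq
    _ ≤ (E a + 1) * Real.exp (K * I t) :=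
        mul_le_mul_of_nonneg_right (hΦa ▸ hle) (Real.exp_pos _).le
    _ ≤ (E a + 1) * Real.exp (K * M) :=
        mul_le_mul_of_nonneg_left hexp (by linarith)

/-! ### rules for `𝕀[f] = ∫_0^π f(cos ϑ) dϑ`  (only the values of `f` on `[-1,1]` matter) -/

/-- `ϑ ↦ f (cos ϑ)` is interval integrable.   (`ContinuousOn.comp` with `Real.continuous_cos`, `Real.cos_mem_Icc`; `ContinuousOn.intervalIntegrable`.) -/
theorem cl_II_integrable {f : ℝ → ℝ} (hf : ContinuousOn f (Icc (-1 : ℝ) 1)) :
    IntervalIntegrable (fun ϑ => f (Real.cos ϑ)) volume 0 Real.pi := by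
  apply ContinuousOn.intervalIntegrable
  exact hf.comp Real.continuous_cos.continuousOn (fun ϑ _ => Real.cos_mem_Icc ϑ)

/-- (`intervalIntegral.integral_mono_on`, `Real.pi_pos.le`.) -/
theorem cl_II_mono {f g : ℝ → ℝ} (hf : ContinuousOn f (Icc (-1 : ℝ) 1)) (hg : ContinuousOn g (Icc (-1 : ℝ) 1))
    (h : ∀ y ∈ Icc (-1 : ℝ) 1, f y ≤ g y) : II f ≤ II g := by
  exact intervalIntegral.integral_mono_on Real.pi_pos.le (cl_II_integrable hf) (cl_II_integrable hg)
    (fun ϑ _ => h _ (Real.cos_mem_Icc ϑ))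

theorem cl_II_nonneg {f : ℝ → ℝ} (h : ∀ y ∈ Icc (-1 : ℝ) 1, 0 ≤ f y) : 0 ≤ II f := by
  exact intervalIntegral.integral_nonneg Real.pi_pos.le (fun ϑ _ => h _ (Real.cos_mem_Icc ϑ))

theorem cl_II_add {f g : ℝ → ℝ} (hf : ContinuousOn f (Icc (-1 : ℝ) 1)) (hg : ContinuousOn g (Icc (-1 : ℝ) 1)) :
    II (fun y => f y + g y) = II f + II g := by
  exact intervalIntegral.integral_add (cl_II_integrable hf) (cl_II_integrable hg)

theorem cl_II_const_mul (c : ℝ) (f : ℝ → ℝ) : II (fun y => c * f y) = c * II f := by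
  exact intervalIntegral.integral_const_mul c _

theorem cl_II_congr {f g : ℝ → ℝ} (h : ∀ y ∈ Icc (-1 : ℝ) 1, f y = g y) : II f = II g := by
  exact intervalIntegral.integral_congr (fun ϑ _ => h _ (Real.cos_mem_Icc ϑ))

theorem cl_II_const (c : ℝ) : II (fun _ => c) = Real.pi * c := by
  unfold II
  rw [intervalIntegral.integral_const, sub_zero, smul_eq_mul]

/-- continuity in the parameter.   (At `t < 0` choose `[t-1, t/2]`; `F` is uniformly continuous/bounded on the compact `[t-1,t/2] × [-1,1]`;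
`intervalIntegral.continuousWithinAt_of_dominated_interval` / `continuousAt_of_dominated_interval` with the constant bound; or `continuous_parametric_intervalIntegral_of_continuous` after composing with a projection onto the compact.) -/
theorem cl_II_contOn {F : Fn} (hF : ContinuousOn F (Iio (0 : ℝ) ×ˢ Icc (-1 : ℝ) 1)) :
    ContinuousOn (fun t => II (sl F t)) (Iio 0) := by
  intro t0 ht0
  have ht0' : t0 < 0 := ht0
  apply ContinuousAt.continuousWithinAt
  have hH : Continuous (Function.uncurry (fun (t ϑ : ℝ) => F (min t (t0 / 2), Real.cos ϑ))) := by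
    have hmap : Continuous (fun p : ℝ × ℝ => ((min p.1 (t0 / 2), Real.cos p.2) : ℝ × ℝ)) :=
      (continuous_fst.min continuous_const).prodMk (Real.continuous_cos.comp continuous_snd)
    have := hF.comp_continuous hmap (fun p => by
      refine ⟨?_, Real.cos_mem_Icc _⟩
      show min p.1 (t0 / 2) < 0
      exact lt_of_le_of_lt (min_le_right _ _) (by linarith))
    exact this
  have hc := intervalIntegral.continuous_parametric_intervalIntegral_of_continuous' (μ := volume) hH 0 Real.pi
  refine hc.continuousAt.congr ?_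
  have hnb : Iio (t0 / 2) ∈ 𝓝 t0 := Iio_mem_nhds (by linarith)
  filter_upwards [hnb] with t ht
  have ht' : t < t0 / 2 := ht
  show (∫ ϑ in (0 : ℝ)..Real.pi, F (min t (t0 / 2), Real.cos ϑ)) = II (sl F t)
  rw [min_eq_left ht'.le]
  rfl

end Claimed.Agent.R324.Core
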