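/-
Row 324 (S0582), PDE core, module CL.   Architect: helper325 (+ helper762 for the source estimate).   Blueprint: origin/helper325:docs/R324_CL.md, section C1.

Definitions of the TIME LEVEL (C1).     `U¹ := dTT U = ∂_t U` solves   `∂_t U¹ = L̃ U¹ + S¹`   on `(t₀,0) × [-1,1]`,
      `S¹ = S1F q g U = [∂_t, L̃] U + ∂_t (NN U) - ∂_t Res`.
Weights of the time level:  `V₀' = wL 2 28 = Θ² V₀`,  `V₁' = wL 4 28 = Θ² V₁`   (fields `coerL0'`, `coerL1'` of `BgGood`).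
-/
import Claimed.Agent.R324.Core.CL.Defs
import Claimed.Agent.R324.Core.PR.SmR
import Claimed.Agent.R324.Core.LD0.Defs

set_option autoImplicit false

namespace Claimed.Agent.R324.Core

open Set Filter Topology MeasureTheory
open scoped ContDiff

noncomputable section

/-- the source of the equation of `∂_t U`. -/
def S1F (q : ℝ) (g : Bg) (U : Tri) : Tri := fun j p =>
  dT (Lt q g U j) p - Lt q g (dTT U) j p + dT (NN q g U j) p - dT (Res q g j) p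

/-- energies and dissipations of the time level. -/
def E0T (q Γ : ℝ) (U : Tri) (t : ℝ) : ℝ := En q (wL 2 28 q Γ t) (slT (dTT U) t)
def D0T (q Γ : ℝ) (U : Tri) (t : ℝ) : ℝ := Di q (wL 2 28 q Γ t) (slT (dTT U) t)
def E1T (q : ℝ) (g : Bg) (Γ : ℝ) (U : Tri) (t : ℝ) : ℝ := En q (wL 4 28 q Γ t) (slT (Lt q g (dTT U)) t)
def D1T (q : ℝ) (g : Bg) (Γ : ℝ) (U : Tri) (t : ℝ) : ℝ := Di q (wL 4 28 q Γ t) (slT (Lt q g (dTT U)) t)

/-- density of the forcing norm of the time level. -/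
def DYT (q Γ : ℝ) (S : Tri) (t : ℝ) : ℝ := Di q (wL 4 28 q Γ t) (slT S t)

/-- the sup bound `r̂⁷ (|u|² + |tt u|²) ≤ a² Θ^M` at time `t`. -/
def SupB (q : ℝ) (M : ℕ) (U : Tri) (t a : ℝ) : Prop :=
  ∀ y ∈ Icc (-1 : ℝ) 1,
    (rh2 q t y) ^ 3 * Real.sqrt (rh2 q t y) * (n2 q (slT U t) y + n2t q (slT U t) y) ≤ a ^ 2 * (Th t y) ^ M

/-- `Σ_{p ∈ PP(U)} p²`,  `PP(U) = (σ', h₃', b, X b')`. -/
def ppF (U : Tri) : Fn := fun p =>
  (dY (U 0) p) ^ 2 + (dY (U 1) p) ^ 2 + (U 2 p) ^ 2 + (Xf p.2 * dY (U 2) p) ^ 2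

theorem sm_S1F {q : ℝ} (hq : 1 < q) {g : Bg} (hg : BgSm g) {U : Tri} (hU : ∀ j, Sm (U j)) (j : Fin 3) :
    Sm (S1F q g U j) :=
  (((sm_Lt hq hg hU j).dT.sub (sm_Lt hq hg (sm_dTT hU) j)).add (sm_NN hq hg hU j).dT).sub (hg.smRes q j).dT

/-- hygiene. -/
theorem core_cltime_hygiene : True := by
  have := @S1F.eq_1
  have := @E0T.eq_1
  have := @D0T.eq_1
  have := @E1T.eq_1
  have := @D1T.eq_1
  have := @DYT.eq_1
  have := @SupB.eq_1
  have := @ppF.eq_1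
  trivial

end

end Claimed.Agent.R324.Core
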