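/-
Row 324 (S0582), PDE core, module CL, source estimate of the time level (architect of this part: helper762).      FILE SrcA:   𝕀[wL 4 M · aa(U)] ≤ C (D_{wL 2 M}(U) + D_{wL 4 M}(L̃ U))    for every M ≤ 52   (needed for M = 28).
   = PORT of Core/NL/Atoms.lean + Core/NL/AtomsB.lean (M = 30; both sorry-free) to a general exponent M.
   METHOD: copy the proofs and substitute   `V0 q Γ t ↦ wL 2 M q Γ t`,  `V1 q Γ t ↦ wL 4 M q Γ t`,   `D0 q Γ U t ↦ Di q (wL 2 M q Γ t) (slT U t)`,  `D1 q g Γ U t ↦ Di q (wL 4 M q Γ t) (slT (Lt q g U) t)`,  `nlDD .. ↦` their sum,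
        `w0_wL_add_two 2 30 ↦ w0_wL_add_two 2 M`,  `smS_wL 4 30 ↦ smS_wL 4 M`,  `w5_tbj_wL 4 30 ↦ w5_tbj_wL 4 M`  (c₁ = 2 (4 + M + 2) ≤ 116,  4 c₁ + 4 ≤ 468 ≤ q;   the hypothesis `(M+1) q (-t) ≤ 30` of `w5_tbj_wL`: choose Λ₀ ≤ 30/(53 q), or use `wctx_R` + `WCtx.t30`, Core/W/SupA.lean).
   The M-independent auxiliary lemmas of Core/NL/AtomsB.lean (`nlB_sum_sq_le, nlB_sum_A, nlB_tt2_sq, nlB_sum_abs_sq`) and `nl_ci_aa`, `nl_aa_nonneg` can be used directly.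
-/
import Claimed.Agent.R324.Core.NL.Atoms
import Claimed.Agent.R324.Core.W.Out

set_option autoImplicit false

namespace Claimed.Agent.R324.Core

open Set Filter Topology MeasureTheory
open scoped ContDiff

/-- part (1). -/
theorem cls_atoms_v (q : ℕ) (hq6 : 10 ^ 6 ≤ q) (g : Bg) (hg : BgGood q g) (Γ : ℝ) (hΓ : 0 ≤ Γ) (M : ℕ) (U : Tri)
    (hU : ∀ j, Sm (U j)) (t : ℝ) (ht : t < 0) :
    II (fun y => wL 4 M q Γ t y * ∑ j, ntS2 ((nlAt q g U t).v j) y) ≤ 2 * Di q (wL 4 M q Γ t) (slT (Lt q g U) t) := by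
  have hq6' : (10 : ℝ) ^ 6 ≤ (q : ℝ) := by exact_mod_cast hq6
  have hq1 : (1 : ℝ) < (q : ℝ) := by linarith
  have hq0 : (0 : ℝ) < (q : ℝ) := by linarith
  have hv : ∀ j, SmI (slT (Lt q g U) t j) := smI_slT (sm_Lt hq1 hg.sm hU) ht
  have hV : CI (wL 4 M q Γ t) := ((smS_wL 4 M q Γ).smI ht).continuousOn
  have c1 : CI (n2 q (slT (Lt q g U) t)) := ci_n2 hv
  have c2 : CI (n2t q (slT (Lt q g U) t)) := ci_n2t hv
  unfold Di
  rw [← ii_const_mul]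
  refine ii_mono (hV.mul (nl_ci_sum_v hq1 hg.sm hU ht)) (continuousOn_const.mul (hV.mul (c2.add (continuousOn_const.mul c1)))) ?_
  intro y hy
  have hV0 : 0 < wL 4 M q Γ t y := w0_wL_pos hq1 hΓ ht hy
  have hn : 0 ≤ n2 q (slT (Lt q g U) t) y := n2_nonneg hq0 _ _
  have key : ∑ j, ntS2 ((nlAt q g U t).v j) y
      ≤ 2 * (n2t q (slT (Lt q g U) t) y + n2 q (slT (Lt q g U) t) y) := by
    rw [n2_eq_nk, n2t_eq_nk]
    simp only [nk, Fin.sum_univ_three, ntS2, nlAt]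
    have k0 : (1 : ℝ) / 2 ≤ kapJ q 0 := by
      show (1 : ℝ) / 2 ≤ (q : ℝ) + 1
      linarith
    have k1 : (1 : ℝ) / 2 ≤ kapJ q 1 := by
      show (1 / 2 : ℝ) ≤ 2
      norm_num
    have k2 : (1 : ℝ) / 2 ≤ kapJ q 2 := by
      show (1 : ℝ) / 2 ≤ (q : ℝ) / ((q : ℝ) + 1)
      rw [div_le_div_iff₀ (by norm_num) (by linarith)]
      linarith
    have m : ∀ (κ x : ℝ), 1 / 2 ≤ κ → x ^ 2 ≤ 2 * (κ * x ^ 2) := by
      intro κ x hκ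
      nlinarith [sq_nonneg x]
    linarith [m _ (uV (slT (Lt q g U) t) 0 y) k0, m _ (uV (slT (Lt q g U) t) 1 y) k1, m _ (uV (slT (Lt q g U) t) 2 y) k2,
      m _ (tt (uV (slT (Lt q g U) t) 0) y) k0, m _ (tt (uV (slT (Lt q g U) t) 1) y) k1, m _ (tt (uV (slT (Lt q g U) t) 2) y) k2]
  have h2 : n2 q (slT (Lt q g U) t) y ≤ q * n2 q (slT (Lt q g U) t) y := by nlinarith
  calc wL 4 M q Γ t y * ∑ j, ntS2 ((nlAt q g U t).v j) y
      ≤ wL 4 M q Γ t y * (2 * (n2t q (slT (Lt q g U) t) y + q * n2 q (slT (Lt q g U) t) y)) :=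
        mul_le_mul_of_nonneg_left (by linarith) hV0.le
    _ = 2 * (wL 4 M q Γ t y * (n2t q (slT (Lt q g U) t) y + q * n2 q (slT (Lt q g U) t) y)) := by ring

/-- the pointwise bound (port of `nlB_point`). -/
theorem cls_A_point {q : ℝ} (hq : 100 ≤ q) {g : Bg} {Λ₀ C : ℝ} (hC : 1 ≤ C) (hc : CoefB q (bgR q g) Λ₀ C) {Γ : ℝ} (hΓ : 0 ≤ Γ)
    (M : ℕ) {U : Tri} (hU : ∀ j, Sm (U j)) {t : ℝ} (ht : t ∈ Ico (-Λ₀) 0) {y : ℝ} (hy : y ∈ Icc (-1 : ℝ) 1) :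
    wL 4 M q Γ t y * ((∑ k, ntS2 ((nlAt q g U t).A k) y) / (rh2 q t y) ^ 2) ≤
      60 * C ^ 4 * (wL 2 M q Γ t y * (n2t q (slT U t) y + q * n2 q (slT U t) y)
        + wL 4 M q Γ t y * (n2t q (slT (Lt q g U) t) y + q * n2 q (slT (Lt q g U) t) y)) := by
  have ht0 : t < 0 := ht.2
  have hq1 : 1 < q := by linarith
  have hq0 : 0 < q := by linarith
  have hr : 0 < rh2 q t y := w0_rh2_pos hq1 ht0 hy
  have hV0 : 0 < wL 2 M q Γ t y := w0_wL_pos hq1 hΓ ht0 hy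
  have hV : wL 4 M q Γ t y = (rh2 q t y) ^ 2 * wL 2 M q Γ t y := w0_wL_add_two 2 M q Γ t y
  have hX0 : 0 ≤ Xf y := by
    unfold Xf
    nlinarith [hy.1, hy.2]
  have hX : Xf y ≤ 4 / 3 * rh2 q t y := w0_Xf_le_rh2 hq1 ht0 hy
  have hX2 : Xf y ^ 2 ≤ 16 / 9 * (rh2 q t y) ^ 2 := by nlinarith
  set u : Fin 3 → ℝ := fun i => uV (slT U t) i y with hu
  set a : Fin 3 → ℝ := fun i => tt (uV (slT U t) i) y with ha
  set v : Fin 3 → ℝ := fun i => uV (slT (Lt q g U) t) i y with hv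
  have hT : ∀ i, (tt (tt (uV (slT U t) i)) y) ^ 2 ≤
      3 * C ^ 2 * (Xf y ^ 2 * (v i) ^ 2 + C ^ 2 * (a i) ^ 2 + C ^ 2 * (3 * ∑ j, (u j) ^ 2)) := by
    intro i
    have h1 := nlB_tt2_sq (w3_tt2 hc (by linarith) hU ht hy i)
    refine h1.trans ?_
    have h2 := nlB_sum_abs_sq u
    have h3 : 0 ≤ 3 * C ^ 2 * C ^ 2 := by positivity
    have e : Lop q (bgR q g) U = Lt q g U := rfl
    rw [e]
    nlinarith
  have hsu : ∑ i, (u i) ^ 2 ≤ 2 * n2 q (slT U t) y := by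
    rw [n2_eq_nk]
    exact nlB_sum_sq_le hq1.le u
  have hsa : ∑ i, (a i) ^ 2 ≤ 2 * n2t q (slT U t) y := by
    rw [n2t_eq_nk]
    exact nlB_sum_sq_le hq1.le a
  have hsv : ∑ i, (v i) ^ 2 ≤ 2 * n2 q (slT (Lt q g U) t) y := by
    rw [n2_eq_nk]
    exact nlB_sum_sq_le hq1.le v
  have hsu0 : 0 ≤ ∑ i, (u i) ^ 2 := Finset.sum_nonneg fun j _ => sq_nonneg _
  have hsa0 : 0 ≤ ∑ i, (a i) ^ 2 := Finset.sum_nonneg fun j _ => sq_nonneg _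
  have hsv0 : 0 ≤ ∑ i, (v i) ^ 2 := Finset.sum_nonneg fun j _ => sq_nonneg _
  have hnt := n2t_nonneg hq0 (slT (Lt q g U) t) y
  have hsum : ∑ k, ntS2 ((nlAt q g U t).A k) y ≤
      (1 + 27 * C ^ 4) * ∑ i, (u i) ^ 2 + (2 + 3 * C ^ 4) * ∑ i, (a i) ^ 2 + 3 * C ^ 2 * Xf y ^ 2 * ∑ i, (v i) ^ 2 := by
    rw [nlB_sum_A]
    calc ∑ i, ((uV (slT U t) i y) ^ 2 + 2 * (tt (uV (slT U t) i) y) ^ 2 + (tt (tt (uV (slT U t) i)) y) ^ 2)
        ≤ ∑ i, ((u i) ^ 2 + 2 * (a i) ^ 2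
          + 3 * C ^ 2 * (Xf y ^ 2 * (v i) ^ 2 + C ^ 2 * (a i) ^ 2 + C ^ 2 * (3 * ∑ j, (u j) ^ 2))) :=
          Finset.sum_le_sum fun i _ => by
            have := hT i
            simp only [hu, ha]
            linarith
      _ = _ := by
          simp only [Fin.sum_univ_three]
          ring
  have e1 : wL 4 M q Γ t y * ((∑ k, ntS2 ((nlAt q g U t).A k) y) / (rh2 q t y) ^ 2)
      = wL 2 M q Γ t y * ∑ k, ntS2 ((nlAt q g U t).A k) y := by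
    rw [hV]
    field_simp
  rw [e1]
  have hC2 : 1 ≤ C ^ 2 := one_le_pow₀ hC
  have hC4 : C ^ 2 ≤ C ^ 4 := by nlinarith
  have hn2 := n2_nonneg hq0 (slT U t) y
  have hn2t := n2t_nonneg hq0 (slT U t) y
  have hn2L := n2_nonneg hq0 (slT (Lt q g U) t) y
  -- the three pieces
  have p1 : (1 + 27 * C ^ 4) * ∑ i, (u i) ^ 2 ≤ 60 * C ^ 4 * (q * n2 q (slT U t) y) := by
    have h1 : (1 + 27 * C ^ 4) * ∑ i, (u i) ^ 2 ≤ (28 * C ^ 4) * (2 * n2 q (slT U t) y) :=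
      mul_le_mul (by linarith) hsu hsu0 (by positivity)
    have h2 : n2 q (slT U t) y ≤ q * n2 q (slT U t) y := by nlinarith
    have h3 : 0 ≤ C ^ 4 := by positivity
    nlinarith
  have p2 : (2 + 3 * C ^ 4) * ∑ i, (a i) ^ 2 ≤ 60 * C ^ 4 * n2t q (slT U t) y := by
    have h1 : (2 + 3 * C ^ 4) * ∑ i, (a i) ^ 2 ≤ (5 * C ^ 4) * (2 * n2t q (slT U t) y) :=
      mul_le_mul (by linarith) hsa hsa0 (by positivity)
    have h3 : 0 ≤ C ^ 4 := by positivity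
    nlinarith
  have p3 : 3 * C ^ 2 * Xf y ^ 2 * ∑ i, (v i) ^ 2 ≤
      60 * C ^ 4 * ((rh2 q t y) ^ 2 * (q * n2 q (slT (Lt q g U) t) y)) := by
    have h1 : 3 * C ^ 2 * Xf y ^ 2 * ∑ i, (v i) ^ 2 ≤
        (3 * C ^ 4 * (16 / 9 * (rh2 q t y) ^ 2)) * (2 * n2 q (slT (Lt q g U) t) y) :=
      mul_le_mul (mul_le_mul (by linarith) hX2 (sq_nonneg _) (by positivity)) hsv hsv0 (by positivity)
    have h2 : n2 q (slT (Lt q g U) t) y ≤ q * n2 q (slT (Lt q g U) t) y := by nlinarith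
    have h3 : 0 ≤ C ^ 4 * (rh2 q t y) ^ 2 := by positivity
    nlinarith
  have h4 : 0 ≤ 60 * C ^ 4 * ((rh2 q t y) ^ 2 * n2t q (slT (Lt q g U) t) y) := by positivity
  calc wL 2 M q Γ t y * ∑ k, ntS2 ((nlAt q g U t).A k) y
      ≤ wL 2 M q Γ t y * (60 * C ^ 4 * (q * n2 q (slT U t) y) + 60 * C ^ 4 * n2t q (slT U t) y
        + 60 * C ^ 4 * ((rh2 q t y) ^ 2 * (q * n2 q (slT (Lt q g U) t) y))
        + 60 * C ^ 4 * ((rh2 q t y) ^ 2 * n2t q (slT (Lt q g U) t) y)) :=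
        mul_le_mul_of_nonneg_left (by linarith) hV0.le
    _ = _ := by
        rw [hV]
        ring

/-- part (2). -/
theorem cls_atoms_A (q : ℕ) (hq6 : 10 ^ 6 ≤ q) (g : Bg) (hg : BgGood q g) (Γ : ℝ) (hΓ : 0 ≤ Γ) (M : ℕ) :
    ∃ C Λ₀ : ℝ, 0 ≤ C ∧ 0 < Λ₀ ∧ ∀ U : Tri, (∀ j, Sm (U j)) → ∀ t ∈ Ico (-Λ₀) 0,
      II (fun y => wL 4 M q Γ t y * ((∑ k, ntS2 ((nlAt q g U t).A k) y) / (rh2 q t y) ^ 2))
        ≤ C * (Di q (wL 2 M q Γ t) (slT U t) + Di q (wL 4 M q Γ t) (slT (Lt q g U) t)) := by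
  have hq : (100 : ℝ) ≤ q := by
    have : (10 ^ 6 : ℝ) ≤ q := by exact_mod_cast hq6
    linarith
  have hq1 : (1 : ℝ) < q := by linarith
  obtain ⟨Λ₀, C, hΛ, _, hC, hc⟩ := wc_coefB_R hq hg
  refine ⟨60 * C ^ 4, Λ₀, by positivity, hΛ, ?_⟩
  intro U hU t ht
  have ht0 : t < 0 := ht.2
  have hL : ∀ j, Sm (Lt q g U j) := sm_Lt hq1 hg.sm hU
  have hV0 : CI (wL 2 M q Γ t) := ((smS_wL 2 M q Γ).smI ht0).continuousOn
  have hV1 : CI (wL 4 M q Γ t) := ((smS_wL 4 M q Γ).smI ht0).continuousOn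
  have c0 : CI (fun y => wL 2 M q Γ t y * (n2t q (slT U t) y + q * n2 q (slT U t) y)) :=
    hV0.mul ((ci_n2t (smI_slT hU ht0)).add (continuousOn_const.mul (ci_n2 (smI_slT hU ht0))))
  have c1 : CI (fun y => wL 4 M q Γ t y * (n2t q (slT (Lt q g U) t) y + q * n2 q (slT (Lt q g U) t) y)) :=
    hV1.mul ((ci_n2t (smI_slT hL ht0)).add (continuousOn_const.mul (ci_n2 (smI_slT hL ht0))))
  have c2 : CI (fun y => wL 2 M q Γ t y * (n2t q (slT U t) y + q * n2 q (slT U t) y)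
      + wL 4 M q Γ t y * (n2t q (slT (Lt q g U) t) y + q * n2 q (slT (Lt q g U) t) y)) := c0.add c1
  have c3 : CI (fun y => 60 * C ^ 4 * (wL 2 M q Γ t y * (n2t q (slT U t) y + q * n2 q (slT U t) y)
      + wL 4 M q Γ t y * (n2t q (slT (Lt q g U) t) y + q * n2 q (slT (Lt q g U) t) y))) := continuousOn_const.mul c2
  have c4 : CI (fun y => wL 4 M q Γ t y * ((∑ k, ntS2 ((nlAt q g U t).A k) y) / (rh2 q t y) ^ 2)) :=
    hV1.mul (nl_ci_sum_A hq1 g hU ht0)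
  refine (ii_mono c4 c3 (fun y hy => cls_A_point hq hC hc hΓ M hU ht hy)).trans (le_of_eq ?_)
  rw [ii_const_mul, ii_add c0 c1]
  rfl

/-- part (3). -/
theorem cls_atoms_p (q : ℕ) (hq6 : 10 ^ 6 ≤ q) (g : Bg) (hg : BgGood q g) (Γ : ℝ) (hΓ : 0 ≤ Γ) (M : ℕ) (hM : M ≤ 52) :
    ∃ C Λ₀ : ℝ, 0 ≤ C ∧ 0 < Λ₀ ∧ ∀ U : Tri, (∀ j, Sm (U j)) → ∀ t ∈ Ico (-Λ₀) 0,
      II (fun y => wL 4 M q Γ t y * ∑ l, ntS2 ((nlAt q g U t).p l) y)
        ≤ C * (Di q (wL 2 M q Γ t) (slT U t) + Di q (wL 4 M q Γ t) (slT (Lt q g U) t)) := by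
  have hqR : (10 ^ 6 : ℝ) ≤ (q : ℝ) := by exact_mod_cast hq6
  have hq : (100 : ℝ) ≤ (q : ℝ) := by linarith
  have hq1 : (1 : ℝ) < (q : ℝ) := by linarith
  have hq0 : (0 : ℝ) < (q : ℝ) := by linarith
  have hMR : (M : ℝ) ≤ 52 := by exact_mod_cast hM
  have hM0 : (0 : ℝ) ≤ (M : ℝ) := Nat.cast_nonneg M
  obtain ⟨Λ₁, C₁, hΛ₁, hΛ₁q, hC₁, hc⟩ := wc_coefB_R hq hg
  obtain ⟨CV, _, hT⟩ := w5_tbj_wL 4 M
  obtain ⟨C0, _, hT0⟩ := w0_tb_wL 2 M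
  obtain ⟨K, hK, hEL⟩ := w5_EL hq (bgR_sm hq1 hg.sm) (by linarith : (0 : ℝ) < C₁) hc hΛ₁q CV
    (2 * (((4 : ℕ) : ℝ) + (M : ℝ) + 2))
  refine ⟨K, min Λ₁ (30 / (53 * q)), hK, lt_min hΛ₁ (by positivity), fun U hU t ht => ?_⟩
  have ht0 : t < 0 := ht.2
  have ht1 : t ∈ Ico (-Λ₁) 0 :=
    ⟨by have := min_le_left Λ₁ (30 / (53 * (q : ℝ))); linarith [ht.1], ht0⟩
  have ht2 : -t ≤ 30 / (53 * (q : ℝ)) := by
    have := min_le_right Λ₁ (30 / (53 * (q : ℝ))); linarith [ht.1]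
  have ht3 : ((M : ℝ) + 1) * q * (-t) ≤ 30 := by
    rw [le_div_iff₀ (by positivity)] at ht2
    have hqt : 0 ≤ (q : ℝ) * (-t) := mul_nonneg hq0.le (by linarith)
    nlinarith
  have hV := hT q Γ t hq hΓ ht0 ht3
  have hV0 := hT0 q Γ t hq1 hΓ ht0
  have hk : 4 * (2 * (((4 : ℕ) : ℝ) + (M : ℝ) + 2)) + 4 + 2 * ((0 : ℕ) : ℝ) ≤ (q : ℝ) := by
    push_cast; linarith
  have h1 := hEL t ht1 _ hV 0 hk U hU
  have hu : ∀ j, SmI (slT U t j) := smI_slT hU ht0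
  have hv : ∀ j, SmI (slT (Lt q g U) t j) := smI_slT (sm_Lt hq1 hg.sm hU) ht0
  have cV1 : CI (wL 4 M q Γ t) := hV.tb.sm.continuousOn
  have cV0 : CI (wL 2 M q Γ t) := hV0.sm.continuousOn
  have hL : II (fun y => wL 4 M q Γ t y * ∑ l, ntS2 ((nlAt q g U t).p l) y)
      = II (fun y => Xf y ^ 0 * wL 4 M q Γ t y * ppJ (slT U t) y) :=
    ii_congr fun y _ => by
      rw [pow_zero, one_mul]
      rfl
  have hA : II (fun y => Xf y ^ 0 * wL 4 M q Γ t y * n2 q (slT (Lop q (bgR q g) U) t) y)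
      ≤ Di q (wL 4 M q Γ t) (slT (Lt q g U) t) := by
    have e : II (fun y => Xf y ^ 0 * wL 4 M q Γ t y * n2 q (slT (Lop q (bgR q g) U) t) y)
        = II (fun y => wL 4 M q Γ t y * n2 q (slT (Lt q g U) t) y) :=
      ii_congr fun y _ => by
        rw [pow_zero, one_mul]
        rfl
    rw [e]
    show _ ≤ II (fun y => wL 4 M q Γ t y * (n2t q (slT (Lt q g U) t) y + q * n2 q (slT (Lt q g U) t) y))
    refine ii_mono (cV1.mul (ci_n2 hv)) (cV1.mul ((ci_n2t hv).add (continuousOn_const.mul (ci_n2 hv))))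
      fun y hy => ?_
    have a1 := n2_nonneg hq0 (slT (Lt q g U) t) y
    have a2 := n2t_nonneg hq0 (slT (Lt q g U) t) y
    refine mul_le_mul_of_nonneg_left ?_ (hV.tb.pos y hy).le
    nlinarith
  have hB : II (fun y => Xf y ^ 0 * wL 4 M q Γ t y / (rh2 q t y) ^ 2
        * (n2t q (slT U t) y + n2 q (slT U t) y)) ≤ Di q (wL 2 M q Γ t) (slT U t) := by
    have e : II (fun y => Xf y ^ 0 * wL 4 M q Γ t y / (rh2 q t y) ^ 2
          * (n2t q (slT U t) y + n2 q (slT U t) y))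
        = II (fun y => wL 2 M q Γ t y * (n2t q (slT U t) y + n2 q (slT U t) y)) :=
      ii_congr fun y hy => by
        have hr := w0_rh2_pos hq1 ht0 hy
        rw [pow_zero, one_mul, w0_wL_add_two 2 M q Γ t y, mul_div_cancel_left₀ _ (pow_pos hr 2).ne']
    rw [e]
    show _ ≤ II (fun y => wL 2 M q Γ t y * (n2t q (slT U t) y + q * n2 q (slT U t) y))
    refine ii_mono (cV0.mul ((ci_n2t hu).add (ci_n2 hu)))
      (cV0.mul ((ci_n2t hu).add (continuousOn_const.mul (ci_n2 hu)))) fun y hy => ?_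
    have a1 := n2_nonneg hq0 (slT U t) y
    refine mul_le_mul_of_nonneg_left ?_ (hV0.pos y hy).le
    nlinarith
  rw [hL]
  refine h1.trans (mul_le_mul_of_nonneg_left ?_ hK)
  unfold elR
  linarith

/-- **the atoms are controlled by the dissipation**, general `M`. -/
theorem cls_atoms (q : ℕ) (hq6 : 10 ^ 6 ≤ q) (g : Bg) (hg : BgGood q g) (Γ : ℝ) (hΓ : 0 ≤ Γ) (M : ℕ) (hM : M ≤ 52) :
    ∃ C Λ₀ : ℝ, 0 ≤ C ∧ 0 < Λ₀ ∧ ∀ U : Tri, (∀ j, Sm (U j)) → ∀ t ∈ Ico (-Λ₀) 0,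
      II (fun y => wL 4 M q Γ t y * nlAa q g U (t, y))
        ≤ C * (Di q (wL 2 M q Γ t) (slT U t) + Di q (wL 4 M q Γ t) (slT (Lt q g U) t)) := by
  have hq6' : (10 : ℝ) ^ 6 ≤ (q : ℝ) := by exact_mod_cast hq6
  have hq1 : (1 : ℝ) < (q : ℝ) := by linarith
  have hq0 : (0 : ℝ) < (q : ℝ) := by linarith
  obtain ⟨C₂, Λ₂, hC₂, hΛ₂, h2⟩ := cls_atoms_A q hq6 g hg Γ hΓ M
  obtain ⟨C₃, Λ₃, hC₃, hΛ₃, h3⟩ := cls_atoms_p q hq6 g hg Γ hΓ M hM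
  refine ⟨2 + C₂ + C₃, min Λ₂ Λ₃, by positivity, lt_min hΛ₂ hΛ₃, ?_⟩
  intro U hU t ht
  have ht0 : t < 0 := ht.2
  have ht2 : t ∈ Ico (-Λ₂) 0 := ⟨by have := min_le_left Λ₂ Λ₃; linarith [ht.1], ht0⟩
  have ht3 : t ∈ Ico (-Λ₃) 0 := ⟨by have := min_le_right Λ₂ Λ₃; linarith [ht.1], ht0⟩
  have hV : CI (wL 4 M q Γ t) := ((smS_wL 4 M q Γ).smI ht0).continuousOn
  have cv : CI (fun y => wL 4 M q Γ t y * ∑ j, ntS2 ((nlAt q g U t).v j) y) :=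
    hV.mul (nl_ci_sum_v hq1 hg.sm hU ht0)
  have cA : CI (fun y => wL 4 M q Γ t y * ((∑ k, ntS2 ((nlAt q g U t).A k) y) / (rh2 q t y) ^ 2)) :=
    hV.mul (nl_ci_sum_A hq1 g hU ht0)
  have cp : CI (fun y => wL 4 M q Γ t y * ∑ l, ntS2 ((nlAt q g U t).p l) y) :=
    hV.mul (nl_ci_sum_p q g hU ht0)
  have e : II (fun y => wL 4 M q Γ t y * nlAa q g U (t, y))
      = II (fun y => wL 4 M q Γ t y * ∑ j, ntS2 ((nlAt q g U t).v j) y)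
        + II (fun y => wL 4 M q Γ t y * ((∑ k, ntS2 ((nlAt q g U t).A k) y) / (rh2 q t y) ^ 2))
        + II (fun y => wL 4 M q Γ t y * ∑ l, ntS2 ((nlAt q g U t).p l) y) := by
    have cvA : CI (fun y => wL 4 M q Γ t y * ∑ j, ntS2 ((nlAt q g U t).v j) y
        + wL 4 M q Γ t y * ((∑ k, ntS2 ((nlAt q g U t).A k) y) / (rh2 q t y) ^ 2)) := cv.add cA
    rw [← ii_add cv cA, ← ii_add cvA cp]
    refine ii_congr fun y _ => ?_
    simp only [nlAa, ntAa]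
    ring
  have h1 := cls_atoms_v q hq6 g hg Γ hΓ M U hU t ht0
  have h2' := h2 U hU t ht2
  have h3' := h3 U hU t ht3
  have hD0 : 0 ≤ Di q (wL 2 M q Γ t) (slT U t) := by
    unfold Di
    refine ii_nonneg fun y hy => ?_
    have hV0 : 0 < wL 2 M q Γ t y := w0_wL_pos hq1 hΓ ht0 hy
    have a1 := n2_nonneg hq0 (slT U t) y
    have a2 := n2t_nonneg hq0 (slT U t) y
    positivity
  rw [e]
  nlinarith

end Claimed.Agent.R324.Core
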