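/-
Row 324 (S0582), PDE core, module CL.   Subtask 9542 (helper892):  (N-R) for the residual and its time derivative, directly from `BgGood.res`.
-/
import Claimed.Agent.R324.Core.CL.TimeDefs
import Claimed.Agent.R324.Bohm.Alpha

set_option autoImplicit false

namespace Claimed.Agent.R324.Core

open Set Filter Topology MeasureTheory
open scoped ContDiff

/-- `0 ≤ X̃` on `[-1,1]`. -/
theorem nres_Xt_nonneg {y : ℝ} (h1 : -1 ≤ y) (h2 : y ≤ 1) : 0 ≤ Xt y := by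
  have hs0 := Real.smoothTransition.nonneg (2 * y)
  have hs1 := Real.smoothTransition.le_one (2 * y)
  have key : -1 ≤ sgY y ∧ sgY y ≤ 1 := by
    unfold sgY
    constructor <;> nlinarith
  unfold Xt
  nlinarith [key.1, key.2]

/-- `𝕀[f] ≤ π K` if `f ≤ K` on `[-1,1]` (no integrability needed). -/
theorem nres_II_le {f : ℝ → ℝ} {K : ℝ} (hK : 0 ≤ K) (h : ∀ y ∈ Icc (-1 : ℝ) 1, f y ≤ K) :
    II f ≤ Real.pi * K := by
  unfold II
  by_cases hi : IntervalIntegrable (fun ϑ => f (Real.cos ϑ)) volume 0 Real.pi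
  · have h1 : (∫ ϑ in (0 : ℝ)..Real.pi, f (Real.cos ϑ)) ≤ ∫ _ϑ in (0 : ℝ)..Real.pi, K :=
      intervalIntegral.integral_mono_on Real.pi_pos.le hi intervalIntegrable_const
        (fun ϑ _ => h _ ⟨Real.neg_one_le_cos ϑ, Real.cos_le_one ϑ⟩)
    simpa using h1
  · rw [intervalIntegral.integral_undef hi]
    exact mul_nonneg Real.pi_pos.le hK

/-- the algebra of the weights:  `W ≤ (1+Γ) r⁴/θ^M`, `b ≤ (C J²/θ^k)²`, `J = θ⁸ r^{-α/2}`, `M + 2k = 32`. -/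
theorem nres_alg {r θ α Γ C W : ℝ} (hr : 0 < r) (hθ : 0 < θ) (hΓ : 0 ≤ Γ) (M k : ℕ) (hMk : M + 2 * k = 32)
    (hW0 : 0 ≤ W) (hW : W ≤ (1 + Γ) * (r ^ 4 / θ ^ M)) :
    W * (C * (θ ^ 8 * r ^ (-α / 2)) ^ 2 / θ ^ k) ^ 2 ≤ (1 + Γ) * C ^ 2 * r ^ (4 - 2 * α) := by
  have h1 : (r ^ (-α / 2)) ^ 4 = r ^ (-(2 * α)) := by
    rw [← Real.rpow_natCast, ← Real.rpow_mul hr.le]
    congr 1
    push_cast
    ring
  have h2 : r ^ (4 - 2 * α) = r ^ 4 * r ^ (-(2 * α)) := by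
    rw [sub_eq_add_neg, Real.rpow_add hr]
    congr 1
    exact_mod_cast Real.rpow_natCast r 4
  have h3 : (C * (θ ^ 8 * r ^ (-α / 2)) ^ 2 / θ ^ k) ^ 2 = C ^ 2 * r ^ (-(2 * α)) * (θ ^ 32 / θ ^ (2 * k)) := by
    rw [← h1]
    have : θ ^ (2 * k) = (θ ^ k) ^ 2 := by rw [mul_comm, pow_mul]
    rw [this]
    field_simp
  have h4 : θ ^ 32 / θ ^ (2 * k) = θ ^ M := by
    rw [← hMk, pow_add]
    field_simp
  have hp : 0 ≤ r ^ (-(2 * α)) := (Real.rpow_pos_of_pos hr _).le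
  rw [h3, h4, h2]
  calc W * (C ^ 2 * r ^ (-(2 * α)) * θ ^ M)
      ≤ ((1 + Γ) * (r ^ 4 / θ ^ M)) * (C ^ 2 * r ^ (-(2 * α)) * θ ^ M) :=
        mul_le_mul_of_nonneg_right hW (by positivity)
    _ = (1 + Γ) * C ^ 2 * (r ^ 4 * r ^ (-(2 * α))) := by
        field_simp

/-- upper bound of the light weights. -/
theorem nres_wL {q Γ t y : ℝ} (a M : ℕ) (hΓ : 0 ≤ Γ) (ht : t < 0) (hr : 0 < rh2 q t y) (hX : 0 ≤ Xt y) :
    0 ≤ wL a M q Γ t y ∧ wL a M q Γ t y ≤ (1 + Γ) * ((rh2 q t y) ^ a / (Th t y) ^ M) := by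
  have hθ : 0 < Th t y := by unfold Th; linarith
  have hn : 0 ≤ (1 + Γ) * (-t) + Xt y := by
    have : 0 ≤ (1 + Γ) * (-t) := mul_nonneg (by linarith) (by linarith)
    linarith
  have hle : (1 + Γ) * (-t) + Xt y ≤ (1 + Γ) * Th t y := by
    unfold Th
    nlinarith
  constructor
  · unfold wL
    positivity
  · unfold wL
    rw [pow_succ, div_le_iff₀ (by positivity)]
    calc (rh2 q t y) ^ a * ((1 + Γ) * (-t) + Xt y)
        ≤ (rh2 q t y) ^ a * ((1 + Γ) * Th t y) := mul_le_mul_of_nonneg_left hle (by positivity)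
      _ = (1 + Γ) * ((rh2 q t y) ^ a / (Th t y) ^ M) * ((Th t y) ^ M * Th t y) := by
        field_simp

/-- `r̂^{2(4-2α)} ≤ c Λ^{-1/2}`. -/
theorem nres_rh2 {q : ℝ} (hq : 10 ^ 6 ≤ q) {t y : ℝ} (ht : t < 0) (ht1 : -1 ≤ t) (hX : 0 ≤ Xt y) :
    0 < rh2 q t y ∧
      (rh2 q t y) ^ (4 - 2 * alF q) ≤ ((q - 1) / 100) ^ (4 - 2 * alF q) / Real.sqrt (-t) := by
  have hq100 : (100 : ℝ) ≤ q := by linarith
  obtain ⟨ha2, ha3⟩ := bAl_bounds hq100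
  have hroot := bAl_root hq100
  have hΛ : 0 < -t := by linarith
  have hc : 0 < (q - 1) / 100 := by
    have : (0 : ℝ) < q - 1 := by linarith
    positivity
  have hl : 0 < lam2 q t := by unfold lam2; exact Real.rpow_pos_of_pos hΛ _
  have hell : 0 < ell2 q t := by unfold ell2; exact mul_pos hc hl
  have hr : 0 < rh2 q t y := by unfold rh2; linarith
  refine ⟨hr, ?_⟩
  have hα : alF q = bAl q := rfl
  rw [hα]
  set α := bAl q with hαdef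
  have he : 4 - 2 * α ≤ 0 := by linarith
  have hsmall : 64 * (α - 2) ≤ α := by
    have h1 : (q + 1) * (α - 2) = α ^ 2 := by linarith
    have h2 : α ^ 2 < 9 := by nlinarith
    have h3 : (10 ^ 6 : ℝ) * (α - 2) ≤ (q + 1) * (α - 2) :=
      mul_le_mul_of_nonneg_right (by linarith) (by linarith)
    nlinarith
  have h1 : (rh2 q t y) ^ (4 - 2 * α) ≤ (ell2 q t) ^ (4 - 2 * α) :=
    Real.rpow_le_rpow_of_nonpos hell (by unfold rh2; linarith) he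
  have h2 : (ell2 q t) ^ (4 - 2 * α) = ((q - 1) / 100) ^ (4 - 2 * α) * (-t) ^ (2 * (8 / α) * (4 - 2 * α)) := by
    unfold ell2 lam2 gaF
    rw [Real.mul_rpow hc.le (Real.rpow_nonneg hΛ.le _), ← Real.rpow_mul hΛ.le]
  have hexp : -(1 / 2 : ℝ) ≤ 2 * (8 / α) * (4 - 2 * α) := by
    have hαpos : 0 < α := by linarith
    have : 2 * (8 / α) * (4 - 2 * α) = -(32 * (α - 2) / α) := by
      field_simp
      ring
    rw [this, neg_le_neg_iff, div_le_iff₀ hαpos]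
    linarith
  have h3 : (-t) ^ (2 * (8 / α) * (4 - 2 * α)) ≤ (-t) ^ (-(1 / 2 : ℝ)) :=
    Real.rpow_le_rpow_of_exponent_ge hΛ (by linarith) hexp
  have h4 : (-t) ^ (-(1 / 2 : ℝ)) = 1 / Real.sqrt (-t) := by
    rw [Real.rpow_neg hΛ.le, Real.sqrt_eq_rpow, one_div, one_div]
  calc (rh2 q t y) ^ (4 - 2 * α) ≤ (ell2 q t) ^ (4 - 2 * α) := h1
    _ = ((q - 1) / 100) ^ (4 - 2 * α) * (-t) ^ (2 * (8 / α) * (4 - 2 * α)) := h2
    _ ≤ ((q - 1) / 100) ^ (4 - 2 * α) * (1 / Real.sqrt (-t)) := by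
        rw [← h4]
        exact mul_le_mul_of_nonneg_left h3 (Real.rpow_nonneg hc.le _)
    _ = ((q - 1) / 100) ^ (4 - 2 * α) / Real.sqrt (-t) := by ring

/-- the quadratic forms are bounded by the sup of the six entries. -/
theorem nres_quad {q b : ℝ} (hq : 1 ≤ q) (u : Fin 3 → ℝ → ℝ) (y : ℝ)
    (h0 : (u 0 y) ^ 2 ≤ b) (h1 : (u 1 y) ^ 2 ≤ b) (h2 : ((1 - y ^ 2) * u 2 y) ^ 2 ≤ b)
    (k0 : (tt (u 0) y) ^ 2 ≤ b) (k1 : (tt (u 1) y) ^ 2 ≤ b)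
    (k2 : (tt (fun z => (1 - z ^ 2) * u 2 z) y) ^ 2 ≤ b) :
    n2t q u y + q * n2 q u y ≤ (1 + q) * (q + 4) * b := by
  have hb : 0 ≤ b := le_trans (sq_nonneg _) h0
  have hf : q / (q + 1) ≤ 1 := by
    rw [div_le_one (by linarith)]
    linarith
  have hf0 : 0 ≤ q / (q + 1) := by positivity
  have A : n2 q u y ≤ (q + 4) * b := by
    unfold n2
    have e0 : (q + 1) * (u 0 y) ^ 2 ≤ (q + 1) * b := mul_le_mul_of_nonneg_left h0 (by linarith)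
    have e2 : q / (q + 1) * ((1 - y ^ 2) * u 2 y) ^ 2 ≤ 1 * b :=
      mul_le_mul hf h2 (sq_nonneg _) (by norm_num)
    linarith
  have B : n2t q u y ≤ (q + 4) * b := by
    unfold n2t
    have e0 : (q + 1) * (tt (u 0) y) ^ 2 ≤ (q + 1) * b := mul_le_mul_of_nonneg_left k0 (by linarith)
    have e2 : q / (q + 1) * (tt (fun z => (1 - z ^ 2) * u 2 z) y) ^ 2 ≤ 1 * b :=
      mul_le_mul hf k2 (sq_nonneg _) (by norm_num)
    linarith
  have C : q * n2 q u y ≤ q * ((q + 4) * b) := mul_le_mul_of_nonneg_left A (by linarith)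
  nlinarith

/-- one level. -/
theorem nres_level {q : ℝ} (hq : 10 ^ 6 ≤ q) {Γ : ℝ} (hΓ : 0 ≤ Γ) (M k : ℕ) (hMk : M + 2 * k = 32) {C : ℝ}
    {t : ℝ} (ht : t < 0) (ht1 : -1 ≤ t) (u : Fin 3 → ℝ → ℝ)
    (hu : ∀ y ∈ Icc (-1 : ℝ) 1,
      (|u 0 y| ≤ C * (JJ q t y) ^ 2 / (Th t y) ^ k ∧ |u 1 y| ≤ C * (JJ q t y) ^ 2 / (Th t y) ^ k ∧
        |(1 - y ^ 2) * u 2 y| ≤ C * (JJ q t y) ^ 2 / (Th t y) ^ k) ∧
      (|tt (u 0) y| ≤ C * (JJ q t y) ^ 2 / (Th t y) ^ k ∧ |tt (u 1) y| ≤ C * (JJ q t y) ^ 2 / (Th t y) ^ k ∧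
        |tt (fun z => (1 - z ^ 2) * u 2 z) y| ≤ C * (JJ q t y) ^ 2 / (Th t y) ^ k)) :
    Di q (wL 4 M q Γ t) u ≤
      (Real.pi * ((1 + q) * (q + 4) * ((1 + Γ) * C ^ 2 * ((q - 1) / 100) ^ (4 - 2 * alF q)))) / Real.sqrt (-t) := by
  have hq1 : (1 : ℝ) ≤ q := by linarith
  have hc : 0 < (q - 1) / 100 := by
    have : (0 : ℝ) < q - 1 := by linarith
    positivity
  have hs : 0 < Real.sqrt (-t) := Real.sqrt_pos.2 (by linarith)
  have hcp : 0 ≤ ((q - 1) / 100) ^ (4 - 2 * alF q) := Real.rpow_nonneg hc.le _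
  unfold Di
  have hK : 0 ≤ (1 + q) * (q + 4) * ((1 + Γ) * C ^ 2 * ((q - 1) / 100) ^ (4 - 2 * alF q)) / Real.sqrt (-t) := by
    positivity
  refine le_trans (nres_II_le hK ?_) (le_of_eq (by ring))
  intro y hy
  have hX := nres_Xt_nonneg hy.1 hy.2
  obtain ⟨hr, hrb⟩ := nres_rh2 hq ht ht1 hX
  have hθ : 0 < Th t y := by unfold Th; linarith
  obtain ⟨hW0, hW⟩ := nres_wL (q := q) 4 M hΓ ht hr hX
  obtain ⟨⟨a0, a1, a2⟩, b0, b1, b2⟩ := hu y hy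
  set b := (C * (JJ q t y) ^ 2 / (Th t y) ^ k) ^ 2 with hb
  have sq : ∀ x : ℝ, |x| ≤ C * (JJ q t y) ^ 2 / (Th t y) ^ k → x ^ 2 ≤ b := by
    intro x hx
    rw [hb, ← sq_abs x]
    exact pow_le_pow_left₀ (abs_nonneg x) hx 2
  have hquad := nres_quad hq1 u y (sq _ a0) (sq _ a1) (sq _ a2) (sq _ b0) (sq _ b1) (sq _ b2)
  have halg : wL 4 M q Γ t y * b ≤ (1 + Γ) * C ^ 2 * (rh2 q t y) ^ (4 - 2 * alF q) := by
    rw [hb]
    unfold JJ
    exact nres_alg hr hθ hΓ M k hMk hW0 hW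
  calc wL 4 M q Γ t y * (n2t q u y + q * n2 q u y)
      ≤ wL 4 M q Γ t y * ((1 + q) * (q + 4) * b) := mul_le_mul_of_nonneg_left hquad hW0
    _ = (1 + q) * (q + 4) * (wL 4 M q Γ t y * b) := by ring
    _ ≤ (1 + q) * (q + 4) * ((1 + Γ) * C ^ 2 * (rh2 q t y) ^ (4 - 2 * alF q)) :=
        mul_le_mul_of_nonneg_left halg (by positivity)
    _ ≤ (1 + q) * (q + 4) * ((1 + Γ) * C ^ 2 * (((q - 1) / 100) ^ (4 - 2 * alF q) / Real.sqrt (-t))) := by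
        apply mul_le_mul_of_nonneg_left _ (by positivity)
        exact mul_le_mul_of_nonneg_left hrb (by positivity)
    _ = (1 + q) * (q + 4) * ((1 + Γ) * C ^ 2 * ((q - 1) / 100) ^ (4 - 2 * alF q)) / Real.sqrt (-t) := by ring

/-- **(N-R)** for the residual and its time derivative. -/
theorem cl_need_res_aux (q : ℕ) (hq6 : 10 ^ 6 ≤ q) (g : Bg) (hg : BgGood q g) (Γ : ℝ) (hΓ : 0 ≤ Γ) :
    ∃ C Λ₀ : ℝ, 0 ≤ C ∧ 0 < Λ₀ ∧ ∀ t ∈ Ico (-Λ₀) 0,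
      DY q Γ (Res q g) t ≤ C / Real.sqrt (-t) ∧ DYT q Γ (dTT (Res q g)) t ≤ C / Real.sqrt (-t) := by
  have hq : (10 ^ 6 : ℝ) ≤ (q : ℝ) := by exact_mod_cast hq6
  obtain ⟨Λ₁, C, hΛ₁, hres⟩ := hg.res
  have hc : 0 < ((q : ℝ) - 1) / 100 := by
    have : (0 : ℝ) < (q : ℝ) - 1 := by linarith
    positivity
  have hcp : 0 ≤ (((q : ℝ) - 1) / 100) ^ (4 - 2 * alF q) := Real.rpow_nonneg hc.le _
  refine ⟨Real.pi * ((1 + (q : ℝ)) * ((q : ℝ) + 4) * ((1 + Γ) * C ^ 2 * (((q : ℝ) - 1) / 100) ^ (4 - 2 * alF q))),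
    min Λ₁ 1, by positivity, lt_min hΛ₁ one_pos, ?_⟩
  intro t ht
  have ht0 : t < 0 := ht.2
  have htΛ : t ∈ Ico (-Λ₁) 0 := ⟨by linarith [ht.1, min_le_left Λ₁ 1], ht.2⟩
  have ht1 : -1 ≤ t := by linarith [ht.1, min_le_right Λ₁ 1]
  constructor
  · unfold DY V1
    refine nres_level hq hΓ 30 1 (by norm_num) ht0 ht1 _ ?_
    intro y hy
    have A := hres t htΛ y hy 0 (by norm_num) 0 (by norm_num)
    have B := hres t htΛ y hy 0 (by norm_num) 1 (by norm_num)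
    exact ⟨A, B⟩
  · unfold DYT
    refine nres_level hq hΓ 28 2 (by norm_num) ht0 ht1 _ ?_
    intro y hy
    have A := hres t htΛ y hy 1 (by norm_num) 0 (by norm_num)
    have B := hres t htΛ y hy 1 (by norm_num) 1 (by norm_num)
    exact ⟨A, B⟩

end Claimed.Agent.R324.Core
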