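/-
Row 324 (S0582), PDE core, module CL (C1): elementary facts on the weights, on the closed strip `t < 0`, `y ∈ [-1,1]`.       Architect: helper325.
`Λ = -t`,  `X = Xf y = 1 - y²`,  `X̃ = Xt y`,  `ℓ² = ell2 q t = (q-1)/100 Λ^{2γ}`,  `γ = 8/α ∈ (8/3, 4)`  (`bAl_bounds`: `2 < α < 3`),   `r̂² = rh2 = ℓ² + X̃`,   `Θ = Th = Λ + X̃`.
(Module W has similar lemmas `w0_*`; use them if they are on main, otherwise prove these directly: all are short.)
-/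
import Claimed.Agent.R324.Core.CL.TimeDefs
import Claimed.Agent.R324.Core.CL.Gron
import Claimed.Agent.R324.Bohm.Alpha

set_option autoImplicit false

namespace Claimed.Agent.R324.Core

open Set Filter Topology MeasureTheory
open scoped ContDiff

/-- `sgY y = 1/4 + (y - 1/4) s`, `s = smoothTransition (2y) ∈ [0,1]`, `s = 1` for `y ≥ 1/2` (`Real.smoothTransition.one_of_one_le`), so `sgY = y` there;  for `y ≤ 1/2` (`y ≥ -1`):  `s = 0` if `y ≤ 0`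
(`zero_of_nonpos`), and for `0 ≤ y ≤ 1/2` `sgY` lies between `1/4` and `y`:  `0 ≤ sgY ≤ 1/2`. -/
theorem cl_Xt (y : ℝ) (hy : y ∈ Icc (-1 : ℝ) 1) :
    0 ≤ Xt y ∧ Xt y ≤ 1 ∧ Xf y ≤ 4 / 3 * Xt y ∧ (1 / 2 ≤ y → Xt y = Xf y) ∧ (y ≤ 1 / 2 → 3 / 4 ≤ Xt y) := by
  obtain ⟨hy1, hy2⟩ := hy
  have hs0 : 0 ≤ Real.smoothTransition (2 * y) := Real.smoothTransition.nonneg _
  have hs1 : Real.smoothTransition (2 * y) ≤ 1 := Real.smoothTransition.le_one _
  have hXf : Xf y = 1 - y ^ 2 := rfl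
  have hXt : Xt y = 1 - (sgY y) ^ 2 := rfl
  have hsg : sgY y = 1 / 4 + (y - 1 / 4) * Real.smoothTransition (2 * y) := rfl
  rcases le_total (1 / 2) y with h | h
  · have hs : Real.smoothTransition (2 * y) = 1 :=
      Real.smoothTransition.one_of_one_le (by linarith)
    have hsy : sgY y = y := by rw [hsg, hs]; ring
    have hE : Xt y = Xf y := by rw [hXt, hXf, hsy]
    have h0 : 0 ≤ Xf y := by rw [hXf]; nlinarith
    have h1 : Xf y ≤ 1 := by rw [hXf]; nlinarith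
    refine ⟨by rw [hE]; exact h0, by rw [hE]; exact h1, by rw [hE]; linarith, fun _ => hE, ?_⟩
    intro h'
    have hy' : y = 1 / 2 := le_antisymm h' h
    rw [hE, hXf, hy']; norm_num
  · have hb : 0 ≤ sgY y ∧ sgY y ≤ 1 / 2 := by
      rcases le_total y 0 with h0 | h0
      · have hs : Real.smoothTransition (2 * y) = 0 :=
          Real.smoothTransition.zero_of_nonpos (by linarith)
        rw [hsg, hs]; constructor <;> norm_num
      · rw [hsg]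
        constructor
        · nlinarith
        · nlinarith
    obtain ⟨hb0, hb1⟩ := hb
    have h34 : 3 / 4 ≤ Xt y := by rw [hXt]; nlinarith
    have h1 : Xt y ≤ 1 := by rw [hXt]; nlinarith
    have hf1 : Xf y ≤ 1 := by rw [hXf]; nlinarith
    refine ⟨by linarith, h1, by linarith, ?_, fun _ => h34⟩
    intro h'
    have hy' : y = 1 / 2 := le_antisymm h h'
    have hs : Real.smoothTransition (2 * y) = 1 :=
      Real.smoothTransition.one_of_one_le (by linarith)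
    rw [hXt, hXf, hsg, hs]; ring

theorem cl_ell2_pos {q : ℝ} (hq : 1 < q) {t : ℝ} (ht : t < 0) : 0 < ell2 q t := by
  have h1 : 0 < (-t) ^ (2 * gaF q) := Real.rpow_pos_of_pos (by linarith) _
  have h2 : 0 < (q - 1) / 100 := by apply div_pos <;> linarith
  exact mul_pos h2 h1

/-- `2γ - 1 ≥ 1`, so `Λ^{2γ} ≤ Λ²` for `Λ ≤ 1`, and `(q-1)/100 Λ ≤ 1` for `Λ ≤ 100/q`. -/
theorem cl_ell2_le {q : ℝ} (hq : 100 ≤ q) {t : ℝ} (ht : t < 0) (ht' : -(100 / q) ≤ t) (ht1 : -1 ≤ t) : ell2 q t ≤ -t := by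
  obtain ⟨hb2, hb3⟩ := bAl_bounds hq
  have hL0 : 0 < -t := by linarith
  have hL1 : -t ≤ 1 := by linarith
  have hq0 : 0 < q := by linarith
  have hg : (2 : ℝ) ≤ 2 * gaF q := by
    have : gaF q = 8 / bAl q := rfl
    rw [this]
    have : 1 ≤ 8 / bAl q := by
      rw [le_div_iff₀ (by linarith)]; linarith
    linarith
  have h1 : (-t) ^ (2 * gaF q) ≤ (-t) ^ (2 : ℝ) :=
    Real.rpow_le_rpow_of_exponent_ge hL0 hL1 hg
  have h2 : (-t) ^ (2 : ℝ) = (-t) ^ 2 := by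
    rw [← Real.rpow_natCast]; norm_num
  have h3 : q * (-t) ≤ 100 := by
    have : -t ≤ 100 / q := by linarith
    calc q * (-t) ≤ q * (100 / q) := by gcongr
      _ = 100 := by field_simp
  have hE : ell2 q t = (q - 1) / 100 * (-t) ^ (2 * gaF q) := rfl
  rw [hE]
  have hc : 0 ≤ (q - 1) / 100 := by apply div_nonneg <;> linarith
  calc (q - 1) / 100 * (-t) ^ (2 * gaF q) ≤ (q - 1) / 100 * (-t) ^ 2 := by
        rw [← h2]; gcongr
    _ ≤ -t := by nlinarith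

theorem cl_rh2_Th {q : ℝ} (hq : 100 ≤ q) {t : ℝ} (ht : t < 0) (ht' : -(100 / q) ≤ t) (ht1 : -1 ≤ t) (y : ℝ)
    (hy : y ∈ Icc (-1 : ℝ) 1) :
    0 < rh2 q t y ∧ rh2 q t y ≤ Th t y ∧ Th t y ≤ 2 ∧ -t ≤ Th t y ∧ ell2 q t + Xf y ≤ 4 / 3 * rh2 q t y ∧
      Xf y ≤ 4 / 3 * rh2 q t y := by
  obtain ⟨hX0, hX1, hXf, -, -⟩ := cl_Xt y hy
  have hp := cl_ell2_pos (q := q) (by linarith) ht
  have hl := cl_ell2_le hq ht ht' ht1
  have hr : rh2 q t y = ell2 q t + Xt y := rfl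
  have hT : Th t y = -t + Xt y := rfl
  rw [hr, hT]
  refine ⟨by linarith, by linarith, by linarith, by linarith, by linarith, by linarith⟩

/-- W0(c) and its variant.    Case `X̃ ≥ Λ`:  `Θ ≤ 2 X̃ ≤ 2 r̂²`, `r̂² ≤ 2`:  `Θ³⁰ ≤ 2³⁰ (r̂²)³⁰ ≤ C (r̂²)³ √(r̂²)`  (`(r̂²)^{30} = (r̂²)³ (r̂²)^{27}`, `(r̂²)^{27} ≤ 2^{27} ... ` and `r̂² ≤ √2 √(r̂²)`).
Case `X̃ ≤ Λ`:  `Θ ≤ 2Λ`,  `r̂² ≥ ℓ² = c_q Λ^{2γ}`, `2γ < 8`, `Λ ≤ 1`:  `ℓ² ≥ c_q Λ⁸`, so `(r̂²)³ ≥ c_q³ Λ²⁴ ≥ c_q³ Λ²⁸`,  `(r̂²)³ √(r̂²) ≥ c_q^{7/2} Λ²⁸ ≥ c_q^{7/2} Λ³⁰`. -/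
theorem cl_w0c (q : ℝ) (hq : 100 ≤ q) :
    ∃ C : ℝ, 0 ≤ C ∧ ∀ t ∈ Ico (-(100 / q)) 0, -1 ≤ t → ∀ y ∈ Icc (-1 : ℝ) 1,
      (Th t y) ^ 30 ≤ C * ((rh2 q t y) ^ 3 * Real.sqrt (rh2 q t y)) ∧ (Th t y) ^ 28 ≤ C * (rh2 q t y) ^ 3 := by
  refine ⟨2 ^ 90, by positivity, ?_⟩
  intro t htI ht1 y hy
  obtain ⟨ht', ht⟩ := htI
  obtain ⟨hr0, hrT, hT2, hLT, -, -⟩ := cl_rh2_Th hq ht ht' ht1 y hy
  obtain ⟨hX0, hX1, -, -, -⟩ := cl_Xt y hy
  obtain ⟨hb2, hb3⟩ := bAl_bounds hq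
  have hL0 : 0 < -t := by linarith
  have hL1 : -t ≤ 1 := by linarith
  have hr : rh2 q t y = ell2 q t + Xt y := rfl
  have hT : Th t y = -t + Xt y := rfl
  have hT0 : 0 < Th t y := by linarith
  set r := rh2 q t y with hrdef
  set Θ := Th t y with hΘdef
  set s := Real.sqrt r with hsdef
  have hs0 : 0 ≤ s := Real.sqrt_nonneg _
  have hss : s ^ 2 = r := Real.sq_sqrt hr0.le
  have hr2 : r ≤ 2 := by linarith
  have hs2 : s ≤ 2 := by nlinarith
  rcases le_total (-t) (Xt y) with hc | hc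
  · -- X̃ ≥ Λ
    have hp := cl_ell2_pos (q := q) (by linarith) ht
    have h2r : Θ ≤ 2 * r := by rw [hT, hr]; linarith
    constructor
    · calc Θ ^ 30 ≤ (2 * r) ^ 30 := by gcongr
        _ = 2 ^ 30 * (r ^ 3 * (s * s ^ 53)) := by rw [← hss]; ring
        _ ≤ 2 ^ 30 * (r ^ 3 * (s * 2 ^ 53)) := by gcongr
        _ = 2 ^ 83 * (r ^ 3 * s) := by ring
        _ ≤ 2 ^ 90 * (r ^ 3 * s) := by
            have : 0 ≤ r ^ 3 * s := by positivity
            nlinarith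
    · calc Θ ^ 28 ≤ (2 * r) ^ 28 := by gcongr
        _ = 2 ^ 28 * (r ^ 3 * r ^ 25) := by ring
        _ ≤ 2 ^ 28 * (r ^ 3 * 2 ^ 25) := by gcongr
        _ = 2 ^ 53 * r ^ 3 := by ring
        _ ≤ 2 ^ 90 * r ^ 3 := by
            have : 0 ≤ r ^ 3 := by positivity
            nlinarith
  · -- X̃ ≤ Λ
    have h2L : Θ ≤ 2 * (-t) := by rw [hT]; linarith
    have hg : 2 * gaF q ≤ (8 : ℝ) := by
      have : gaF q = 8 / bAl q := rfl
      rw [this]
      have : 8 / bAl q ≤ 4 := by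
        rw [div_le_iff₀ (by linarith)]; linarith
      linarith
    have h1 : (-t) ^ (8 : ℝ) ≤ (-t) ^ (2 * gaF q) :=
      Real.rpow_le_rpow_of_exponent_ge hL0 hL1 hg
    have h8 : (-t) ^ (8 : ℝ) = (-t) ^ 8 := by
      rw [← Real.rpow_natCast]; norm_num
    have hE : ell2 q t = (q - 1) / 100 * (-t) ^ (2 * gaF q) := rfl
    have hL8 : 0 ≤ (-t) ^ 8 := by positivity
    have hrL : (-t) ^ 8 / 4 ≤ r := by
      rw [hr, hE]
      have hc1 : (1 : ℝ) / 4 ≤ (q - 1) / 100 := by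
        rw [le_div_iff₀ (by norm_num)]; linarith
      have : (1 : ℝ) / 4 * (-t) ^ 8 ≤ (q - 1) / 100 * (-t) ^ (2 * gaF q) := by
        rw [← h8]
        have h80 : 0 ≤ (-t) ^ (8 : ℝ) := by rw [h8]; exact hL8
        gcongr
      linarith
    have hsL : (-t) ^ 4 / 2 ≤ s := by
      apply Real.le_sqrt_of_sq_le
      calc ((-t) ^ 4 / 2) ^ 2 = (-t) ^ 8 / 4 := by ring
        _ ≤ r := hrL
    have hr3 : ((-t) ^ 8 / 4) ^ 3 ≤ r ^ 3 := by gcongr
    have hL4 : 0 ≤ (-t) ^ 4 / 2 := by positivity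
    have hLp28 : (-t) ^ 28 ≤ (-t) ^ 24 := pow_le_pow_of_le_one hL0.le hL1 (by norm_num)
    have hLp30 : (-t) ^ 30 ≤ (-t) ^ 28 := pow_le_pow_of_le_one hL0.le hL1 (by norm_num)
    constructor
    · calc Θ ^ 30 ≤ (2 * (-t)) ^ 30 := by gcongr
        _ = 2 ^ 30 * (-t) ^ 30 := by ring
        _ ≤ 2 ^ 30 * (-t) ^ 28 := by gcongr
        _ = 2 ^ 37 * (((-t) ^ 8 / 4) ^ 3 * ((-t) ^ 4 / 2)) := by ring
        _ ≤ 2 ^ 37 * (r ^ 3 * s) := by gcongr
        _ ≤ 2 ^ 90 * (r ^ 3 * s) := by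
            have : 0 ≤ r ^ 3 * s := by positivity
            nlinarith
    · calc Θ ^ 28 ≤ (2 * (-t)) ^ 28 := by gcongr
        _ = 2 ^ 28 * (-t) ^ 28 := by ring
        _ ≤ 2 ^ 28 * (-t) ^ 24 := by gcongr
        _ = 2 ^ 34 * ((-t) ^ 8 / 4) ^ 3 := by ring
        _ ≤ 2 ^ 34 * r ^ 3 := by gcongr
        _ ≤ 2 ^ 90 * r ^ 3 := by
            have : 0 ≤ r ^ 3 := by positivity
            nlinarith

/-- lower and upper bound of the light weights:  `Θ ≤ (1+Γ)Λ + X̃ ≤ (1+Γ) Θ`. -/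
theorem cl_wL_bounds (a M : ℕ) {q : ℝ} (hq : 1 < q) {Γ : ℝ} (hΓ : 0 ≤ Γ) {t : ℝ} (ht : t < 0) (y : ℝ)
    (hy : y ∈ Icc (-1 : ℝ) 1) :
    (rh2 q t y) ^ a / (Th t y) ^ M ≤ wL a M q Γ t y ∧ wL a M q Γ t y ≤ (1 + Γ) * ((rh2 q t y) ^ a / (Th t y) ^ M) ∧
      0 < wL a M q Γ t y := by
  have hX : 0 ≤ Xt y := (cl_Xt y hy).1
  have hR : 0 < rh2 q t y := by
    have := cl_ell2_pos hq ht
    unfold rh2
    linarith
  have hT : 0 < Th t y := by
    unfold Th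
    linarith
  have hRa : 0 < (rh2 q t y) ^ a := pow_pos hR a
  have hTM : 0 < (Th t y) ^ M := pow_pos hT M
  have hTM1 : 0 < (Th t y) ^ (M + 1) := pow_pos hT (M + 1)
  have hlow : Th t y ≤ (1 + Γ) * (-t) + Xt y := by
    unfold Th
    nlinarith
  have hup : (1 + Γ) * (-t) + Xt y ≤ (1 + Γ) * Th t y := by
    unfold Th
    nlinarith
  have hnum : 0 < (1 + Γ) * (-t) + Xt y := lt_of_lt_of_le hT hlow
  have hw : wL a M q Γ t y = ((rh2 q t y) ^ a / (Th t y) ^ M) * (((1 + Γ) * (-t) + Xt y) / Th t y) := by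
    unfold wL
    rw [pow_succ]
    field_simp
  have hb : 0 < (rh2 q t y) ^ a / (Th t y) ^ M := div_pos hRa hTM
  have h1 : 1 ≤ ((1 + Γ) * (-t) + Xt y) / Th t y := by
    rw [le_div_iff₀ hT]
    linarith
  have h2 : ((1 + Γ) * (-t) + Xt y) / Th t y ≤ 1 + Γ := by
    rw [div_le_iff₀ hT]
    exact hup
  refine ⟨?_, ?_, ?_⟩
  · rw [hw]
    nlinarith
  · rw [hw]
    nlinarith
  · rw [hw]
    exact mul_pos hb (div_pos hnum hT)

/-- `wL a M = Θ² wL a (M+2)`,   `wL (a+2) M = r̂⁴ wL a M`. -/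
theorem cl_wL_shift (a M : ℕ) (q Γ : ℝ) {t : ℝ} (ht : t < 0) (y : ℝ) (hy : y ∈ Icc (-1 : ℝ) 1) :
    wL a M q Γ t y = (Th t y) ^ 2 * wL a (M + 2) q Γ t y ∧ wL (a + 2) M q Γ t y = (rh2 q t y) ^ 2 * wL a M q Γ t y := by
  have hX : 0 ≤ Xt y := (cl_Xt y hy).1
  have hT : 0 < Th t y := by
    unfold Th
    linarith
  have hT0 : Th t y ≠ 0 := hT.ne'
  constructor
  · unfold wL
    have : (Th t y) ^ (M + 2 + 1) = (Th t y) ^ 2 * (Th t y) ^ (M + 1) := by ring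
    rw [this]
    field_simp
  · unfold wL
    ring

/-- the core weight is dominated by `V₁`:   `X Λ²² r̂⁶ Θ⁻⁵² ≤ (4/3) r̂⁸ Θ⁻³⁰ ≤ (4/3) V₁`      (`X ≤ (4/3) r̂²`, `Λ ≤ Θ`). -/
theorem cl_wt_core {q : ℝ} (hq : 100 ≤ q) {Γ : ℝ} (hΓ : 0 ≤ Γ) {t : ℝ} (ht : t < 0) (ht' : -(100 / q) ≤ t) (ht1 : -1 ≤ t)
    (y : ℝ) (hy : y ∈ Icc (-1 : ℝ) 1) :
    (-t) ^ 22 * (Xf y * wH 3 52 q t y) ≤ 4 / 3 * V1 q Γ t y := by
  obtain ⟨hR, -, -, hΛ, -, hXR⟩ := cl_rh2_Th hq ht ht' ht1 y hy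
  have hb := (cl_wL_bounds 4 30 (q := q) (by linarith) hΓ ht y hy).1
  have hT : 0 < Th t y := lt_of_lt_of_le (by linarith) hΛ
  have hΛ0 : 0 ≤ -t := by linarith
  have h22 : (-t) ^ 22 ≤ (Th t y) ^ 22 := pow_le_pow_left₀ hΛ0 hΛ 22
  have hwH : 0 < wH 3 52 q t y := by
    unfold wH
    exact div_pos (pow_pos hR 3) (pow_pos hT 52)
  have hX0 : 0 ≤ Xf y := by
    unfold Xf
    nlinarith [hy.1, hy.2]
  have hstep1 : (-t) ^ 22 * (Xf y * wH 3 52 q t y) ≤ (Th t y) ^ 22 * (4 / 3 * rh2 q t y * wH 3 52 q t y) := by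
    apply mul_le_mul h22 _ (mul_nonneg hX0 hwH.le) (pow_pos hT 22).le
    exact mul_le_mul_of_nonneg_right hXR hwH.le
  have heq : (Th t y) ^ 22 * (4 / 3 * rh2 q t y * wH 3 52 q t y) = 4 / 3 * ((rh2 q t y) ^ 4 / (Th t y) ^ 30) := by
    unfold wH
    have : (Th t y) ^ 52 = (Th t y) ^ 22 * (Th t y) ^ 30 := by ring
    rw [this]
    field_simp
  have : V1 q Γ t y = wL 4 30 q Γ t y := rfl
  rw [this]
  linarith

/-- continuity of the weights on the closed strip   (`(-t)^(2γ)`: `Real.continuousAt_rpow_const`/`ContinuousOn.rpow_const`, `-t > 0`;  `Xt`: `Real.smoothTransition.continuous`;  `Th > 0`). -/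
theorem cl_wL_contOn (a M : ℕ) (q Γ : ℝ) :
    ContinuousOn (fun p : ℝ × ℝ => wL a M q Γ p.1 p.2) (Iio (0 : ℝ) ×ˢ Icc (-1 : ℝ) 1) := by
  have hXt : Continuous (fun p : ℝ × ℝ => Xt p.2) := by
    unfold Xt sgY
    have hs : Continuous (fun p : ℝ × ℝ => Real.smoothTransition (2 * p.2)) :=
      Real.smoothTransition.continuous.comp (continuous_const.mul continuous_snd)
    exact continuous_const.sub ((continuous_const.add
      ((continuous_snd.sub continuous_const).mul hs)).pow 2)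
  have hrh : ContinuousOn (fun p : ℝ × ℝ => rh2 q p.1 p.2) (Iio (0 : ℝ) ×ˢ Icc (-1 : ℝ) 1) := by
    unfold rh2 ell2 lam2
    refine ContinuousOn.add (ContinuousOn.mul continuousOn_const ?_) hXt.continuousOn
    refine ContinuousOn.rpow_const continuous_fst.neg.continuousOn ?_
    intro p hp
    left
    have : p.1 < 0 := hp.1
    linarith
  have hTh : Continuous (fun p : ℝ × ℝ => Th p.1 p.2) := by
    unfold Th
    exact continuous_fst.neg.add hXt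
  unfold wL
  refine ContinuousOn.div ((hrh.pow a).mul
    ((continuous_const.mul continuous_fst.neg).add hXt).continuousOn) (hTh.pow (M + 1)).continuousOn ?_
  intro p hp
  have h1 : p.1 < 0 := hp.1
  have h2 := (cl_Xt p.2 hp.2).1
  have : 0 < Th p.1 p.2 := by
    unfold Th
    linarith
  exact (pow_pos this _).ne'

theorem cl_wH_contOn (a M : ℕ) (q : ℝ) :
    ContinuousOn (fun p : ℝ × ℝ => wH a M q p.1 p.2) (Iio (0 : ℝ) ×ˢ Icc (-1 : ℝ) 1) := by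
  have hXt : Continuous (fun p : ℝ × ℝ => Xt p.2) := by
    unfold Xt sgY
    have hs : Continuous (fun p : ℝ × ℝ => Real.smoothTransition (2 * p.2)) :=
      Real.smoothTransition.continuous.comp (continuous_const.mul continuous_snd)
    exact continuous_const.sub ((continuous_const.add
      ((continuous_snd.sub continuous_const).mul hs)).pow 2)
  have hrh : ContinuousOn (fun p : ℝ × ℝ => rh2 q p.1 p.2) (Iio (0 : ℝ) ×ˢ Icc (-1 : ℝ) 1) := by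
    unfold rh2 ell2 lam2
    refine ContinuousOn.add (ContinuousOn.mul continuousOn_const ?_) hXt.continuousOn
    refine ContinuousOn.rpow_const continuous_fst.neg.continuousOn ?_
    intro p hp
    left
    have : p.1 < 0 := hp.1
    linarith
  have hTh : Continuous (fun p : ℝ × ℝ => Th p.1 p.2) := by
    unfold Th
    exact continuous_fst.neg.add hXt
  unfold wH
  refine ContinuousOn.div (hrh.pow a) (hTh.pow M).continuousOn ?_
  intro p hp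
  have h1 : p.1 < 0 := hp.1
  have h2 := (cl_Xt p.2 hp.2).1
  have : 0 < Th p.1 p.2 := by
    unfold Th
    linarith
  exact (pow_pos this _).ne'

/-- `n2`, `n2t` of the slices of a smooth triple are slices of `Sm` functions  (`tt (sl f t) y = ttF f (t,y)`, `Sm.ttF`, `sm_Xf`). -/
theorem cl_n2_sm (q : ℝ) {V : Tri} (hV : ∀ j, Sm (V j)) :
    Sm (fun p => n2 q (slT V p.1) p.2) ∧ Sm (fun p => n2t q (slT V p.1) p.2) := by
  have hX : Sm (fun p => 1 - p.2 ^ 2) := (sm_const 1).sub (sm_snd.pow 2)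
  constructor
  · unfold n2 slT
    exact ((((hV 0).pow 2).const_mul (q + 1)).add (((hV 1).pow 2).const_mul 2)).add
      (((hX.mul (hV 2)).pow 2).const_mul (q / (q + 1)))
  · have h0 := (hV 0).ttF
    have h1 := (hV 1).ttF
    have h2 := (hX.mul (hV 2)).ttF
    have key := (((h0.pow 2).const_mul (q + 1)).add ((h1.pow 2).const_mul 2)).add
      ((h2.pow 2).const_mul (q / (q + 1)))
    exact key

/-- continuity in time of the dissipation and energy integrals (`cl_II_contOn`, `cl_wL_contOn`, `cl_n2_sm`). -/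
theorem cl_Di_contOn (a M : ℕ) (q Γ : ℝ) {V : Tri} (hV : ∀ j, Sm (V j)) :
    ContinuousOn (fun t => Di q (wL a M q Γ t) (slT V t)) (Iio 0) ∧
      ContinuousOn (fun t => En q (wL a M q Γ t) (slT V t)) (Iio 0) := by
  have hw := cl_wL_contOn a M q Γ
  obtain ⟨hn, hnt⟩ := cl_n2_sm q hV
  have hsub : (Iio (0 : ℝ) ×ˢ Icc (-1 : ℝ) 1) ⊆ (Iio (0 : ℝ) ×ˢ (univ : Set ℝ)) :=
    Set.prod_mono_right (Set.subset_univ _)
  have hn' := hn.continuousOn.mono hsub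
  have hnt' := hnt.continuousOn.mono hsub
  constructor
  · have hF : ContinuousOn (fun p : ℝ × ℝ => wL a M q Γ p.1 p.2 *
        (n2t q (slT V p.1) p.2 + q * n2 q (slT V p.1) p.2)) (Iio (0 : ℝ) ×ˢ Icc (-1 : ℝ) 1) :=
      hw.mul (hnt'.add (continuousOn_const.mul hn'))
    exact cl_II_contOn hF
  · have hF : ContinuousOn (fun p : ℝ × ℝ => (1 - p.2 ^ 2) * wL a M q Γ p.1 p.2 *
        n2 q (slT V p.1) p.2) (Iio (0 : ℝ) ×ˢ Icc (-1 : ℝ) 1) :=
      (((continuous_const.sub (continuous_snd.pow 2)).continuousOn).mul hw).mul hn'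
    exact cl_II_contOn hF

theorem cl_Di_nonneg (a M : ℕ) {q : ℝ} (hq : 1 < q) {Γ : ℝ} (hΓ : 0 ≤ Γ) {t : ℝ} (ht : t < 0) (u : Fin 3 → ℝ → ℝ) :
    0 ≤ Di q (wL a M q Γ t) u ∧ 0 ≤ En q (wL a M q Γ t) u := by
  have hq0 : 0 < q := by linarith
  have hn2 : ∀ y, 0 ≤ n2 q u y := by
    intro y
    unfold n2
    positivity
  have hn2t : ∀ y, 0 ≤ n2t q u y := by
    intro y
    unfold n2t
    positivity
  constructor
  · unfold Di
    apply cl_II_nonneg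
    intro y hy
    have hw := (cl_wL_bounds a M hq hΓ ht y hy).2.2
    exact mul_nonneg hw.le (add_nonneg (hn2t y) (mul_nonneg hq0.le (hn2 y)))
  · unfold En
    apply cl_II_nonneg
    intro y hy
    have hw := (cl_wL_bounds a M hq hΓ ht y hy).2.2
    have hX0 : 0 ≤ 1 - y ^ 2 := by nlinarith [hy.1, hy.2]
    exact mul_nonneg (mul_nonneg hX0 hw.le) (hn2 y)

end Claimed.Agent.R324.Core
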