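/-
Row 324 (S0582), PDE core, module CL.   Architect: helper325.   Blueprint: origin/helper325:docs/R324_CL.md, section C1.

WHAT THE TIME LEVEL (C1) USES FROM THE MODULES W, LD0, NL.      Each statement of this file is to be closed by ONE LINE (or a short derivation) from the interface of the
owning module, as soon as that interface is on main:
   `cl_need_sup`  = W7 (SUP) of blueprint 7.3, for `M ∈ {28,30}`, including the "Moreover" part          (owner: helper427 / W, Core/Static.lean)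
   `cl_need_lin`  = `A·(LE0) + (LE1)` of blueprint 7.4 (LD4, LD5) with `n = 0`, weights `wL 2 28`, `wL 4 28`, in differential form     (owner: helper689 / LD0)
   `cl_need_nn`   = (N1a) of blueprint 7.5 with `V = 0`  (`NN 0 = 0`)                                    (owner: helper381 / NL)
   `cl_need_res`  = (N-R) of blueprint 7.5 (first inequality), for `Res` and for `∂_t Res`                (owner: helper381 / NL;  the second half is the same computation with `BgRes`, `i = 1`, and `wL 4 28 = Θ² wL 4 30`)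
All constants may depend on `q, g, Γ`.
-/
import Claimed.Agent.R324.Core.CL.TimeDefs
import Claimed.Agent.R324.Core.LD0.LE1
import Claimed.Agent.R324.Core.W.Sup
import Claimed.Agent.R324.Core.CL.NeedRes
import Claimed.Agent.R324.Core.NL.N1a

set_option autoImplicit false

namespace Claimed.Agent.R324.Core

open Set Filter Topology MeasureTheory
open scoped ContDiff

/-- **W7 (SUP)**, `M ∈ {28, 30}`. -/
theorem cl_need_sup (q : ℕ) (hq6 : 10 ^ 6 ≤ q) (g : Bg) (hg : BgGood q g) (Γ : ℝ) (hΓ : 0 ≤ Γ) (M : ℕ)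
    (hM : M = 28 ∨ M = 30) :
    ∃ C Λ₀ : ℝ, 0 ≤ C ∧ 0 < Λ₀ ∧ ∀ U : Tri, (∀ j, Sm (U j)) → ∀ t ∈ Ico (-Λ₀) 0, ∀ y ∈ Icc (-1 : ℝ) 1,
      (rh2 q t y) ^ 3 * Real.sqrt (rh2 q t y) * (n2 q (slT U t) y + n2t q (slT U t) y)
          ≤ C * (Th t y) ^ M * (En q (wL 2 M q Γ t) (slT U t) + En q (wL 4 M q Γ t) (slT (Lt q g U) t)) ∧
      Real.sqrt (Xf y) * Xf y * wL 4 M q Γ t y * ppF U (t, y)
          ≤ C * (En q (wL 2 M q Γ t) (slT U t) + En q (wL 4 M q Γ t) (slT (Lt q g U) t)) := by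
  have hq1000 : (1000 : ℝ) ≤ (q : ℝ) := by
    have : ((10 ^ 6 : ℕ) : ℝ) ≤ (q : ℝ) := by exact_mod_cast hq6
    push_cast at this
    linarith
  have hM52 : M ≤ 52 := by rcases hM with h | h <;> omega
  obtain ⟨K, Λ₀, hK, hΛ₀, H⟩ := w7_sup_R hq1000 hg M hM52
  refine ⟨K, Λ₀, hK, hΛ₀, fun U hU t ht y hy => ?_⟩
  obtain ⟨h1, h2, -⟩ := H Γ hΓ t ht U hU y hy
  refine ⟨h1, ?_⟩
  have e : pp2 (slT U t) y = ppF U (t, y) := by
    simp only [pp2, ppS, Fin.sum_univ_four, ppF, dY, Matrix.cons_val_zero, Matrix.cons_val_one, Matrix.cons_val]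
    rfl
  rw [e] at h2
  exact h2

/-- **the two level linear estimate** in differential form, weights `wL 2 28`, `wL 4 28`:   `(A E₀ + E₁)' + c (D₀ + D₁) ≤ C Λ²² E_{wH 3 52}(U) + C D_{wL 4 28}(S)`. -/
theorem cl_need_lin (q : ℕ) (hq : Odd q) (hq6 : 10 ^ 6 ≤ q) (g : Bg) (hg : BgGood q g) :
    ∃ Γ₀ : ℝ, 0 ≤ Γ₀ ∧ ∀ Γ : ℝ, Γ₀ ≤ Γ → ∃ A c C Λ₀ : ℝ, 1 ≤ A ∧ 0 < c ∧ 0 ≤ C ∧ 0 < Λ₀ ∧
      ∀ (t₀ : ℝ) (U S : Tri), t₀ ∈ Ico (-Λ₀) 0 → (∀ j, Sm (U j)) → (∀ j, Sm (S j)) →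
        (∀ j, ∀ t ∈ Ioo t₀ 0, ∀ y ∈ Icc (-1 : ℝ) 1, dT (U j) (t, y) = Lt q g U j (t, y) + S j (t, y)) →
        ∀ t ∈ Ioo t₀ 0, ∃ E' : ℝ,
          HasDerivAt (fun s => A * En q (wL 2 28 q Γ s) (slT U s) + En q (wL 4 28 q Γ s) (slT (Lt q g U) s)) E' t ∧
          E' + c * (Di q (wL 2 28 q Γ t) (slT U t) + Di q (wL 4 28 q Γ t) (slT (Lt q g U) t))
            ≤ C * (-t) ^ 22 * En q (wH 3 52 q t) (slT U t) + C * Di q (wL 4 28 q Γ t) (slT S t) := by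
  have hq100 : (100 : ℝ) ≤ (q : ℝ) := by
    have : ((10 ^ 6 : ℕ) : ℝ) ≤ (q : ℝ) := by exact_mod_cast hq6
    push_cast at this
    linarith
  obtain ⟨Γ₀, hΓ₀, h⟩ := ld0_two28 q hq100 g hg
  refine ⟨Γ₀, hΓ₀, fun Γ hΓ => ?_⟩
  obtain ⟨A, c, K, Λ₁, hA, hc, hK, hΛ₁, -, h'⟩ := h Γ hΓ
  refine ⟨A, c, K, Λ₁, hA, hc, hK, hΛ₁, ?_⟩
  intro t₀ U S ht₀ hU hS heq t ht
  obtain ⟨E', hd, hi⟩ := h' U hU t ⟨by linarith [ht₀.1, ht.1], ht.2⟩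
  refine ⟨E', hd, ?_⟩
  have hcong : Di q (wL 4 28 q Γ t) (slT (dfL q (bgR q g) U) t) = Di q (wL 4 28 q Γ t) (slT S t) := by
    refine ld0_Di_congr _ _ (fun j y hy => ?_)
    have h1 := heq j t ht y hy
    simp only [slT, dfL]
    unfold Lt at h1
    linarith
  rw [hcong] at hi
  exact hi

/-- **(N1a)** with `V = 0`. -/
theorem cl_need_nn (q : ℕ) (hq6 : 10 ^ 6 ≤ q) (g : Bg) (hg : BgGood q g) (Γ : ℝ) (hΓ : 0 ≤ Γ) :
    ∃ C a₀ Λ₀ : ℝ, 0 ≤ C ∧ 0 < a₀ ∧ 0 < Λ₀ ∧ ∀ U : Tri, (∀ j, Sm (U j)) → ∀ t ∈ Ico (-Λ₀) 0, ∀ a : ℝ, 0 ≤ a → a ≤ a₀ →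
      SupB q 30 U t a →
      DY q Γ (NN q g U) t ≤ C * (a ^ 2 + (-t) ^ 6) * (D0 q Γ U t + D1 q g Γ U t) :=
  nl_N1a_zero q hq6 g hg Γ hΓ

/-- **(N-R)** for the residual and its time derivative. -/
theorem cl_need_res (q : ℕ) (hq6 : 10 ^ 6 ≤ q) (g : Bg) (hg : BgGood q g) (Γ : ℝ) (hΓ : 0 ≤ Γ) :
    ∃ C Λ₀ : ℝ, 0 ≤ C ∧ 0 < Λ₀ ∧ ∀ t ∈ Ico (-Λ₀) 0,
      DY q Γ (Res q g) t ≤ C / Real.sqrt (-t) ∧ DYT q Γ (dTT (Res q g)) t ≤ C / Real.sqrt (-t) :=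
  cl_need_res_aux q hq6 g hg Γ hΓ

end Claimed.Agent.R324.Core
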