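/-
Row 324 (S0582), PDE core, module CL, source estimate of the time level (architect of this part: helper762).      FILE SrcB: splitting of `S¹` and the commutator term.
      S¹ = S1F q g U = clsCm q g U + dTT (NN q g U) - dTT (Res q g),        clsCm q g U = [∂_t, L̃] U = ∂_t (L̃ U) - L̃ (∂_t U).
   DYT q Γ S t = Di q (wL 4 28 q Γ t) (slT S t);    V1 = wL 4 30,   wL 4 28 = Θ² V1  (`w0_wL_Th`).       NT = Core/NT/*.lean (term calculus);  aa(U) = ntAaU q g U t y = nlAa q g U (t,y) (`nl_Aa_eq`, Core/NL/N0.lean).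
SKETCHES.
* `cls_dT_uT`:    fin_cases j;  j = 0, 1: `uT_zero`, `uT_one` (Core/PR/Jet0.lean), rfl;   j = 2: `uT_two`, `dT_y_mul Xf (hS 2) ht y` (Core/PR/Sm.lean).
* `cls_Di_three`: pointwise  n2 (a + b - c) ≤ 3 (n2 a + n2 b + n2 c)  and the same for n2t  (tt is linear: `tt_add`, `tt_sub`, differentiability from `smI_slT`, `smI_uV`; (x+y-z)² ≤ 3 (x²+y²+z²); the weights κ_i ≥ 0; unfold n2 n2t slT);   then `ii_mono`, `ii_add`, `ii_const_mul` (Core/W/Ibp.lean), `ci_n2`, `ci_n2t`.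
      (cf. Core/NL/Quad.lean `nl_n2_add_le`, `nl_n2t_add_le` for the technique.)
* `cls_split`:    `S1F q g U = fun j p => clsCm q g U j p + dTT (NN q g U) j p - dTT (Res q g) j p` (funext; unfold S1F clsCm dTT; ring/rfl);   `cls_Di_three` with V = wL 4 28 q Γ t  (CI: `((smS_wL 4 28 q Γ).smI ht).continuousOn`, Core/LD0/Defs.lean; ≥ 0: `w0_wL_pos`).
* `cls_comm`:     K, Λ₁ from `nt_coef_bd`, (C₁, Λ₂) from `nl_atoms` (Core/NL/Atoms.lean).    `nt_Di_le` (Core/NT/Int.lean):  DYT (clsCm) ≤ q (q+1) 𝕀[wL 4 28 Σ_j ntS2 (sl (uT (clsCm q g U) j) t)];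
      `sl (uT (clsCm q g U) j) t = fun z => dT (uT (Lt q g U) j) (t,z) - uT (Lt q g (fun j => dT (U j))) j (t,z)`   (funext;  uT is linear: as `nl_uT_sub`;  `cls_dT_uT` for S = Lt q g U;  `dTT U = fun j => dT (U j)` rfl);
      `nt_comm_bound`:  ≤ 100 K²/Θ² aa(U);     wL 4 28/Θ² = V1  (`w0_wL_Th`: wL 4 28 = Θ² wL 4 30; Θ > 0);     so the integrand is ≤ 300 K² V1 aa(U);   `ii_mono` (CI: `nt_ci_S2`, `nl_ci_aa`), `ii_const_mul`, `nl_atoms`.         C := q (q+1) 300 K² C₁.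
-/
import Claimed.Agent.R324.Core.CL.Need
import Claimed.Agent.R324.Core.NT.N0T
import Claimed.Agent.R324.Core.NT.Int
import Claimed.Agent.R324.Core.NT.Cf
import Claimed.Agent.R324.Core.NL.N0
import Claimed.Agent.R324.Core.NL.Atoms

set_option autoImplicit false

namespace Claimed.Agent.R324.Core

open Set Filter Topology MeasureTheory
open scoped ContDiff

noncomputable section

/-- the commutator `[∂_t, L̃] U`. -/
def clsCm (q : ℝ) (g : Bg) (U : Tri) : Tri := fun j p => dT (Lt q g U j) p - Lt q g (dTT U) j p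

/-- hygiene. -/
theorem core_cls_hygiene : True := by
  have := @clsCm.eq_1
  trivial

theorem sm_clsCm {q : ℝ} (hq : 1 < q) {g : Bg} (hg : BgSm g) {U : Tri} (hU : ∀ j, Sm (U j)) (j : Fin 3) :
    Sm (clsCm q g U j) := (sm_Lt hq hg hU j).dT.sub (sm_Lt hq hg (sm_dTT hU) j)

theorem cls_dT_uT {S : Tri} (hS : ∀ j, Sm (S j)) {t : ℝ} (ht : t < 0) (j : Fin 3) (y : ℝ) :
    dT (uT S j) (t, y) = uT (dTT S) j (t, y) := by
  fin_cases j
  · show dT (uT S 0) (t, y) = uT (dTT S) 0 (t, y)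
    rw [uT_zero, uT_zero]
    rfl
  · show dT (uT S 1) (t, y) = uT (dTT S) 1 (t, y)
    rw [uT_one, uT_one]
    rfl
  · show dT (uT S 2) (t, y) = uT (dTT S) 2 (t, y)
    rw [uT_two, uT_two]
    exact dT_y_mul Xf (hS 2) ht y

theorem cls_Di_three {q : ℝ} (hq : 0 < q) {V : ℝ → ℝ} (hV : CI V) (h0 : ∀ y ∈ Icc (-1 : ℝ) 1, 0 ≤ V y) {A B C : Tri}
    (hA : ∀ j, Sm (A j)) (hB : ∀ j, Sm (B j)) (hC : ∀ j, Sm (C j)) {t : ℝ} (ht : t < 0) :
    Di q V (slT (fun j p => A j p + B j p - C j p) t) ≤ 3 * (Di q V (slT A t) + Di q V (slT B t) + Di q V (slT C t)) := by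
  have hA' : ∀ j, SmI (slT A t j) := smI_slT hA ht
  have hB' : ∀ j, SmI (slT B t j) := smI_slT hB ht
  have hC' : ∀ j, SmI (slT C t j) := smI_slT hC ht
  have hC2 : ∀ j, SmI ((fun j z => (-1 : ℝ) * slT C t j z) j) := fun j => (hC' j).const_mul (-1)
  have hBC : ∀ j, SmI ((fun j z => slT B t j z + (fun j z => (-1 : ℝ) * slT C t j z) j z) j) :=
    fun j => (hB' j).add (hC2 j)
  have e : slT (fun j p => A j p + B j p - C j p) t
      = fun j z => slT A t j z + (fun j z => slT B t j z + (fun j z => (-1 : ℝ) * slT C t j z) j z) j z := by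
    funext j z
    simp only [slT]
    ring
  have h1 := nl_Di_add_le hq hV h0 hA' hBC (by norm_num : (0 : ℝ) < 2)
  have h2 := nl_Di_add_le hq hV h0 hB' hC2 (by norm_num : (0 : ℝ) < 1)
  have h3 := nl_Di_const_mul q (-1) V (slT C t)
  rw [e]
  rw [h3] at h2
  linarith

theorem cls_split {q : ℝ} (hq : 1 < q) {g : Bg} (hg : BgSm g) {Γ : ℝ} (hΓ : 0 ≤ Γ) {U : Tri} (hU : ∀ j, Sm (U j))
    {t : ℝ} (ht : t < 0) :
    DYT q Γ (S1F q g U) t
      ≤ 3 * (DYT q Γ (clsCm q g U) t + DYT q Γ (dTT (NN q g U)) t + DYT q Γ (dTT (Res q g)) t) := by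
  have e : S1F q g U = fun j p => clsCm q g U j p + dTT (NN q g U) j p - dTT (Res q g) j p := rfl
  have hV : CI (wL 4 28 q Γ t) := ((smS_wL 4 28 q Γ).smI ht).continuousOn
  have h0 : ∀ y ∈ Icc (-1 : ℝ) 1, 0 ≤ wL 4 28 q Γ t y := fun y hy => (w0_wL_pos hq hΓ ht hy).le
  unfold DYT
  rw [e]
  exact cls_Di_three (by linarith) hV h0 (sm_clsCm hq hg hU) (sm_dTT (sm_NN hq hg hU))
    (sm_dTT (hg.smRes q)) ht

/-- the commutator term. -/
theorem cls_comm (q : ℕ) (hq6 : 10 ^ 6 ≤ q) (g : Bg) (hg : BgGood q g) (Γ : ℝ) (hΓ : 0 ≤ Γ) :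
    ∃ C Λ₀ : ℝ, 0 ≤ C ∧ 0 < Λ₀ ∧ ∀ U : Tri, (∀ j, Sm (U j)) → ∀ t ∈ Ico (-Λ₀) 0,
      DYT q Γ (clsCm q g U) t ≤ C * (D0 q Γ U t + D1 q g Γ U t) := by
  have hq6' : (10 : ℝ) ^ 6 ≤ (q : ℝ) := by exact_mod_cast hq6
  have hq1 : (1 : ℝ) < (q : ℝ) := by linarith
  have hq100 : (100 : ℝ) ≤ (q : ℝ) := by linarith
  have hq0 : (0 : ℝ) ≤ (q : ℝ) := by linarith
  obtain ⟨K, Λ₁, hc⟩ := nt_coef_bd hq100 hg
  obtain ⟨C₁, Λ₂, hC₁, hΛ₂, h2⟩ := nl_atoms q hq6 g hg Γ hΓ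
  refine ⟨q * (q + 1) * (300 * K ^ 2 * C₁), min Λ₁ Λ₂, by positivity, lt_min hc.L0 hΛ₂, ?_⟩
  intro U hU t ht
  have ht0 : t < 0 := ht.2
  have ht1 : t ∈ Ico (-Λ₁) 0 := ⟨by linarith [ht.1, min_le_left Λ₁ Λ₂], ht.2⟩
  have ht2 : t ∈ Ico (-Λ₂) 0 := ⟨by linarith [ht.1, min_le_right Λ₁ Λ₂], ht.2⟩
  have hV : CI (wL 4 28 q Γ t) := ((smS_wL 4 28 q Γ).smI ht0).continuousOn
  have hV30 : CI (wL 4 30 q Γ t) := ((smS_wL 4 30 q Γ).smI ht0).continuousOn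
  have hV0 : ∀ y ∈ Icc (-1 : ℝ) 1, 0 ≤ wL 4 28 q Γ t y := fun y hy => (w0_wL_pos hq1 hΓ ht0 hy).le
  have hS := sm_clsCm hq1 hg.sm hU
  have h1 := nt_Di_le (q := (q : ℝ)) hq1.le hV hV0 hS ht0
  unfold DYT
  refine h1.trans ?_
  rw [mul_assoc ((q : ℝ) * (q + 1))]
  refine mul_le_mul_of_nonneg_left ?_ (by positivity)
  have hsl : ∀ j, sl (uT (clsCm q g U) j) t
      = fun z => dT (uT (Lt q g U) j) (t, z) - uT (Lt q g (fun j => dT (U j))) j (t, z) := by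
    intro j
    funext z
    rw [cls_dT_uT (sm_Lt hq1 hg.sm hU) ht0 j z]
    exact nl_uT_sub (dTT (Lt q g U)) (Lt q g (dTT U)) j (t, z)
  have hpt : ∀ y ∈ Icc (-1 : ℝ) 1, wL 4 28 q Γ t y * ∑ j, ntS2 (sl (uT (clsCm q g U) j) t) y
      ≤ 300 * K ^ 2 * (V1 q Γ t y * nlAa q g U (t, y)) := by
    intro y hy
    have hΘ := w0_Th_pos ht0 hy
    have hb : ∀ j, ntS2 (sl (uT (clsCm q g U) j) t) y ≤ 100 * K ^ 2 / (Th t y) ^ 2 * nlAa q g U (t, y) := by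
      intro j
      rw [hsl j, nl_Aa_eq]
      exact nt_comm_bound hq100 hg.sm hc hU ht1 hy j
    have hsum : ∑ j, ntS2 (sl (uT (clsCm q g U) j) t) y ≤ 3 * (100 * K ^ 2 / (Th t y) ^ 2 * nlAa q g U (t, y)) := by
      rw [Fin.sum_univ_three]
      linarith [hb 0, hb 1, hb 2]
    have hV1 : V1 q Γ t y = wL 4 30 q Γ t y := rfl
    have hw : wL 4 28 q Γ t y = (Th t y) ^ 2 * wL 4 30 q Γ t y := w0_wL_Th ht0 hy
    calc wL 4 28 q Γ t y * ∑ j, ntS2 (sl (uT (clsCm q g U) j) t) y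
        ≤ wL 4 28 q Γ t y * (3 * (100 * K ^ 2 / (Th t y) ^ 2 * nlAa q g U (t, y))) :=
          mul_le_mul_of_nonneg_left hsum (hV0 y hy)
      _ = 300 * K ^ 2 * (V1 q Γ t y * nlAa q g U (t, y)) := by
          rw [hV1, hw]
          field_simp
          ring
  have c1 : CI (fun y => wL 4 28 q Γ t y * ∑ j, ntS2 (sl (uT (clsCm q g U) j) t) y) := hV.mul (nt_ci_S2 hS ht0)
  have c2 : CI (fun y => 300 * K ^ 2 * (V1 q Γ t y * nlAa q g U (t, y))) :=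
    continuousOn_const.mul (hV30.mul (nl_ci_aa hq1 hg.sm hU ht0))
  calc II (fun y => wL 4 28 q Γ t y * ∑ j, ntS2 (sl (uT (clsCm q g U) j) t) y)
      ≤ II (fun y => 300 * K ^ 2 * (V1 q Γ t y * nlAa q g U (t, y))) := ii_mono c1 c2 hpt
    _ = 300 * K ^ 2 * II (fun y => V1 q Γ t y * nlAa q g U (t, y)) := ii_const_mul _ _
    _ ≤ 300 * K ^ 2 * (C₁ * nlDD q g Γ U t) := mul_le_mul_of_nonneg_left (h2 U hU t ht2) (by positivity)
    _ = 300 * K ^ 2 * C₁ * (D0 q Γ U t + D1 q g Γ U t) := by unfold nlDD; ring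

end

end Claimed.Agent.R324.Core
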