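/-
Row 324 (S0582), PDE core, module CL, source estimate of the time level (architect of this part: helper762).      FILE SrcC: the term `∂_t NN(U)`.
   U¹ = dTT U = fun j => dT (U j) (rfl).     n² := E0T q Γ U t + E1T q g Γ U t = En q (wL 2 28 q Γ t) (slT U¹ t) + En q (wL 4 28 q Γ t) (slT (Lt q g U¹) t)  (rfl).      Λ = -t, Θ = Th t y, R = rh2 q t y.
SKETCHES.
* `cls_dNN_pt`  (pointwise).    Constants:  (K, Λ₁) `nt_coef_bd`;   c `nl_wt_sup` (Core/NL/Wts.lean:  SupB q 30 U t a ⟹ c nlSq q U (t,y) ≤ a²,  nlSq = n2 + n2t);    (K₇, Λ₂) `w7_sup_R` with M = 28 (Core/W/Sup.lean; first statement);    c' `w0_rh7'` (c' Θ³⁰ ≤ R³ √R; Core/W/WtC.lean).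
      a₀ := √(c/12);    Λ₀ := min Λ₁ (min Λ₂ (100/q)).
      [[u]]² ≤ 12 nlSq U ≤ 12 a²/c ≤ 1   (`nt_Ub_sq_le`, Core/NT/Int.lean)  ⟹  [[u]] ≤ 1  and  ([[u]] + Λ³)² ≤ 2 [[u]]² + 2 Λ⁶ ≤ (24/c + 2)(a² + Λ⁶).
      [[u¹]]² ≤ 12 nlSq U¹,     c' Θ³⁰ nlSq U¹ ≤ R³√R nlSq U¹ ≤ K₇ Θ²⁸ n²   ⟹   nlSq U¹ ≤ K₇ n²/(c' Θ²)       (Θ > 0).
      `nt_N0T`:   ntS2 (..) ≤ 10¹⁵ K⁴ [ ([[u]] + Λ³)² aa(U¹) + ([[u¹]]² + 1/Θ²) aa(U) ];       multiply by wL 4 28 = Θ² V1 (`w0_wL_Th`, V1 = wL 4 30 rfl):    wL 4 28 ([[u¹]]² + 1/Θ²) ≤ V1 (12 K₇ n²/c' + 1) ≤ (12 K₇/c' + 1)(n² + 1) V1       (n² ≥ 0: `w7_En_nonneg`).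
      C := 10¹⁵ K⁴ (24/c + 2 + 12 K₇/c' + 1).
* `cls_dNN`  (integration).   `nt_Di_le`:  DYT (dTT (NN q g U)) ≤ q (q+1) 𝕀[wL 4 28 Σ_j ntS2 (sl (uT (dTT (NN q g U)) j) t)],     `sl (uT (dTT S) j) t = sl (dT (uT S j)) t`  (funext; `cls_dT_uT`, S = NN q g U smooth by `sm_NN`);
      sum of `cls_dNN_pt` over j (`Fin.sum_univ_three`, `Finset.mul_sum`);    `ii_mono`, `ii_add`, `ii_const_mul`  (CI: `nt_ci_S2`, `nt_ci_aa`/`nl_ci_aa`, weights `((smS_wL 4 28 q Γ).smI ht).continuousOn`);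
      𝕀[wL 4 28 aa(U¹)] ≤ C₂ (D0T + D1T)   (`cls_atoms` with M = 28 applied to U¹ = dTT U; `nl_Aa_eq`; D0T, D1T are rfl),        𝕀[V1 aa(U)] ≤ C₁ (D0 + D1)   (`nl_atoms`).
-/
import Claimed.Agent.R324.Core.CL.SrcA
import Claimed.Agent.R324.Core.CL.SrcB
import Claimed.Agent.R324.Core.NL.Wts

set_option autoImplicit false

namespace Claimed.Agent.R324.Core

open Set Filter Topology MeasureTheory
open scoped ContDiff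

/-- arithmetic core of `cls_dNN_pt`. -/
theorem cls_dNN_pt_arith {K c c' K7 α κ δ Θ w v1 A A1 n a S T6 : ℝ} (hK : 1 ≤ K) (hc : 0 < c) (hc' : 0 < c') (hK7 : 0 ≤ K7)
    (hΘ : 0 < Θ) (hv1 : 0 ≤ v1) (hw : w = Θ ^ 2 * v1) (hA : 0 ≤ A) (hA1 : 0 ≤ A1) (hn : 0 ≤ n)
    (hα : c * α ^ 2 ≤ 12 * a ^ 2) (hκ : κ ^ 2 = T6)
    (hδ : c' * (Θ ^ 2 * δ ^ 2) ≤ 12 * (K7 * n))
    (hS : S ≤ 10 ^ 15 * K ^ 4 * ((α + κ) ^ 2 * A1 + (δ ^ 2 + 1 / Θ ^ 2) * A)) :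
    w * S ≤ 10 ^ 15 * K ^ 4 * (24 / c + 2 + 12 * K7 / c' + 1) * ((a ^ 2 + T6) * (w * A1) + (n + 1) * (v1 * A)) := by
  have hw0 : 0 ≤ w := by rw [hw]; positivity
  have hT6 : 0 ≤ T6 := by rw [← hκ]; positivity
  have h1 : α ^ 2 ≤ 12 / c * a ^ 2 := by
    rw [div_mul_eq_mul_div, le_div_iff₀ hc]; linarith
  have h2 : (α + κ) ^ 2 ≤ (24 / c + 2) * (a ^ 2 + T6) := by
    have h3 : (α + κ) ^ 2 ≤ 2 * α ^ 2 + 2 * κ ^ 2 := by nlinarith [sq_nonneg (α - κ)]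
    have h4 : 0 ≤ 24 / c * T6 := by positivity
    have h5 : 24 / c = 2 * (12 / c) := by ring
    have h6 : 0 ≤ a ^ 2 := by positivity
    rw [hκ] at h3
    nlinarith
  have h3 : Θ ^ 2 * δ ^ 2 ≤ 12 * K7 / c' * n := by
    rw [div_mul_eq_mul_div, le_div_iff₀ hc']; linarith
  have h4 : w * (δ ^ 2 + 1 / Θ ^ 2) ≤ (12 * K7 / c' + 1) * (n + 1) * v1 := by
    have e : w * (δ ^ 2 + 1 / Θ ^ 2) = (Θ ^ 2 * δ ^ 2 + 1) * v1 := by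
      rw [hw]; field_simp
    rw [e]
    apply mul_le_mul_of_nonneg_right _ hv1
    have h5 : 0 ≤ 12 * K7 / c' := by positivity
    nlinarith
  have hP : 0 ≤ (10 : ℝ) ^ 15 * K ^ 4 := by positivity
  have hwA1 : 0 ≤ w * A1 := mul_nonneg hw0 hA1
  have hvA : 0 ≤ v1 * A := mul_nonneg hv1 hA
  have h24 : 0 ≤ 24 / c := by positivity
  have h12 : 0 ≤ 12 * K7 / c' := by positivity
  have ha2 : 0 ≤ a ^ 2 := by positivity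
  calc w * S ≤ w * (10 ^ 15 * K ^ 4 * ((α + κ) ^ 2 * A1 + (δ ^ 2 + 1 / Θ ^ 2) * A)) := mul_le_mul_of_nonneg_left hS hw0
    _ = 10 ^ 15 * K ^ 4 * ((α + κ) ^ 2 * (w * A1) + (w * (δ ^ 2 + 1 / Θ ^ 2)) * A) := by ring
    _ ≤ 10 ^ 15 * K ^ 4 * ((24 / c + 2) * (a ^ 2 + T6) * (w * A1) + ((12 * K7 / c' + 1) * (n + 1) * v1) * A) := by
        apply mul_le_mul_of_nonneg_left _ hP
        exact add_le_add (mul_le_mul_of_nonneg_right h2 hwA1) (mul_le_mul_of_nonneg_right h4 hA)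
    _ ≤ 10 ^ 15 * K ^ 4 * ((24 / c + 2 + 12 * K7 / c' + 1) * ((a ^ 2 + T6) * (w * A1) + (n + 1) * (v1 * A))) := by
        apply mul_le_mul_of_nonneg_left _ hP
        have i1 : 0 ≤ (a ^ 2 + T6) * (w * A1) := by positivity
        have i2 : 0 ≤ (n + 1) * (v1 * A) := by positivity
        nlinarith
    _ = _ := by ring

/-- pointwise. -/
theorem cls_dNN_pt (q : ℕ) (hq6 : 10 ^ 6 ≤ q) (g : Bg) (hg : BgGood q g) (Γ : ℝ) (hΓ : 0 ≤ Γ) :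
    ∃ C a₀ Λ₀ : ℝ, 0 ≤ C ∧ 0 < a₀ ∧ 0 < Λ₀ ∧ ∀ U : Tri, (∀ j, Sm (U j)) → ∀ t ∈ Ico (-Λ₀) 0, ∀ a : ℝ, 0 ≤ a → a ≤ a₀ →
      SupB q 30 U t a → ∀ y ∈ Icc (-1 : ℝ) 1, ∀ j : Fin 3,
      wL 4 28 q Γ t y * ntS2 (sl (dT (uT (NN q g U) j)) t) y
        ≤ C * ((a ^ 2 + (-t) ^ 6) * (wL 4 28 q Γ t y * ntAaU q g (dTT U) t y)
            + (E0T q Γ U t + E1T q g Γ U t + 1) * (V1 q Γ t y * ntAaU q g U t y)) := by
  have hqR : (10 ^ 6 : ℝ) ≤ (q : ℝ) := by exact_mod_cast hq6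
  have hq0 : (0 : ℝ) < (q : ℝ) := by linarith
  obtain ⟨K, Λ₁, hc⟩ := nt_coef_bd (q := (q : ℝ)) (g := g) (by linarith) hg
  obtain ⟨c, hc0, hcS⟩ := nl_wt_sup (q : ℝ) (by linarith)
  obtain ⟨K7, Λ₂, hK7, hΛ₂, h7⟩ := w7_sup_R (q := (q : ℝ)) (g := g) (by linarith) hg 28 (by norm_num)
  obtain ⟨c', hc'0, hc'⟩ := w0_rh7' (q := (q : ℝ)) (by linarith)
  have hK1 := hc.K1
  refine ⟨10 ^ 15 * K ^ 4 * (24 / c + 2 + 12 * K7 / c' + 1), Real.sqrt (c / 12), min Λ₁ (min Λ₂ (100 / q)), by positivity,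
    Real.sqrt_pos.2 (by positivity), lt_min hc.L0 (lt_min hΛ₂ (by positivity)), ?_⟩
  intro U hU t ht a ha0 ha hS y hy j
  have ht0 : t < 0 := ht.2
  have ht1 : t ∈ Ico (-Λ₁) 0 := ⟨by have := ht.1; have := min_le_left Λ₁ (min Λ₂ (100 / (q : ℝ))); linarith, ht0⟩
  have hmm : min Λ₁ (min Λ₂ (100 / (q : ℝ))) ≤ min Λ₂ (100 / (q : ℝ)) := min_le_right _ _
  have ht2 : t ∈ Ico (-Λ₂) 0 := ⟨by have := ht.1; have := min_le_left Λ₂ (100 / (q : ℝ)); linarith, ht0⟩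
  have ht3 : -t ≤ 100 / (q : ℝ) := by have := ht.1; have := min_le_right Λ₂ (100 / (q : ℝ)); linarith
  have hΘ : 0 < Th t y := w0_Th_pos ht0 hy
  have hU1 : ∀ j, Sm (dTT U j) := sm_dTT hU
  -- [[u]]
  have hα1 : (ntUb U t y) ^ 2 ≤ 12 * nlSq q U (t, y) := nt_Ub_sq_le (q := (q : ℝ)) (by linarith) U t y
  have hα2 : c * nlSq q U (t, y) ≤ a ^ 2 := hcS U t a ht0 ht3 hS y hy
  have hα : c * (ntUb U t y) ^ 2 ≤ 12 * a ^ 2 := by nlinarith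
  have ha2 : a ^ 2 ≤ c / 12 := by
    have h := pow_le_pow_left₀ ha0 ha 2
    rwa [Real.sq_sqrt (by positivity)] at h
  have hα3 : ntUb U t y ≤ 1 := by
    have h0 := ntUb_nonneg U t y
    have h1 : c * (ntUb U t y) ^ 2 ≤ c * 1 := by linarith
    have h2 : (ntUb U t y) ^ 2 ≤ 1 := le_of_mul_le_mul_left h1 hc0
    nlinarith
  -- [[u¹]]
  have hδ1 : (ntUb (dTT U) t y) ^ 2 ≤ 12 * nlSq q (dTT U) (t, y) := nt_Ub_sq_le (q := (q : ℝ)) (by linarith) (dTT U) t y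
  have hN0 : 0 ≤ nlSq q (dTT U) (t, y) := nl_wt_sq_nonneg hq0.le _ _
  have h71 : (rh2 q t y) ^ 3 * Real.sqrt (rh2 q t y) * nlSq q (dTT U) (t, y)
      ≤ K7 * (Th t y) ^ 28 * (E0T q Γ U t + E1T q g Γ U t) := (h7 Γ hΓ t ht2 (dTT U) hU1 y hy).1
  have h72 := mul_le_mul_of_nonneg_right (hc' t ht0 ht3 y hy) hN0
  have hδ2 : c' * ((Th t y) ^ 2 * nlSq q (dTT U) (t, y)) ≤ K7 * (E0T q Γ U t + E1T q g Γ U t) := by
    have hT28 : 0 < (Th t y) ^ 28 := pow_pos hΘ 28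
    have h : (c' * ((Th t y) ^ 2 * nlSq q (dTT U) (t, y))) * (Th t y) ^ 28 ≤ (K7 * (E0T q Γ U t + E1T q g Γ U t)) * (Th t y) ^ 28 := by
      calc _ = c' * (Th t y) ^ 30 * nlSq q (dTT U) (t, y) := by ring
        _ ≤ _ := h72.trans h71
        _ = _ := by ring
    exact le_of_mul_le_mul_right h hT28
  have hδ : c' * ((Th t y) ^ 2 * (ntUb (dTT U) t y) ^ 2) ≤ 12 * (K7 * (E0T q Γ U t + E1T q g Γ U t)) := by
    have h : c' * ((Th t y) ^ 2 * (ntUb (dTT U) t y) ^ 2) ≤ c' * ((Th t y) ^ 2 * (12 * nlSq q (dTT U) (t, y))) :=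
      mul_le_mul_of_nonneg_left (mul_le_mul_of_nonneg_left hδ1 (by positivity)) hc'0.le
    nlinarith
  have hn : 0 ≤ E0T q Γ U t + E1T q g Γ U t :=
    add_nonneg (w7_En_nonneg hq0 (fun y hy => (w0_wL_pos (by linarith) hΓ ht0 hy).le) _)
      (w7_En_nonneg hq0 (fun y hy => (w0_wL_pos (by linarith) hΓ ht0 hy).le) _)
  have hS' := nt_N0T (q := (q : ℝ)) (by linarith) hg.sm hc hU ht1 hy hα3 j
  exact cls_dNN_pt_arith hK1 hc0 hc'0 hK7 hΘ (w0_wL_pos (by linarith) hΓ ht0 hy).le (w0_wL_Th ht0 hy)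
    (ntAaU_nonneg _ _ _ _ _) (ntAaU_nonneg _ _ _ _ _) hn hα (by ring) hδ hS'

/-- integrated. -/
theorem cls_dNN (q : ℕ) (hq6 : 10 ^ 6 ≤ q) (g : Bg) (hg : BgGood q g) (Γ : ℝ) (hΓ : 0 ≤ Γ) :
    ∃ C a₀ Λ₀ : ℝ, 0 ≤ C ∧ 0 < a₀ ∧ 0 < Λ₀ ∧ ∀ U : Tri, (∀ j, Sm (U j)) → ∀ t ∈ Ico (-Λ₀) 0, ∀ a : ℝ, 0 ≤ a → a ≤ a₀ →
      SupB q 30 U t a →
      DYT q Γ (dTT (NN q g U)) t ≤ C * (a ^ 2 + (-t) ^ 6) * (D0T q Γ U t + D1T q g Γ U t)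
        + C * (E0T q Γ U t + E1T q g Γ U t + 1) * (D0 q Γ U t + D1 q g Γ U t) := by
  have hq6' : (10 : ℝ) ^ 6 ≤ (q : ℝ) := by exact_mod_cast hq6
  have hq1 : (1 : ℝ) < (q : ℝ) := by linarith
  have hq0 : (0 : ℝ) < (q : ℝ) := by linarith
  obtain ⟨C₀, a₀, Λ₁, hC₀, ha₀, hΛ₁, hpt⟩ := cls_dNN_pt q hq6 g hg Γ hΓ
  obtain ⟨C₁, Λ₂, hC₁, hΛ₂, hat⟩ := nl_atoms q hq6 g hg Γ hΓ
  obtain ⟨C₂, Λ₃, hC₂, hΛ₃, hatT⟩ := cls_atoms q hq6 g hg Γ hΓ 28 (by norm_num)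
  refine ⟨(q : ℝ) * ((q : ℝ) + 1) * (3 * C₀) * (C₁ + C₂), a₀, min Λ₁ (min Λ₂ Λ₃), by positivity, ha₀,
    lt_min hΛ₁ (lt_min hΛ₂ hΛ₃), ?_⟩
  intro U hU t ht a ha haa hS
  have ht0 : t < 0 := ht.2
  have hm1 : min Λ₁ (min Λ₂ Λ₃) ≤ Λ₁ := min_le_left _ _
  have hm2 : min Λ₁ (min Λ₂ Λ₃) ≤ Λ₂ := (min_le_right _ _).trans (min_le_left _ _)
  have hm3 : min Λ₁ (min Λ₂ Λ₃) ≤ Λ₃ := (min_le_right _ _).trans (min_le_right _ _)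
  have ht1 : t ∈ Ico (-Λ₁) 0 := ⟨by linarith [ht.1], ht0⟩
  have ht2 : t ∈ Ico (-Λ₂) 0 := ⟨by linarith [ht.1], ht0⟩
  have ht3 : t ∈ Ico (-Λ₃) 0 := ⟨by linarith [ht.1], ht0⟩
  have hW : CI (wL 4 28 q Γ t) := ((smS_wL 4 28 q Γ).smI ht0).continuousOn
  have hV : CI (V1 q Γ t) := ((smS_wL 4 30 q Γ).smI ht0).continuousOn
  have hW0 : ∀ y ∈ Icc (-1 : ℝ) 1, 0 ≤ wL 4 28 q Γ t y := fun y hy => (w0_wL_pos hq1 hΓ ht0 hy).le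
  have hW2 : ∀ y ∈ Icc (-1 : ℝ) 1, 0 ≤ wL 2 28 q Γ t y := fun y hy => (w0_wL_pos hq1 hΓ ht0 hy).le
  have hV00 : ∀ y ∈ Icc (-1 : ℝ) 1, 0 ≤ V0 q Γ t y := fun y hy => (w0_wL_pos hq1 hΓ ht0 hy).le
  have hV10 : ∀ y ∈ Icc (-1 : ℝ) 1, 0 ≤ V1 q Γ t y := fun y hy => (w0_wL_pos hq1 hΓ ht0 hy).le
  have hN : ∀ j, Sm (NN q g U j) := sm_NN hq1 hg.sm hU
  have hdN : ∀ j, Sm (dTT (NN q g U) j) := sm_dTT hN
  have hU1 : ∀ j, Sm (dTT U j) := sm_dTT hU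
  have h1 : DYT q Γ (dTT (NN q g U)) t
      ≤ (q : ℝ) * ((q : ℝ) + 1) * II (fun y => wL 4 28 q Γ t y * ∑ j, ntS2 (sl (uT (dTT (NN q g U)) j) t) y) :=
    nt_Di_le hq1.le hW hW0 hdN ht0
  have cX : CI (fun y => wL 4 28 q Γ t y * ntAaU q g (dTT U) t y) := hW.mul (nt_ci_aa hq1 hg.sm hU1 ht0)
  have cY : CI (fun y => V1 q Γ t y * ntAaU q g U t y) := hV.mul (nt_ci_aa hq1 hg.sm hU ht0)
  have hA0 : 0 ≤ a ^ 2 + (-t) ^ 6 := by positivity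
  have hE0 : 0 ≤ E0T q Γ U t := w7_En_nonneg hq0 hW2 _
  have hE1 : 0 ≤ E1T q g Γ U t := w7_En_nonneg hq0 hW0 _
  have hD0T : 0 ≤ D0T q Γ U t := w2_Di_nonneg hq1.le hW2 _
  have hD1T : 0 ≤ D1T q g Γ U t := w2_Di_nonneg hq1.le hW0 _
  have hD0 : 0 ≤ D0 q Γ U t := w2_Di_nonneg hq1.le hV00 _
  have hD1 : 0 ≤ D1 q g Γ U t := w2_Di_nonneg hq1.le hV10 _
  have h3 : II (fun y => wL 4 28 q Γ t y * ntAaU q g (dTT U) t y) ≤ C₂ * (D0T q Γ U t + D1T q g Γ U t) := by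
    have := hatT (dTT U) hU1 t ht3
    simp only [nl_Aa_eq] at this
    exact this
  have h4 : II (fun y => V1 q Γ t y * ntAaU q g U t y) ≤ C₁ * (D0 q Γ U t + D1 q g Γ U t) := by
    have := hat U hU t ht2
    simp only [nl_Aa_eq] at this
    exact this
  have h2 : II (fun y => wL 4 28 q Γ t y * ∑ j, ntS2 (sl (uT (dTT (NN q g U)) j) t) y)
      ≤ II (fun y => 3 * C₀ * (a ^ 2 + (-t) ^ 6) * (wL 4 28 q Γ t y * ntAaU q g (dTT U) t y)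
          + 3 * C₀ * (E0T q Γ U t + E1T q g Γ U t + 1) * (V1 q Γ t y * ntAaU q g U t y)) := by
    refine ii_mono (hW.mul (nt_ci_S2 hdN ht0)) ((continuousOn_const.mul cX).add (continuousOn_const.mul cY))
      (fun y hy => ?_)
    have e : ∀ j, sl (uT (dTT (NN q g U)) j) t = sl (dT (uT (NN q g U) j)) t := fun j => by
      funext z
      exact (cls_dT_uT hN ht0 j z).symm
    have p0 := hpt U hU t ht1 a ha haa hS y hy 0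
    have p1 := hpt U hU t ht1 a ha haa hS y hy 1
    have p2 := hpt U hU t ht1 a ha haa hS y hy 2
    rw [Fin.sum_univ_three, e 0, e 1, e 2]
    linarith
  have e2 : II (fun y => 3 * C₀ * (a ^ 2 + (-t) ^ 6) * (wL 4 28 q Γ t y * ntAaU q g (dTT U) t y)
          + 3 * C₀ * (E0T q Γ U t + E1T q g Γ U t + 1) * (V1 q Γ t y * ntAaU q g U t y))
      = 3 * C₀ * (a ^ 2 + (-t) ^ 6) * II (fun y => wL 4 28 q Γ t y * ntAaU q g (dTT U) t y)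
        + 3 * C₀ * (E0T q Γ U t + E1T q g Γ U t + 1) * II (fun y => V1 q Γ t y * ntAaU q g U t y) := by
    rw [← ii_const_mul, ← ii_const_mul]
    exact ii_add (continuousOn_const.mul cX) (continuousOn_const.mul cY)
  rw [e2] at h2
  have k1 : 3 * C₀ * (a ^ 2 + (-t) ^ 6) * II (fun y => wL 4 28 q Γ t y * ntAaU q g (dTT U) t y)
      ≤ 3 * C₀ * (a ^ 2 + (-t) ^ 6) * (C₂ * (D0T q Γ U t + D1T q g Γ U t)) :=
    mul_le_mul_of_nonneg_left h3 (by positivity)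
  have k2 : 3 * C₀ * (E0T q Γ U t + E1T q g Γ U t + 1) * II (fun y => V1 q Γ t y * ntAaU q g U t y)
      ≤ 3 * C₀ * (E0T q Γ U t + E1T q g Γ U t + 1) * (C₁ * (D0 q Γ U t + D1 q g Γ U t)) :=
    mul_le_mul_of_nonneg_left h4 (by positivity)
  have k3 : DYT q Γ (dTT (NN q g U)) t
      ≤ (q : ℝ) * ((q : ℝ) + 1) * (3 * C₀ * (a ^ 2 + (-t) ^ 6) * (C₂ * (D0T q Γ U t + D1T q g Γ U t))
          + 3 * C₀ * (E0T q Γ U t + E1T q g Γ U t + 1) * (C₁ * (D0 q Γ U t + D1 q g Γ U t))) :=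
    h1.trans (mul_le_mul_of_nonneg_left (by linarith) (by positivity))
  have k4 : 0 ≤ (q : ℝ) * ((q : ℝ) + 1) * (3 * C₀) * C₁ * (a ^ 2 + (-t) ^ 6) * (D0T q Γ U t + D1T q g Γ U t) := by
    positivity
  have k5 : 0 ≤ (q : ℝ) * ((q : ℝ) + 1) * (3 * C₀) * C₂ * (E0T q Γ U t + E1T q g Γ U t + 1)
      * (D0 q Γ U t + D1 q g Γ U t) := by
    positivity
  generalize a ^ 2 + (-t) ^ 6 = A at k3 k4 ⊢
  generalize E0T q Γ U t + E1T q g Γ U t + 1 = N at k3 k5 ⊢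
  generalize D0T q Γ U t + D1T q g Γ U t = DT at k3 k4 ⊢
  generalize D0 q Γ U t + D1 q g Γ U t = D at k3 k5 ⊢
  linarith

end Claimed.Agent.R324.Core
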