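/-
Row 324 (S0582), PDE core, module CL.   Architect of this part: helper762.   Blueprint: origin/helper325:docs/R324_CL.md, section C1 (source estimate).

INTERFACE of the source estimate of the time level (static: fixed `t`; only the slices of `U` and `∂_t U` at time `t` enter; no equation is used).
   `S¹ = [∂_t, L̃] U + ∂_t (NN U) - ∂_t Res`,    `[∂_t, L̃] U = μ L̃ U + FF U`  (7.4 LD0(c)).
ASSEMBLY:   `cls_split` (Core/CL/SrcB.lean):  DYT S¹ ≤ 3 (DYT [∂_t, L̃]U + DYT ∂_t NN(U) + DYT ∂_t Res);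
   `cls_comm` (SrcB):  DYT [∂_t, L̃]U ≤ C₁ (D0 + D1);      `cls_dNN` (SrcC):  DYT ∂_t NN(U) ≤ C₂ (a² + Λ⁶)(D0T + D1T) + C₂ (E0T + E1T + 1)(D0 + D1);       `cl_need_res` (Need):  DYT ∂_t Res ≤ C₃/√Λ.
   C := 3 (C₁ + C₂ + C₃),  Λ₀ := min of the three,  a₀ from `cls_dNN`.      Signs:  D0, D1, D0T, D1T ≥ 0 (`w2_Di_nonneg`, `w0_wL_pos`),  E0T, E1T ≥ 0 (`w7_En_nonneg`),  so  C₁ (D0 + D1) ≤ C₁ (E0T + E1T + 1)(D0 + D1).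
-/
import Claimed.Agent.R324.Core.CL.SrcC

set_option autoImplicit false

namespace Claimed.Agent.R324.Core

open Set Filter Topology MeasureTheory
open scoped ContDiff

/-- **the source estimate of the time level.** -/
theorem cl_src (q : ℕ) (hq6 : 10 ^ 6 ≤ q) (g : Bg) (hg : BgGood q g) (Γ : ℝ) (hΓ : 0 ≤ Γ) :
    ∃ C a₀ Λ₀ : ℝ, 0 ≤ C ∧ 0 < a₀ ∧ 0 < Λ₀ ∧ ∀ U : Tri, (∀ j, Sm (U j)) → ∀ t ∈ Ico (-Λ₀) 0, ∀ a : ℝ, 0 ≤ a → a ≤ a₀ →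
      SupB q 30 U t a →
      DYT q Γ (S1F q g U) t ≤ C * (a ^ 2 + (-t) ^ 6) * (D0T q Γ U t + D1T q g Γ U t)
        + C * (E0T q Γ U t + E1T q g Γ U t + 1) * (D0 q Γ U t + D1 q g Γ U t) + C / Real.sqrt (-t) := by
  have hq6' : (10 : ℝ) ^ 6 ≤ (q : ℝ) := by exact_mod_cast hq6
  have hq1 : (1 : ℝ) < (q : ℝ) := by linarith
  obtain ⟨C₁, Λ₁, hC₁, hΛ₁, h1⟩ := cls_comm q hq6 g hg Γ hΓ
  obtain ⟨C₂, a₀, Λ₂, hC₂, ha₀, hΛ₂, h2⟩ := cls_dNN q hq6 g hg Γ hΓ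
  obtain ⟨C₃, Λ₃, hC₃, hΛ₃, h3⟩ := cl_need_res q hq6 g hg Γ hΓ
  refine ⟨3 * (C₁ + C₂ + C₃), a₀, min Λ₁ (min Λ₂ Λ₃), by positivity, ha₀, lt_min hΛ₁ (lt_min hΛ₂ hΛ₃), ?_⟩
  intro U hU t ht a ha ha' hS
  have ht0 : t < 0 := ht.2
  have hm1 : min Λ₁ (min Λ₂ Λ₃) ≤ Λ₁ := min_le_left _ _
  have hm2 : min Λ₁ (min Λ₂ Λ₃) ≤ Λ₂ := (min_le_right _ _).trans (min_le_left _ _)
  have hm3 : min Λ₁ (min Λ₂ Λ₃) ≤ Λ₃ := (min_le_right _ _).trans (min_le_right _ _)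
  have b0 := cls_split hq1 hg.sm hΓ hU ht0
  have b1 := h1 U hU t ⟨by linarith [ht.1], ht0⟩
  have b2 := h2 U hU t ⟨by linarith [ht.1], ht0⟩ a ha ha' hS
  have b3 := (h3 t ⟨by linarith [ht.1], ht0⟩).2
  have hw : ∀ (k M : ℕ), ∀ y ∈ Icc (-1 : ℝ) 1, 0 ≤ wL k M (q : ℝ) Γ t y :=
    fun k M y hy => (w0_wL_pos hq1 hΓ ht0 hy).le
  have dD0 : 0 ≤ D0 q Γ U t := w2_Di_nonneg hq1.le (hw 2 30) _
  have dD1 : 0 ≤ D1 q g Γ U t := w2_Di_nonneg hq1.le (hw 4 30) _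
  have dD0T : 0 ≤ D0T q Γ U t := w2_Di_nonneg hq1.le (hw 2 28) _
  have dD1T : 0 ≤ D1T q g Γ U t := w2_Di_nonneg hq1.le (hw 4 28) _
  have dE0T : 0 ≤ E0T q Γ U t := w7_En_nonneg (by linarith) (hw 2 28) _
  have dE1T : 0 ≤ E1T q g Γ U t := w7_En_nonneg (by linarith) (hw 4 28) _
  have hs : 0 ≤ 1 / Real.sqrt (-t) := by positivity
  have hΛ6 : 0 ≤ a ^ 2 + (-t) ^ 6 := by positivity
  obtain ⟨P, hP⟩ : ∃ P, P = (a ^ 2 + (-t) ^ 6) * (D0T q Γ U t + D1T q g Γ U t) := ⟨_, rfl⟩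
  obtain ⟨Q, hQ⟩ : ∃ Q, Q = (E0T q Γ U t + E1T q g Γ U t + 1) * (D0 q Γ U t + D1 q g Γ U t) := ⟨_, rfl⟩
  have hP0 : 0 ≤ P := by rw [hP]; exact mul_nonneg hΛ6 (add_nonneg dD0T dD1T)
  have hDQ : D0 q Γ U t + D1 q g Γ U t ≤ Q := by
    rw [hQ]
    have := mul_nonneg (add_nonneg dE0T dE1T) (add_nonneg dD0 dD1)
    nlinarith
  have hQ0 : 0 ≤ Q := (add_nonneg dD0 dD1).trans hDQ
  have e1 : 3 * (C₁ + C₂ + C₃) * (a ^ 2 + (-t) ^ 6) * (D0T q Γ U t + D1T q g Γ U t) = 3 * (C₁ + C₂ + C₃) * P := by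
    rw [hP]; ring
  have e2 : 3 * (C₁ + C₂ + C₃) * (E0T q Γ U t + E1T q g Γ U t + 1) * (D0 q Γ U t + D1 q g Γ U t)
      = 3 * (C₁ + C₂ + C₃) * Q := by
    rw [hQ]; ring
  have e3 : C₂ * (a ^ 2 + (-t) ^ 6) * (D0T q Γ U t + D1T q g Γ U t) = C₂ * P := by rw [hP]; ring
  have e4 : C₂ * (E0T q Γ U t + E1T q g Γ U t + 1) * (D0 q Γ U t + D1 q g Γ U t) = C₂ * Q := by rw [hQ]; ring
  rw [e1, e2]
  rw [e3, e4] at b2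
  have b1' : DYT q Γ (clsCm q g U) t ≤ C₁ * Q := b1.trans (mul_le_mul_of_nonneg_left hDQ hC₁)
  have e5 : 3 * (C₁ + C₂ + C₃) / Real.sqrt (-t) = 3 * (C₁ + C₂ + C₃) * (1 / Real.sqrt (-t)) := by ring
  have e6 : C₃ / Real.sqrt (-t) = C₃ * (1 / Real.sqrt (-t)) := by ring
  rw [e5]
  rw [e6] at b3
  have n1 := mul_nonneg hC₁ hP0
  have n2 := mul_nonneg hC₃ hP0
  have n3 := mul_nonneg hC₃ hQ0
  have n4 := mul_nonneg hC₁ hs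
  have n5 := mul_nonneg hC₂ hs
  nlinarith

end Claimed.Agent.R324.Core
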