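/-
Row 324 (S0582), PDE core, module CL.   Architect: helper325.   Blueprint: origin/helper325:docs/R324_CL.md, section C1.

THE TIME LEVEL.    `U` smooth, `NLU q g t₀ U`, `XB q g Γ t₀ ε₁ U`.    `U¹ = dTT U`,  `𝓔 = A E0T + E1T`,  `d = D0 + D1 + 1/√Λ`  (`∫_{t₀}^0 d < ∞`).
  (T1) `cl_time_eq`     `∂_t U¹ = L̃ U¹ + S¹`  on `(t₀,0) × [-1,1]`.
  (T2) `cl_time_core`   `Λ²² E_{wH 3 52}(U¹) ≤ C (D1(U) + DY(NN U) + DY(Res))`.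
  (T3) `cl_supB`        `E0 + E1 ≤ R²  ⇒  SupB q 30 U t (C R)`.
  (T4) `cl_time_ineq`   `𝓔' ≤ K (𝓔 + 1) d`.
  (T5) `cl_time_bound`  `sup_{[t₀/2,0)} (E0T + E1T) < ∞`.
-/
import Claimed.Agent.R324.Core.CL.Src
import Claimed.Agent.R324.Core.CL.Wt

set_option autoImplicit false

namespace Claimed.Agent.R324.Core

open Set Filter Topology MeasureTheory
open scoped ContDiff

/-- (T1).   Fix `y ∈ [-1,1]`, `j`.   On the open interval `(t₀,0)` the functions `s ↦ dT (U j) (s,y)` and `s ↦ Rhs q g U j (s,y) - Res q g j (s,y)` coincide (`NLU`), so they have the same derivative at `t`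
(`Filter.EventuallyEq.deriv_eq`, `Ioo_mem_nhds`):   `dT (dT (U j)) (t,y) = dT (fun p => Rhs q g U j p - Res q g j p) (t,y) = dT (Rhs ..) - dT (Res ..)`  (`dT_sub`, `sm_Rhs`, `BgSm.smRes`).
`NN q g U j = fun p => Rhs q g U j p - Lt q g U j p` by definition, so `dT (NN ..) = dT (Rhs ..) - dT (Lt ..)` (`dT_sub`, `sm_Lt`).    Unfold `S1F`, `dTT`; `ring`. -/
theorem cl_time_eq {q : ℝ} (hq : 1 < q) {g : Bg} (hg : BgSm g) {U : Tri} (hU : ∀ j, Sm (U j)) {t₀ : ℝ}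
    (h : NLU q g t₀ U) :
    ∀ j, ∀ t ∈ Ioo t₀ 0, ∀ y ∈ Icc (-1 : ℝ) 1,
      dT (dTT U j) (t, y) = Lt q g (dTT U) j (t, y) + S1F q g U j (t, y) := by
  intro j t ht y hy
  have ht0 : t < 0 := ht.2
  have e1 : dT (dTT U j) (t, y) = dT (fun p => Rhs q g U j p - Res q g j p) (t, y) := by
    show deriv (fun s => dT (U j) (s, y)) t = deriv (fun s => Rhs q g U j (s, y) - Res q g j (s, y)) t
    refine Filter.EventuallyEq.deriv_eq ?_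
    filter_upwards [Ioo_mem_nhds ht.1 ht.2] with s hs
    exact h j s hs y hy
  have e2 := dT_sub (sm_Rhs q hg hU j) (hg.smRes q j) ht0 y
  have e3 : dT (NN q g U j) (t, y) = dT (Rhs q g U j) (t, y) - dT (Lt q g U j) (t, y) :=
    dT_sub (sm_Rhs q hg hU j) (sm_Lt hq hg hU j) ht0 y
  rw [e1, e2]
  unfold S1F
  rw [e3]
  ring

theorem cl_tc_sq3 (x y z : ℝ) : (x + y - z) ^ 2 ≤ 3 * (x ^ 2 + y ^ 2 + z ^ 2) := by
  nlinarith [sq_nonneg (x - y), sq_nonneg (x + z), sq_nonneg (y + z)]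

theorem cl_tc_n2_three {q : ℝ} (hq : 0 ≤ q) (u a b c : Fin 3 → ℝ → ℝ) (y : ℝ)
    (h : ∀ j, u j y = a j y + b j y - c j y) :
    n2 q u y ≤ 3 * (n2 q a y + n2 q b y + n2 q c y) := by
  unfold n2
  rw [h 0, h 1, h 2]
  have h0 := cl_tc_sq3 (a 0 y) (b 0 y) (c 0 y)
  have h1 := cl_tc_sq3 (a 1 y) (b 1 y) (c 1 y)
  have h2 := cl_tc_sq3 ((1 - y ^ 2) * a 2 y) ((1 - y ^ 2) * b 2 y) ((1 - y ^ 2) * c 2 y)
  have e2 : (1 - y ^ 2) * (a 2 y + b 2 y - c 2 y)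
      = (1 - y ^ 2) * a 2 y + (1 - y ^ 2) * b 2 y - (1 - y ^ 2) * c 2 y := by ring
  rw [e2]
  have k0 : (0 : ℝ) ≤ q + 1 := by linarith
  have k2 : (0 : ℝ) ≤ q / (q + 1) := div_nonneg hq k0
  have m0 := mul_le_mul_of_nonneg_left h0 k0
  have m2 := mul_le_mul_of_nonneg_left h2 k2
  nlinarith [m0, m2, h1]

theorem cl_tc_n2_nonneg {q : ℝ} (hq : 0 ≤ q) (u : Fin 3 → ℝ → ℝ) (y : ℝ) : 0 ≤ n2 q u y ∧ 0 ≤ n2t q u y := by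
  have k0 : (0 : ℝ) ≤ q + 1 := by linarith
  have k2 : (0 : ℝ) ≤ q / (q + 1) := div_nonneg hq k0
  unfold n2 n2t
  constructor <;> positivity

theorem cl_tc_II3 {f1 f2 f3 : ℝ → ℝ} (h1 : ContinuousOn f1 (Icc (-1 : ℝ) 1)) (h2 : ContinuousOn f2 (Icc (-1 : ℝ) 1))
    (h3 : ContinuousOn f3 (Icc (-1 : ℝ) 1)) (c : ℝ) :
    II (fun y => c * ((f1 y + f2 y) + f3 y)) = c * (II f1 + II f2 + II f3) := by
  have h12 : ContinuousOn (fun y => f1 y + f2 y) (Icc (-1 : ℝ) 1) := h1.add h2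
  rw [cl_II_const_mul, cl_II_add h12 h3, cl_II_add h1 h2]

theorem cl_tc_cont_wL (a M : ℕ) (q Γ : ℝ) {t : ℝ} (ht : t < 0) :
    ContinuousOn (wL a M q Γ t) (Icc (-1 : ℝ) 1) :=
  (cl_wL_contOn a M q Γ).comp (f := fun y : ℝ => ((t, y) : ℝ × ℝ)) (by fun_prop)
    (fun y hy => ⟨ht, hy⟩)

theorem cl_tc_cont_wH (a M : ℕ) (q : ℝ) {t : ℝ} (ht : t < 0) :
    ContinuousOn (wH a M q t) (Icc (-1 : ℝ) 1) :=
  (cl_wH_contOn a M q).comp (f := fun y : ℝ => ((t, y) : ℝ × ℝ)) (by fun_prop)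
    (fun y hy => ⟨ht, hy⟩)

theorem cl_tc_cont_n2 (q : ℝ) {V : Tri} (hV : ∀ j, Sm (V j)) {t : ℝ} (ht : t < 0) :
    Continuous (n2 q (slT V t)) ∧ Continuous (n2t q (slT V t)) :=
  ⟨((cl_n2_sm q hV).1.sl ht).continuous, ((cl_n2_sm q hV).2.sl ht).continuous⟩

theorem cl_tc_cont_Di (a M : ℕ) (q Γ : ℝ) {V : Tri} (hV : ∀ j, Sm (V j)) {t : ℝ} (ht : t < 0) :
    ContinuousOn (fun y => wL a M q Γ t y * (n2t q (slT V t) y + q * n2 q (slT V t) y)) (Icc (-1 : ℝ) 1) :=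
  (cl_tc_cont_wL a M q Γ ht).mul
    (((cl_tc_cont_n2 q hV ht).2.add (continuous_const.mul (cl_tc_cont_n2 q hV ht).1)).continuousOn)

/-- (T2).   Pointwise on `[-1,1]`:  by `NLU` and the definition of `NN`,  `dTT U j (t,y) = Lt q g U j (t,y) + NN q g U j (t,y) - Res q g j (t,y)`, so (each of the three squares, `(a+b-c)² ≤ 3(a²+b²+c²)`)
      `n2 q (slT (dTT U) t) y ≤ 3 (n2 q (slT (Lt q g U) t) y + n2 q (slT (NN q g U) t) y + n2 q (slT (Res q g) t) y)`.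
`cl_wt_core`:  `Λ²² X wH 3 52 ≤ (4/3) V₁`;    `V₁ n2(S) ≤ (1/q) V₁ (n2t(S) + q n2(S))`.     Integrate:  `cl_II_mono`, `cl_II_add`, `cl_II_const_mul` (continuity of the integrands on `[-1,1]`: `cl_n2_sm` + `Sm.sl`, `cl_wL_contOn`, `cl_wH_contOn` restricted to the slice).
`C = 4` works (`4/q ≤ 4`). -/
theorem cl_time_core (q : ℕ) (hq6 : 10 ^ 6 ≤ q) (g : Bg) (hg : BgGood q g) (Γ : ℝ) (hΓ : 0 ≤ Γ) :
    ∃ C Λ₀ : ℝ, 0 ≤ C ∧ 0 < Λ₀ ∧ ∀ (t₀ : ℝ) (U : Tri), (∀ j, Sm (U j)) → NLU q g t₀ U → ∀ t ∈ Ioo t₀ 0, -Λ₀ ≤ t →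
      (-t) ^ 22 * En q (wH 3 52 q t) (slT (dTT U) t)
        ≤ C * (D1 q g Γ U t + DY q Γ (NN q g U) t + DY q Γ (Res q g) t) := by
  have hqR : (10 ^ 6 : ℝ) ≤ (q : ℝ) := by exact_mod_cast hq6
  have hq100 : (100 : ℝ) ≤ (q : ℝ) := by linarith
  have hq1 : (1 : ℝ) < (q : ℝ) := by linarith
  have hq0 : (0 : ℝ) ≤ (q : ℝ) := by linarith
  refine ⟨4, min (100 / (q : ℝ)) 1, by norm_num, lt_min (by positivity) one_pos, ?_⟩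
  intro t₀ U hU hN t ht htΛ
  have ht0 : t < 0 := ht.2
  have ht' : -(100 / (q : ℝ)) ≤ t := le_trans (neg_le_neg (min_le_left _ _)) htΛ
  have ht1 : -1 ≤ t := le_trans (neg_le_neg (min_le_right _ _)) htΛ
  have sL := sm_Lt hq1 hg.sm hU
  have sN := sm_NN hq1 hg.sm hU
  have sR := hg.sm.smRes (q : ℝ)
  have cL := cl_tc_cont_Di 4 30 (q : ℝ) Γ sL ht0
  have cN := cl_tc_cont_Di 4 30 (q : ℝ) Γ sN ht0
  have cR := cl_tc_cont_Di 4 30 (q : ℝ) Γ sR ht0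
  have cU : ContinuousOn (fun y => (-t) ^ 22 * ((1 - y ^ 2) * wH 3 52 (q : ℝ) t y * n2 (q : ℝ) (slT (dTT U) t) y))
      (Icc (-1 : ℝ) 1) := by
    refine continuousOn_const.mul (ContinuousOn.mul (ContinuousOn.mul (by fun_prop) (cl_tc_cont_wH 3 52 (q : ℝ) ht0))
      (cl_tc_cont_n2 (q : ℝ) (sm_dTT hU) ht0).1.continuousOn)
  have e1 : (-t) ^ 22 * En (q : ℝ) (wH 3 52 (q : ℝ) t) (slT (dTT U) t)
      = II (fun y => (-t) ^ 22 * ((1 - y ^ 2) * wH 3 52 (q : ℝ) t y * n2 (q : ℝ) (slT (dTT U) t) y)) := by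
    rw [cl_II_const_mul]
    rfl
  have e2 : 4 * (D1 (q : ℝ) g Γ U t + DY (q : ℝ) Γ (NN (q : ℝ) g U) t + DY (q : ℝ) Γ (Res (q : ℝ) g) t)
      = II (fun y => 4 * ((wL 4 30 (q : ℝ) Γ t y * (n2t (q : ℝ) (slT (Lt (q : ℝ) g U) t) y
            + (q : ℝ) * n2 (q : ℝ) (slT (Lt (q : ℝ) g U) t) y)
          + wL 4 30 (q : ℝ) Γ t y * (n2t (q : ℝ) (slT (NN (q : ℝ) g U) t) y
            + (q : ℝ) * n2 (q : ℝ) (slT (NN (q : ℝ) g U) t) y))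
          + wL 4 30 (q : ℝ) Γ t y * (n2t (q : ℝ) (slT (Res (q : ℝ) g) t) y
            + (q : ℝ) * n2 (q : ℝ) (slT (Res (q : ℝ) g) t) y))) := by
    exact (cl_tc_II3 cL cN cR 4).symm
  rw [e1, e2]
  refine cl_II_mono cU (continuousOn_const.mul ((cL.add cN).add cR)) (fun y hy => ?_)
  have hw := cl_wt_core hq100 hΓ ht0 ht' ht1 y hy
  have hV : 0 < wL 4 30 (q : ℝ) Γ t y := (cl_wL_bounds 4 30 hq1 hΓ ht0 y hy).2.2
  have hV1 : V1 (q : ℝ) Γ t y = wL 4 30 (q : ℝ) Γ t y := rfl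
  rw [hV1] at hw
  have h3 := cl_tc_n2_three hq0 (slT (dTT U) t) (slT (Lt (q : ℝ) g U) t) (slT (NN (q : ℝ) g U) t)
    (slT (Res (q : ℝ) g) t) y (fun j => by
      show dT (U j) (t, y) = Lt (q : ℝ) g U j (t, y) + (Rhs (q : ℝ) g U j (t, y) - Lt (q : ℝ) g U j (t, y))
        - Res (q : ℝ) g j (t, y)
      rw [hN j t ht y hy]
      ring)
  obtain ⟨a0, -⟩ := cl_tc_n2_nonneg hq0 (slT (dTT U) t) y
  obtain ⟨a1, b1⟩ := cl_tc_n2_nonneg hq0 (slT (Lt (q : ℝ) g U) t) y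
  obtain ⟨a2, b2⟩ := cl_tc_n2_nonneg hq0 (slT (NN (q : ℝ) g U) t) y
  obtain ⟨a3, b3⟩ := cl_tc_n2_nonneg hq0 (slT (Res (q : ℝ) g) t) y
  generalize n2 (q : ℝ) (slT (dTT U) t) y = n at *
  generalize n2 (q : ℝ) (slT (Lt (q : ℝ) g U) t) y = n1 at *
  generalize n2 (q : ℝ) (slT (NN (q : ℝ) g U) t) y = n2' at *
  generalize n2 (q : ℝ) (slT (Res (q : ℝ) g) t) y = n3 at *
  generalize n2t (q : ℝ) (slT (Lt (q : ℝ) g U) t) y = m1 at *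
  generalize n2t (q : ℝ) (slT (NN (q : ℝ) g U) t) y = m2 at *
  generalize n2t (q : ℝ) (slT (Res (q : ℝ) g) t) y = m3 at *
  generalize wL 4 30 (q : ℝ) Γ t y = V at *
  have hX : Xf y = 1 - y ^ 2 := rfl
  rw [hX] at hw
  calc (-t) ^ 22 * ((1 - y ^ 2) * wH 3 52 (q : ℝ) t y * n)
      = ((-t) ^ 22 * ((1 - y ^ 2) * wH 3 52 (q : ℝ) t y)) * n := by ring
    _ ≤ (4 / 3 * V) * n := mul_le_mul_of_nonneg_right hw a0
    _ ≤ (4 / 3 * V) * (3 * (n1 + n2' + n3)) := mul_le_mul_of_nonneg_left h3 (by positivity)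
    _ = 4 * (V * (n1 + n2' + n3)) := by ring
    _ ≤ 4 * (V * ((m1 + (q : ℝ) * n1) + (m2 + (q : ℝ) * n2') + (m3 + (q : ℝ) * n3))) := by
        refine mul_le_mul_of_nonneg_left (mul_le_mul_of_nonneg_left ?_ hV.le) (by norm_num)
        nlinarith [mul_nonneg (sub_nonneg.2 hq1.le) a1, mul_nonneg (sub_nonneg.2 hq1.le) a2,
          mul_nonneg (sub_nonneg.2 hq1.le) a3]
    _ = 4 * (V * (m1 + (q : ℝ) * n1) + V * (m2 + (q : ℝ) * n2') + V * (m3 + (q : ℝ) * n3)) := by ring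

/-- (T3).   `cl_need_sup` with `M = 30`:  `a := √C · R`. -/
theorem cl_supB (q : ℕ) (hq6 : 10 ^ 6 ≤ q) (g : Bg) (hg : BgGood q g) (Γ : ℝ) (hΓ : 0 ≤ Γ) :
    ∃ C Λ₀ : ℝ, 0 ≤ C ∧ 0 < Λ₀ ∧ ∀ U : Tri, (∀ j, Sm (U j)) → ∀ t ∈ Ico (-Λ₀) 0, ∀ R : ℝ, 0 ≤ R →
      E0 q Γ U t + E1 q g Γ U t ≤ R ^ 2 → SupB q 30 U t (C * R) := by
  obtain ⟨C, Λ₀, hC, hΛ, h⟩ := cl_need_sup q hq6 g hg Γ hΓ 30 (Or.inr rfl)
  refine ⟨Real.sqrt C, Λ₀, Real.sqrt_nonneg C, hΛ, ?_⟩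
  intro U hU t ht R _ hE y hy
  have h1 := (h U hU t ht y hy).1
  have hE' : En (q : ℝ) (wL 2 30 (q : ℝ) Γ t) (slT U t) + En (q : ℝ) (wL 4 30 (q : ℝ) Γ t) (slT (Lt (q : ℝ) g U) t) ≤ R ^ 2 := hE
  have hT : 0 ≤ (Th t y) ^ 30 := Even.pow_nonneg (by decide) _
  refine h1.trans ?_
  have e : (Real.sqrt C * R) ^ 2 * (Th t y) ^ 30 = C * (Th t y) ^ 30 * R ^ 2 := by
    rw [mul_pow, Real.sq_sqrt hC]
    ring
  rw [e]
  exact mul_le_mul_of_nonneg_left hE' (mul_nonneg hC hT)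

/-- monotonicity of `XB` in the radius. -/
theorem XB.mono {q : ℝ} {g : Bg} {Γ ts R R' : ℝ} {U : Tri} (h : XB q g Γ ts R U) (h0 : 0 ≤ R) (hR : R ≤ R') :
    XB q g Γ ts R' U := by
  have h2 : R ^ 2 ≤ R' ^ 2 := by nlinarith
  exact ⟨fun t ht => (h.e0 t ht).trans h2, fun t ht => (h.e1 t ht).trans h2,
    fun t ht => (h.d0 t ht).trans h2, fun t ht => (h.d1 t ht).trans h2⟩

/-- the purely arithmetical core of `cl_time_ineq`. -/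
theorem cl_time_ineq_arith (E' c CL Cc Cn Cr Cs A κ DT X D0 D1 r e0 e1 Y N Rs : ℝ) (hCL : 0 ≤ CL) (hCc : 0 ≤ Cc)
    (hCn : 0 ≤ Cn) (hCr : 0 ≤ Cr) (hCs : 0 ≤ Cs) (hA : 1 ≤ A) (hκ2 : κ ≤ 2) (hκc : CL * Cs * κ ≤ c)
    (hDT : 0 ≤ DT) (hD0 : 0 ≤ D0) (hD1 : 0 ≤ D1) (hr : 0 ≤ r) (he0 : 0 ≤ e0) (he1 : 0 ≤ e1)
    (h1 : E' + c * DT ≤ CL * X + CL * Y) (h2 : X ≤ Cc * (D1 + N + Rs)) (h3 : N ≤ Cn * κ * (D0 + D1))
    (h4 : Rs ≤ Cr * r) (h5 : Y ≤ Cs * κ * DT + Cs * (e0 + e1 + 1) * (D0 + D1) + Cs * r) :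
    E' ≤ (CL * Cc * (1 + 2 * Cn + Cr) + 2 * (CL * Cs)) * (A * e0 + e1 + 1) * (D0 + D1 + r) := by
  set d := D0 + D1 + r with hd
  have hd0 : 0 ≤ d := by positivity
  have hDD : 0 ≤ D0 + D1 := by positivity
  have hN : N ≤ 2 * Cn * d := by
    have : Cn * κ * (D0 + D1) ≤ Cn * 2 * d := by
      apply mul_le_mul (mul_le_mul_of_nonneg_left hκ2 hCn) (by rw [hd]; linarith) hDD (by positivity)
    linarith
  have hRs : Rs ≤ Cr * d := h4.trans (mul_le_mul_of_nonneg_left (by rw [hd]; linarith) hCr)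
  have hX : X ≤ Cc * ((1 + 2 * Cn + Cr) * d) := by
    refine h2.trans (mul_le_mul_of_nonneg_left ?_ hCc)
    have : D1 ≤ d := by rw [hd]; linarith
    have e : (1 + 2 * Cn + Cr) * d = d + 2 * Cn * d + Cr * d := by ring
    rw [e]; linarith
  have hCX : CL * X ≤ CL * Cc * (1 + 2 * Cn + Cr) * d := by
    have := mul_le_mul_of_nonneg_left hX hCL
    calc CL * X ≤ CL * (Cc * ((1 + 2 * Cn + Cr) * d)) := this
      _ = CL * Cc * (1 + 2 * Cn + Cr) * d := by ring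
  have hee : 0 ≤ e0 + e1 + 1 := by positivity
  have hY : CL * Y ≤ c * DT + CL * Cs * (e0 + e1 + 1) * d + CL * Cs * d := by
    have e1' := mul_le_mul_of_nonneg_left h5 hCL
    have e2 : CL * Cs * κ * DT ≤ c * DT := mul_le_mul_of_nonneg_right hκc hDT
    have e3 : CL * Cs * (e0 + e1 + 1) * (D0 + D1) ≤ CL * Cs * (e0 + e1 + 1) * d :=
      mul_le_mul_of_nonneg_left (by rw [hd]; linarith) (by positivity)
    have e4 : CL * Cs * r ≤ CL * Cs * d := mul_le_mul_of_nonneg_left (by rw [hd]; linarith) (by positivity)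
    calc CL * Y ≤ CL * (Cs * κ * DT + Cs * (e0 + e1 + 1) * (D0 + D1) + Cs * r) := e1'
      _ = CL * Cs * κ * DT + CL * Cs * (e0 + e1 + 1) * (D0 + D1) + CL * Cs * r := by ring
      _ ≤ _ := by linarith
  have hAe : e0 + e1 + 1 ≤ A * e0 + e1 + 1 := by
    have := le_mul_of_one_le_left he0 hA
    linarith
  have h1e : 1 ≤ A * e0 + e1 + 1 := by linarith
  set 𝓔 := A * e0 + e1 + 1 with h𝓔
  have hK1 : 0 ≤ CL * Cc * (1 + 2 * Cn + Cr) := by positivity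
  have hK2 : 0 ≤ CL * Cs := by positivity
  have f1 : CL * Cc * (1 + 2 * Cn + Cr) * d ≤ CL * Cc * (1 + 2 * Cn + Cr) * 𝓔 * d := by
    apply mul_le_mul_of_nonneg_right _ hd0
    exact le_mul_of_one_le_right hK1 h1e
  have f2 : CL * Cs * (e0 + e1 + 1) * d ≤ CL * Cs * 𝓔 * d := by
    apply mul_le_mul_of_nonneg_right _ hd0
    exact mul_le_mul_of_nonneg_left hAe hK2
  have f3 : CL * Cs * d ≤ CL * Cs * 𝓔 * d := by
    apply mul_le_mul_of_nonneg_right _ hd0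
    exact le_mul_of_one_le_right hK2 h1e
  calc E' ≤ CL * X + CL * Y - c * DT := by linarith
    _ ≤ CL * Cc * (1 + 2 * Cn + Cr) * 𝓔 * d + CL * Cs * 𝓔 * d + CL * Cs * 𝓔 * d := by linarith
    _ = _ := by ring

/-- the choice of the small parameters of `cl_time_ineq`. -/
theorem cl_time_ineq_choice (c P Cb an as ΛL Λc Λn Λr Λs Λb : ℝ) (hc : 0 < c) (hP : 0 ≤ P) (hCb : 0 ≤ Cb)
    (han : 0 < an) (has : 0 < as) (hΛL : 0 < ΛL) (hΛc : 0 < Λc) (hΛn : 0 < Λn) (hΛr : 0 < Λr) (hΛs : 0 < Λs)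
    (hΛb : 0 < Λb) :
    ∃ ε₁ Λ₁ : ℝ, 0 < ε₁ ∧ 0 < Λ₁ ∧ Λ₁ ≤ 1 ∧ Λ₁ ≤ ΛL ∧ Λ₁ ≤ Λc ∧ Λ₁ ≤ Λn ∧ Λ₁ ≤ Λr ∧ Λ₁ ≤ Λs ∧ Λ₁ ≤ Λb ∧
      Cb * (2 * ε₁) ≤ an ∧ Cb * (2 * ε₁) ≤ as ∧
      ∀ s : ℝ, 0 < s → s ≤ Λ₁ → (Cb * (2 * ε₁)) ^ 2 + s ^ 6 ≤ 2 ∧ P * ((Cb * (2 * ε₁)) ^ 2 + s ^ 6) ≤ c := by
  obtain ⟨δ, hδ0, hδan, hδas, hδ1, hδc⟩ : ∃ δ : ℝ, 0 < δ ∧ δ ≤ an ∧ δ ≤ as ∧ δ ≤ 1 ∧ δ ≤ c / (2 * (P + 1)) := by
    have hpos : 0 < c / (2 * (P + 1)) := by positivity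
    refine ⟨min (min an as) (min 1 (c / (2 * (P + 1)))), ?_, ?_, ?_, ?_, ?_⟩
    · exact lt_min (lt_min han has) (lt_min one_pos hpos)
    · exact (min_le_left _ _).trans (min_le_left _ _)
    · exact (min_le_left _ _).trans (min_le_right _ _)
    · exact (min_le_right _ _).trans (min_le_left _ _)
    · exact (min_le_right _ _).trans (min_le_right _ _)
  obtain ⟨Λ₁, hΛ₁0, h1L, h1c, h1n, h1r, h1s, h1b, h1δ⟩ : ∃ Λ₁ : ℝ, 0 < Λ₁ ∧ Λ₁ ≤ ΛL ∧ Λ₁ ≤ Λc ∧ Λ₁ ≤ Λn ∧ Λ₁ ≤ Λr ∧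
      Λ₁ ≤ Λs ∧ Λ₁ ≤ Λb ∧ Λ₁ ≤ δ := by
    refine ⟨min ΛL (min Λc (min Λn (min Λr (min Λs (min Λb δ))))), ?_, ?_, ?_, ?_, ?_, ?_, ?_, ?_⟩
    · exact lt_min hΛL (lt_min hΛc (lt_min hΛn (lt_min hΛr (lt_min hΛs (lt_min hΛb hδ0)))))
    · exact min_le_left _ _
    · exact (min_le_right _ _).trans (min_le_left _ _)
    · exact (min_le_right _ _).trans ((min_le_right _ _).trans (min_le_left _ _))
    · exact (min_le_right _ _).trans ((min_le_right _ _).trans ((min_le_right _ _).trans (min_le_left _ _)))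
    · exact (min_le_right _ _).trans ((min_le_right _ _).trans ((min_le_right _ _).trans
        ((min_le_right _ _).trans (min_le_left _ _))))
    · exact (min_le_right _ _).trans ((min_le_right _ _).trans ((min_le_right _ _).trans
        ((min_le_right _ _).trans ((min_le_right _ _).trans (min_le_left _ _)))))
    · exact (min_le_right _ _).trans ((min_le_right _ _).trans ((min_le_right _ _).trans
        ((min_le_right _ _).trans ((min_le_right _ _).trans (min_le_right _ _)))))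
  have hCb1 : 0 < 2 * (Cb + 1) := by positivity
  have hε₁0 : 0 < δ / (2 * (Cb + 1)) := by positivity
  have ha0 : 0 ≤ Cb * (2 * (δ / (2 * (Cb + 1)))) := by positivity
  have haδ : Cb * (2 * (δ / (2 * (Cb + 1)))) ≤ δ := by
    have : Cb * (2 * (δ / (2 * (Cb + 1)))) = Cb / (Cb + 1) * δ := by
      field_simp
    rw [this]
    have h2 : Cb / (Cb + 1) ≤ 1 := by
      rw [div_le_one (by positivity)]; linarith
    exact mul_le_of_le_one_left hδ0.le h2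
  have hhalf : P * δ ≤ c / 2 := by
    have h3 : P * δ ≤ P * (c / (2 * (P + 1))) := mul_le_mul_of_nonneg_left hδc hP
    have h4 : P * (c / (2 * (P + 1))) ≤ c / 2 := by
      rw [mul_div_assoc', div_le_div_iff₀ (by positivity) (by norm_num)]
      nlinarith
    exact h3.trans h4
  refine ⟨δ / (2 * (Cb + 1)), Λ₁, hε₁0, hΛ₁0, h1δ.trans hδ1, h1L, h1c, h1n, h1r, h1s, h1b, haδ.trans hδan,
    haδ.trans hδas, ?_⟩
  intro s hs0 hs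
  generalize Cb * (2 * (δ / (2 * (Cb + 1)))) = a at ha0 haδ
  have ha2 : a ^ 2 ≤ δ := by
    have h1 : a ≤ 1 := haδ.trans hδ1
    have : a ^ 2 ≤ a ^ 1 := pow_le_pow_of_le_one ha0 h1 (by norm_num)
    rw [pow_one] at this
    exact this.trans haδ
  have hs6 : s ^ 6 ≤ δ := by
    have h1 : s ≤ 1 := hs.trans (h1δ.trans hδ1)
    have : s ^ 6 ≤ s ^ 1 := pow_le_pow_of_le_one hs0.le h1 (by norm_num)
    rw [pow_one] at this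
    exact this.trans (hs.trans h1δ)
  refine ⟨by linarith, ?_⟩
  have : P * (a ^ 2 + s ^ 6) ≤ P * (δ + δ) := mul_le_mul_of_nonneg_left (by linarith) hP
  have e : P * (δ + δ) = P * δ + P * δ := by ring
  linarith

/-- (T4).   `Γ₄ := Γ₀` of `cl_need_lin`.   Fix `Γ ≥ Γ₄`;  `(A, c, C_L, Λ_L)` from `cl_need_lin`,  `(C_c, Λ_c)` from `cl_time_core`,  `(C_n, a_n, Λ_n)` from `cl_need_nn`,  `(C_r, Λ_r)` from `cl_need_res`,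
`(C_s, a_s, Λ_s)` from `cl_src`,  `(C_b, Λ_b)` from `cl_supB`.      With `R := √2 ε₁` (`E0 + E1 ≤ 2 ε₁²` by `XB.e0, e1`) and `a := C_b R`:  choose `ε₁ > 0` and `Λ₁ ≤ min(all Λ's, 1)` so small that
      `a ≤ min a_n a_s`,  `a ≤ 1`   and   `C_L C_s (a² + Λ₁⁶) ≤ c`.
Apply `cl_need_lin` to `(dTT U, S1F q g U)` (`sm_dTT`, `sm_S1F`, `cl_time_eq`):   the function differentiated there is `fun s => A * E0T q Γ U s + E1T q g Γ U s` by definition (`rfl`/`unfold`), and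
      `E' + c (D0T + D1T) ≤ C_L Λ²² E_{wH}(U¹) + C_L DYT(S¹)`
      `   ≤ C_L C_c (D1 + C_n (a²+Λ⁶)(D0 + D1) + C_r/√Λ) + C_L [ C_s (a²+Λ⁶)(D0T + D1T) + C_s (E0T + E1T + 1)(D0 + D1) + C_s/√Λ ]`.
The term with `D0T + D1T ≥ 0` is absorbed.     `E0T + E1T ≤ A E0T + E1T =: 𝓔` (`A ≥ 1`, `E0T ≥ 0`), `𝓔 + 1 ≥ 1`, `D0, D1, 1/√Λ ≥ 0` (`cl_Di_nonneg`):
      `E' ≤ K (𝓔 + 1)(D0 + D1 + 1/√Λ)`,    `K := C_L C_c (1 + 2 C_n + C_r) + 2 C_L C_s`   (`a² + Λ⁶ ≤ 2`). -/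
theorem cl_time_ineq (q : ℕ) (hq : Odd q) (hq6 : 10 ^ 6 ≤ q) (g : Bg) (hg : BgGood q g) :
    ∃ Γ₄ : ℝ, 0 ≤ Γ₄ ∧ ∀ Γ : ℝ, Γ₄ ≤ Γ → ∃ A K ε₁ Λ₁ : ℝ, 1 ≤ A ∧ 0 ≤ K ∧ 0 < ε₁ ∧ 0 < Λ₁ ∧ Λ₁ ≤ 1 ∧
      ∀ (t₀ : ℝ) (U : Tri), t₀ ∈ Ico (-Λ₁) 0 → (∀ j, Sm (U j)) → NLU q g t₀ U → XB q g Γ t₀ ε₁ U →
        ∀ t ∈ Ioo t₀ 0, ∃ E' : ℝ,
          HasDerivAt (fun s => A * E0T q Γ U s + E1T q g Γ U s) E' t ∧
          E' ≤ K * (A * E0T q Γ U t + E1T q g Γ U t + 1) * (D0 q Γ U t + D1 q g Γ U t + 1 / Real.sqrt (-t)) := by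
  have hq1 : (1 : ℝ) < q := by
    have : (10 ^ 6 : ℝ) ≤ q := by exact_mod_cast hq6
    linarith
  obtain ⟨Γ₀, hΓ₀, hlin⟩ := cl_need_lin q hq hq6 g hg
  refine ⟨Γ₀, hΓ₀, fun Γ hΓ => ?_⟩
  have hΓ0 : 0 ≤ Γ := hΓ₀.trans hΓ
  obtain ⟨A, c, CL, ΛL, hA, hc, hCL, hΛL, hL⟩ := hlin Γ hΓ
  obtain ⟨Cc, Λc, hCc, hΛc, hcore⟩ := cl_time_core q hq6 g hg Γ hΓ0
  obtain ⟨Cn, an, Λn, hCn, han, hΛn, hnn⟩ := cl_need_nn q hq6 g hg Γ hΓ0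
  obtain ⟨Cr, Λr, hCr, hΛr, hres⟩ := cl_need_res q hq6 g hg Γ hΓ0
  obtain ⟨Cs, as, Λs, hCs, has, hΛs, hsrc⟩ := cl_src q hq6 g hg Γ hΓ0
  obtain ⟨Cb, Λb, hCb, hΛb, hsup⟩ := cl_supB q hq6 g hg Γ hΓ0
  obtain ⟨ε₁, Λ₁, hε₁0, hΛ₁0, hΛ₁1, h1L, h1c, h1n, h1r, h1s, h1b, haan, haas, hsmall⟩ :=
    cl_time_ineq_choice c (CL * Cs) Cb an as ΛL Λc Λn Λr Λs Λb hc (by positivity) hCb han has hΛL hΛc hΛn hΛr hΛs hΛb
  refine ⟨A, CL * Cc * (1 + 2 * Cn + Cr) + 2 * (CL * Cs), ε₁, Λ₁, hA, by positivity, hε₁0, hΛ₁0, hΛ₁1, ?_⟩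
  intro t₀ U ht₀ hU hN hX t ht
  have ht0 : t < 0 := ht.2
  have htΛ : -Λ₁ ≤ t := ht₀.1.trans ht.1.le
  have hmt0 : 0 < -t := by linarith
  obtain ⟨hκ2, hκc⟩ := hsmall (-t) hmt0 (by linarith)
  have ha0 : 0 ≤ Cb * (2 * ε₁) := by positivity
  obtain ⟨E', hE', hineq⟩ := hL t₀ (dTT U) (S1F q g U) ⟨by linarith [ht₀.1], ht₀.2⟩ (sm_dTT hU)
    (sm_S1F hq1 hg.sm hU) (cl_time_eq hq1 hg.sm hU hN) t ht
  refine ⟨E', hE', ?_⟩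
  have hS : SupB q 30 U t (Cb * (2 * ε₁)) := by
    refine hsup U hU t ⟨by linarith, ht0⟩ (2 * ε₁) (by positivity) ?_
    have h1 := hX.e0 t ht
    have h2 := hX.e1 t ht
    have h3 : (2 * ε₁) ^ 2 = ε₁ ^ 2 + ε₁ ^ 2 + 2 * ε₁ ^ 2 := by ring
    have h4 : 0 ≤ ε₁ ^ 2 := sq_nonneg _
    linarith
  have hr0 : 0 ≤ 1 / Real.sqrt (-t) := by positivity
  refine cl_time_ineq_arith E' c CL Cc Cn Cr Cs A ((Cb * (2 * ε₁)) ^ 2 + (-t) ^ 6) (D0T q Γ U t + D1T q g Γ U t)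
    ((-t) ^ 22 * En q (wH 3 52 q t) (slT (dTT U) t)) (D0 q Γ U t) (D1 q g Γ U t) (1 / Real.sqrt (-t))
    (E0T q Γ U t) (E1T q g Γ U t) (DYT q Γ (S1F q g U) t) (DY q Γ (NN q g U) t) (DY q Γ (Res q g) t)
    hCL hCc hCn hCr hCs hA hκ2 hκc ?_ ?_ ?_ hr0 ?_ ?_ ?_ ?_ ?_ ?_ ?_
  · exact add_nonneg (cl_Di_nonneg 2 28 hq1 hΓ0 ht0 _).1 (cl_Di_nonneg 4 28 hq1 hΓ0 ht0 _).1
  · exact (cl_Di_nonneg 2 30 hq1 hΓ0 ht0 _).1
  · exact (cl_Di_nonneg 4 30 hq1 hΓ0 ht0 _).1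
  · exact (cl_Di_nonneg 2 28 hq1 hΓ0 ht0 _).2
  · exact (cl_Di_nonneg 4 28 hq1 hΓ0 ht0 _).2
  · have : CL * (-t) ^ 22 * En q (wH 3 52 q t) (slT (dTT U) t)
        = CL * ((-t) ^ 22 * En q (wH 3 52 q t) (slT (dTT U) t)) := by ring
    rw [← this]
    exact hineq
  · exact hcore t₀ U hU hN t ht (by linarith)
  · exact hnn U hU t ⟨by linarith, ht0⟩ _ ha0 haan hS
  · have := (hres t ⟨by linarith, ht0⟩).1
    rwa [div_eq_mul_one_div] at this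
  · have := hsrc U hU t ⟨by linarith, ht0⟩ _ ha0 haas hS
    rwa [div_eq_mul_one_div Cs] at this

/-- `∫_{t₁}^t d ≤ 2 ε² + 2`   for `t₀ < t₁ < t < 0`, `-1 ≤ t₀`.      `D0 q Γ U`, `D1 q g Γ U` are continuous on `(-∞,0)` (`cl_Di_contOn`, `sm_Lt`) and `≥ 0`, so `∫_{t₁}^t D0 ≤ ∫_{t₀}^t D0 ≤ ε²`
(`intervalIntegral.integral_add_adjacent_intervals`, `intervalIntegral.integral_nonneg`);    `∫_{t₁}^t 1/√(-s) ds = 2√(-t₁) - 2√(-t) ≤ 2`   (FTC: `s ↦ -2 √(-s)` has derivative `1/√(-s)` for `s < 0`;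
`intervalIntegral.integral_eq_sub_of_hasDerivAt`). -/
theorem cl_time_int {q : ℝ} (hq : 1 < q) {g : Bg} (hg : BgSm g) {Γ : ℝ} (hΓ : 0 ≤ Γ) {U : Tri} (hU : ∀ j, Sm (U j))
    {t₀ t₁ ε : ℝ} (h0 : -1 ≤ t₀) (h01 : t₀ < t₁) (hX : XB q g Γ t₀ ε U) :
    ContinuousOn (fun t => D0 q Γ U t + D1 q g Γ U t + 1 / Real.sqrt (-t)) (Ico t₁ 0) ∧
    ∀ t ∈ Ioo t₁ 0, ∫ s in t₁..t, (D0 q Γ U s + D1 q g Γ U s + 1 / Real.sqrt (-s)) ≤ 2 * ε ^ 2 + 2 := by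
  have c0 : ContinuousOn (fun t => D0 q Γ U t) (Iio 0) := (cl_Di_contOn 2 30 q Γ hU).1
  have c1 : ContinuousOn (fun t => D1 q g Γ U t) (Iio 0) := (cl_Di_contOn 4 30 q Γ (sm_Lt hq hg hU)).1
  have c2 : ContinuousOn (fun t : ℝ => 1 / Real.sqrt (-t)) (Iio 0) := by
    refine ContinuousOn.div continuousOn_const ?_ ?_
    · exact (Real.continuous_sqrt.comp continuous_neg).continuousOn
    · intro t ht
      have : 0 < -t := by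
        have : t < 0 := ht
        linarith
      exact (Real.sqrt_pos.2 this).ne'
  have n0 : ∀ t, t < 0 → 0 ≤ D0 q Γ U t := fun t ht => (cl_Di_nonneg 2 30 hq hΓ ht _).1
  have n1 : ∀ t, t < 0 → 0 ≤ D1 q g Γ U t := fun t ht => (cl_Di_nonneg 4 30 hq hΓ ht _).1
  have hsub : Ico t₁ 0 ⊆ Iio (0 : ℝ) := fun s hs => hs.2
  refine ⟨((c0.add c1).add c2).mono hsub, ?_⟩
  intro t ht
  have ht0 : t < 0 := ht.2
  have ht1 : t₁ < 0 := ht.1.trans ht.2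
  have ht00 : t₀ < 0 := h01.trans ht1
  have ii : ∀ (f : ℝ → ℝ), ContinuousOn f (Iio 0) → ∀ a b : ℝ, a < 0 → b < 0 →
      IntervalIntegrable f volume a b := by
    intro f hf a b ha hb
    refine (hf.mono ?_).intervalIntegrable
    intro s hs
    rcases le_total a b with hab | hab
    · rw [uIcc_of_le hab] at hs
      exact lt_of_le_of_lt hs.2 hb
    · rw [uIcc_of_ge hab] at hs
      exact lt_of_le_of_lt hs.2 ha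
  have key : ∀ (f : ℝ → ℝ), ContinuousOn f (Iio 0) → (∀ s, s < 0 → 0 ≤ f s) →
      ∫ s in t₁..t, f s ≤ ∫ s in t₀..t, f s := by
    intro f hf hn
    have h1 := intervalIntegral.integral_add_adjacent_intervals (ii f hf t₀ t₁ ht00 ht1) (ii f hf t₁ t ht1 ht0)
    have h2 : 0 ≤ ∫ s in t₀..t₁, f s :=
      intervalIntegral.integral_nonneg h01.le (fun s hs => hn s (lt_of_le_of_lt hs.2 ht1))
    linarith
  have b0 : ∫ s in t₁..t, D0 q Γ U s ≤ ε ^ 2 := (key _ c0 n0).trans (hX.d0 t ⟨h01.trans ht.1, ht0⟩)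
  have b1 : ∫ s in t₁..t, D1 q g Γ U s ≤ ε ^ 2 := (key _ c1 n1).trans (hX.d1 t ⟨h01.trans ht.1, ht0⟩)
  have b2 : ∫ s in t₁..t, 1 / Real.sqrt (-s) ≤ 2 := by
    have hd : ∀ s ∈ uIcc t₁ t, HasDerivAt (fun s : ℝ => -2 * Real.sqrt (-s)) (1 / Real.sqrt (-s)) s := by
      intro s hs
      rw [uIcc_of_le ht.1.le] at hs
      have hs0 : 0 < -s := by linarith [hs.2]
      have h1 : HasDerivAt (fun s : ℝ => -s) (-1) s := (hasDerivAt_id s).neg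
      have h2 := (h1.sqrt hs0.ne').const_mul (-2)
      have h5 : Real.sqrt (-s) ≠ 0 := (Real.sqrt_pos.2 hs0).ne'
      have h6 : -2 * (-1 / (2 * Real.sqrt (-s))) = 1 / Real.sqrt (-s) := by
        rw [mul_div_assoc', div_eq_div_iff (mul_ne_zero two_ne_zero h5) h5]
        ring
      rw [h6] at h2
      exact h2
    rw [intervalIntegral.integral_eq_sub_of_hasDerivAt hd (ii _ c2 t₁ t ht1 ht0)]
    have h3 : 0 ≤ Real.sqrt (-t) := Real.sqrt_nonneg _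
    have h4 : Real.sqrt (-t₁) ≤ 1 := by
      rw [Real.sqrt_le_one]
      linarith
    linarith
  have e : ∫ s in t₁..t, (D0 q Γ U s + D1 q g Γ U s + 1 / Real.sqrt (-s))
      = (∫ s in t₁..t, D0 q Γ U s) + (∫ s in t₁..t, D1 q g Γ U s) + ∫ s in t₁..t, 1 / Real.sqrt (-s) := by
    rw [intervalIntegral.integral_add ((ii _ c0 t₁ t ht1 ht0).add (ii _ c1 t₁ t ht1 ht0)) (ii _ c2 t₁ t ht1 ht0),
      intervalIntegral.integral_add (ii _ c0 t₁ t ht1 ht0) (ii _ c1 t₁ t ht1 ht0)]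
  rw [e]
  linarith

/-- (T5).   `cl_gronwall` on `[t₁,0)`, `t₁ = t₀/2`, with `E = A E0T + E1T`, `E' = deriv E`, `d` as above, `M = 2 ε₁² + 2`:   `E` is differentiable at every point of `(t₀,0) ⊇ [t₁,0)` (`cl_time_ineq`), hence continuous on `[t₁,0)`;
`E ≥ 0` (`cl_Di_nonneg`).     `E0T + E1T ≤ E ≤ (E t₁ + 1) e^{K M} =: N²`  on `(t₁,0)`, and at `t = t₁` trivially (`E t₁ ≤ (E t₁ + 1) e^{KM}` as `e^{KM} ≥ 1`). -/
theorem cl_time_bound (q : ℕ) (hq : Odd q) (hq6 : 10 ^ 6 ≤ q) (g : Bg) (hg : BgGood q g) :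
    ∃ Γ₄ : ℝ, 0 ≤ Γ₄ ∧ ∀ Γ : ℝ, Γ₄ ≤ Γ → ∃ ε₁ Λ₁ : ℝ, 0 < ε₁ ∧ 0 < Λ₁ ∧
      ∀ (t₀ : ℝ) (U : Tri), t₀ ∈ Ico (-Λ₁) 0 → (∀ j, Sm (U j)) → NLU q g t₀ U → XB q g Γ t₀ ε₁ U →
        ∃ N : ℝ, 0 ≤ N ∧ ∀ t ∈ Ico (t₀ / 2) 0, E0T q Γ U t + E1T q g Γ U t ≤ N ^ 2 := by
  have hq1 : (1 : ℝ) < q := by
    have : (10 ^ 6 : ℝ) ≤ q := by exact_mod_cast hq6
    linarith
  obtain ⟨Γ₄, hΓ₄, h⟩ := cl_time_ineq q hq hq6 g hg
  refine ⟨Γ₄, hΓ₄, fun Γ hΓ => ?_⟩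
  have hΓ0 : 0 ≤ Γ := hΓ₄.trans hΓ
  obtain ⟨A, K, ε₁, Λ₁, hA, hK, hε₁, hΛ₁, hΛ₁1, hI⟩ := h Γ hΓ
  refine ⟨ε₁, Λ₁, hε₁, hΛ₁, ?_⟩
  intro t₀ U ht₀ hU hN hX
  have hI' := hI t₀ U ht₀ hU hN hX
  set E : ℝ → ℝ := fun s => A * E0T q Γ U s + E1T q g Γ U s with hE
  have ht00 : t₀ < 0 := ht₀.2
  have h01 : t₀ < t₀ / 2 := by linarith
  have hm1 : -1 ≤ t₀ := by linarith [ht₀.1]
  obtain ⟨hdc, hdi⟩ := cl_time_int hq1 hg.sm hΓ0 hU hm1 h01 hX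
  have e0 : ∀ t, t < 0 → 0 ≤ E0T q Γ U t := fun t ht => (cl_Di_nonneg 2 28 hq1 hΓ0 ht _).2
  have e1 : ∀ t, t < 0 → 0 ≤ E1T q g Γ U t := fun t ht => (cl_Di_nonneg 4 28 hq1 hΓ0 ht _).2
  have hE0 : ∀ t, t < 0 → 0 ≤ E t := by
    intro t ht
    have := e0 t ht
    have := e1 t ht
    simp only [hE]
    positivity
  have hdiff : ∀ t ∈ Ioo t₀ 0, HasDerivAt E (deriv E t) t := by
    intro t ht
    obtain ⟨E', h1, _⟩ := hI' t ht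
    exact h1.differentiableAt.hasDerivAt
  have hG := cl_gronwall (a := t₀ / 2) (b := 0) E (deriv E)
    (fun t => D0 q Γ U t + D1 q g Γ U t + 1 / Real.sqrt (-t)) K (2 * ε₁ ^ 2 + 2) hK
    (fun t ht => (hdiff t ⟨h01.trans_le ht.1, ht.2⟩).continuousAt.continuousWithinAt)
    (fun t ht => hdiff t ⟨h01.trans ht.1, ht.2⟩)
    (fun t ht => hE0 t ht.2) hdc
    (fun t ht => by
      obtain ⟨E', h1, h2⟩ := hI' t ⟨h01.trans ht.1, ht.2⟩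
      rw [h1.deriv]
      exact h2)
    hdi
  have ht1 : t₀ / 2 < 0 := by linarith
  have hB0 : 0 ≤ (E (t₀ / 2) + 1) * Real.exp (K * (2 * ε₁ ^ 2 + 2)) := by
    have := hE0 _ ht1
    positivity
  refine ⟨Real.sqrt ((E (t₀ / 2) + 1) * Real.exp (K * (2 * ε₁ ^ 2 + 2))), Real.sqrt_nonneg _, ?_⟩
  intro t ht
  rw [Real.sq_sqrt hB0]
  have hle : E0T q Γ U t + E1T q g Γ U t ≤ E t := by
    have := e0 t ht.2
    simp only [hE]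
    nlinarith
  refine hle.trans ?_
  rcases eq_or_lt_of_le ht.1 with h | h
  · rw [← h]
    have h1 : 1 ≤ Real.exp (K * (2 * ε₁ ^ 2 + 2)) := Real.one_le_exp (by positivity)
    have h2 := hE0 _ ht1
    nlinarith
  · exact hG t ⟨h, ht.2⟩

end Claimed.Agent.R324.Core
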