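/-
Row 324 (S0582), PDE core, module CL.   Architect: helper325.   Blueprint: origin/helper325:docs/R324_CL.md, section C1 (end).

FROM THE ENERGIES TO THE POINTWISE BOUNDS `CLPt`.       Fixed `t`;  `X = Xf y`, `ℓ² = ell2 q t`, `σ = clSg ℓ² y = (X/(ℓ²+X))^{1/4}`, `ϖ₀ = clV0 ℓ² y = (ℓ²+X)^{-1/4}`.
Let `V` be a smooth triple, `M ∈ {28,30}`, `𝒩² ≥ E_{wL 2 M}(V) + E_{wL 4 M}(L̃ V)`.    `cl_need_sup` gives, for `y ∈ [-1,1]`,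
   (a)  `r̂⁷ (n2 + n2t) ≤ C Θ^M 𝒩²`,          (b)  `√X X wL 4 M ppF V ≤ C 𝒩²`.
`n2 = (q+1) V₀² + 2 V₁² + q/(q+1) (X V₂)² ≥ V₀², V₁²`.
 `M = 30`:  `Θ³⁰ ≤ C_w r̂⁷` (`cl_w0c`), so `V₀², V₁² ≤ C C_w 𝒩²`.
 `M = 28`:  `Θ²⁸ ≤ C_w r̂⁶`, so `V₀², V₁² ≤ C C_w 𝒩²/√(r̂²) ≤ C' 𝒩² (ℓ²+X)^{-1/2} = C' 𝒩² ϖ₀²`       (`ℓ² + X ≤ (4/3) r̂²`: `cl_rh2_Th`;   `ϖ₀² = (ℓ²+X)^{-1/2} = 1/√(ℓ²+X)`).
 Gain at the poles:  `wL 4 M ≥ r̂⁸/Θ^M` (`cl_wL_bounds`), so by (b)   `X² ppF = √X (√X X ppF) ≤ C 𝒩² √X Θ^M / r̂⁸`;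
    `M = 30`:  `≤ C C_w 𝒩² √X/√(r̂²) ≤ C' 𝒩² √(X/(ℓ²+X)) = C' 𝒩² σ²`;          `M = 28`:  `≤ C C_w 𝒩² √X / r̂² = C C_w 𝒩² (1/√(r̂²)) √(X/r̂²) ≤ C' 𝒩² ϖ₀² σ²`.
 Finally   `(X V₂)², (tt V₀)² = (X V₀')², (tt V₁)² ≤ X² ppF`,     `tt (X V₂) = -X (X V₂' - 2 y V₂)`,  so `|tt (X V₂)| ≤ 3 √(X² ppF)`.
 (`σ² = √(X/(ℓ²+X))`: `Real.sqrt_eq_rpow`, `← Real.rpow_natCast`, `← Real.rpow_mul`.   To pass from squares to absolute values: `abs_le_of_sq_le_sq'`/`Real.abs_le_sqrt`/`pow_le_pow_left₀`.)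
-/
import Claimed.Agent.R324.Core.CL.Time

set_option autoImplicit false

namespace Claimed.Agent.R324.Core

open Set Filter Topology MeasureTheory
open scoped ContDiff

theorem cl_pt30 (q : ℕ) (hq6 : 10 ^ 6 ≤ q) (g : Bg) (hg : BgGood q g) (Γ : ℝ) (hΓ : 0 ≤ Γ) :
    ∃ C Λ₀ : ℝ, 0 ≤ C ∧ 0 < Λ₀ ∧ ∀ V : Tri, (∀ j, Sm (V j)) → ∀ t ∈ Ico (-Λ₀) 0, ∀ R : ℝ, 0 ≤ R →
      En q (wL 2 30 q Γ t) (slT V t) + En q (wL 4 30 q Γ t) (slT (Lt q g V) t) ≤ R ^ 2 → ∀ y ∈ Icc (-1 : ℝ) 1,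
        |V 0 (t, y)| ≤ C * R ∧ |V 1 (t, y)| ≤ C * R ∧
        |Xf y * V 2 (t, y)| ≤ C * R * clSg (ell2 q t) y ∧ |tt (sl (V 0) t) y| ≤ C * R * clSg (ell2 q t) y ∧
        |tt (sl (V 1) t) y| ≤ C * R * clSg (ell2 q t) y ∧
        |tt (fun z => Xf z * V 2 (t, z)) y| ≤ C * R * clSg (ell2 q t) y := by
  have hqR : (10 : ℝ) ^ 6 ≤ (q : ℝ) := by exact_mod_cast hq6
  have hq100 : (100 : ℝ) ≤ (q : ℝ) := le_trans (by norm_num) hqR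
  have hq1 : (1 : ℝ) < (q : ℝ) := lt_of_lt_of_le (by norm_num) hq100
  have hq0 : (0 : ℝ) < (q : ℝ) := by linarith
  obtain ⟨C₀, Λs, hC₀, hΛs, hsup⟩ := cl_need_sup q hq6 g hg Γ hΓ 30 (Or.inr rfl)
  obtain ⟨Cw, hCw, hw⟩ := cl_w0c (q : ℝ) hq100
  set K : ℝ := Real.sqrt (2 * C₀ * Cw) with hKdef
  have hK0 : 0 ≤ K := Real.sqrt_nonneg _
  have hK2 : K ^ 2 = 2 * C₀ * Cw := Real.sq_sqrt (by positivity)
  refine ⟨3 * K, min Λs (min (100 / q) 1), by positivity,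
    lt_min hΛs (lt_min (by positivity) one_pos), ?_⟩
  intro V hV t ht R hR hE y hy
  have ht0 : t < 0 := ht.2
  have hts : t ∈ Ico (-Λs) 0 := ⟨by have := min_le_left Λs (min (100 / (q:ℝ)) 1); linarith [ht.1], ht0⟩
  have htq : -(100 / (q:ℝ)) ≤ t := by
    have h1 := min_le_right Λs (min (100 / (q:ℝ)) 1)
    have h2 := min_le_left (100 / (q:ℝ)) 1
    linarith [ht.1]
  have ht1 : -1 ≤ t := by
    have h1 := min_le_right Λs (min (100 / (q:ℝ)) 1)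
    have h2 := min_le_right (100 / (q:ℝ)) 1
    linarith [ht.1]
  obtain ⟨hA, hB⟩ := hsup V hV t hts y hy
  obtain ⟨hw30, -⟩ := hw t ⟨htq, ht0⟩ ht1 y hy
  obtain ⟨hr0, hrT, hT2, htT, hlX, hXr⟩ := cl_rh2_Th hq100 ht0 htq ht1 y hy
  obtain ⟨hwl, -, hwpos⟩ := cl_wL_bounds 4 30 hq1 hΓ ht0 y hy
  have hL : 0 < ell2 q t := cl_ell2_pos hq1 ht0
  obtain ⟨hσ0, -, -⟩ := cl_sg_mem (ell2 q t) hL y hy
  have hX0 : 0 ≤ Xf y := cl_u_nonneg y hy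
  -- abbreviations
  set r : ℝ := rh2 q t y with hr
  set Θ : ℝ := Th t y with hΘ
  set X : ℝ := Xf y with hX
  set ℓ : ℝ := ell2 q t with hℓ
  set σ : ℝ := clSg ℓ y with hσ
  set N2 : ℝ := En q (wL 2 30 q Γ t) (slT V t) + En q (wL 4 30 q Γ t) (slT (Lt q g V) t) with hN2
  set ρ : ℝ := Real.sqrt r with hρ
  set s : ℝ := Real.sqrt X with hs
  have hρ0 : 0 < ρ := Real.sqrt_pos.mpr hr0
  have hρ2 : ρ ^ 2 = r := Real.sq_sqrt hr0.le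
  have hs0 : 0 ≤ s := Real.sqrt_nonneg _
  have hs2 : s ^ 2 = X := Real.sq_sqrt hX0
  have hΘ0 : 0 < Θ := lt_of_lt_of_le hr0 hrT
  have hΘ30 : 0 < Θ ^ 30 := by positivity
  have hr3ρ : 0 < r ^ 3 * ρ := by positivity
  -- σ⁴
  have hσ4 : σ ^ 4 = X / (ℓ + X) := by
    have hb : 0 ≤ X / (ℓ + X) := div_nonneg hX0 (by linarith)
    have : σ = (X / (ℓ + X)) ^ ((1 : ℝ) / 4) := rfl
    rw [this, ← Real.rpow_natCast, ← Real.rpow_mul hb]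
    norm_num
  -- s / ρ ≤ 2 σ²
  have hsρ : s ≤ 2 * σ ^ 2 * ρ := by
    have h1 : s ^ 2 ≤ (2 * σ ^ 2 * ρ) ^ 2 := by
      have h2 : (2 * σ ^ 2 * ρ) ^ 2 = 4 * (X / (ℓ + X)) * r := by
        rw [← hσ4, ← hρ2]; ring
      rw [h2, hs2]
      have hlX0 : 0 < ℓ + X := by linarith
      have h3 : X = X / (ℓ + X) * (ℓ + X) := by field_simp
      have h4 : 0 ≤ X / (ℓ + X) := div_nonneg hX0 hlX0.le
      nlinarith
    exact le_of_sq_le_sq h1 (by positivity)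
  -- part (a)
  have hR2 : 0 ≤ R ^ 2 := by positivity
  have hn2t0 : 0 ≤ n2t q (slT V t) y := by
    unfold n2t
    have : 0 ≤ (q : ℝ) / (q + 1) := by positivity
    positivity
  have hsum : n2 q (slT V t) y + n2t q (slT V t) y ≤ C₀ * Cw * R ^ 2 := by
    have h1 : C₀ * Θ ^ 30 * N2 ≤ C₀ * Θ ^ 30 * R ^ 2 :=
      mul_le_mul_of_nonneg_left hE (by positivity)
    have h2 : C₀ * Θ ^ 30 * R ^ 2 ≤ C₀ * (Cw * (r ^ 3 * ρ)) * R ^ 2 :=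
      mul_le_mul_of_nonneg_right (mul_le_mul_of_nonneg_left hw30 hC₀) hR2
    have h3 : r ^ 3 * ρ * (n2 q (slT V t) y + n2t q (slT V t) y) ≤ r ^ 3 * ρ * (C₀ * Cw * R ^ 2) := by
      calc _ ≤ C₀ * Θ ^ 30 * N2 := hA
        _ ≤ _ := h1
        _ ≤ _ := h2
        _ = _ := by ring
    exact le_of_mul_le_mul_left h3 hr3ρ
  have hn2 : n2 q (slT V t) y ≤ C₀ * Cw * R ^ 2 := by linarith
  have hn2e : n2 q (slT V t) y = ((q : ℝ) + 1) * (V 0 (t, y)) ^ 2 + 2 * (V 1 (t, y)) ^ 2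
      + (q : ℝ) / (q + 1) * ((1 - y ^ 2) * V 2 (t, y)) ^ 2 := rfl
  have hq3 : 0 ≤ (q : ℝ) / (q + 1) * ((1 - y ^ 2) * V 2 (t, y)) ^ 2 := by positivity
  have hCR : (3 * K * R) ^ 2 = 18 * (C₀ * Cw * R ^ 2) := by
    have : (3 * K * R) ^ 2 = 9 * K ^ 2 * R ^ 2 := by ring
    rw [this, hK2]; ring
  have hCC : 0 ≤ C₀ * Cw * R ^ 2 := by positivity
  have hV0 : |V 0 (t, y)| ≤ 3 * K * R := by
    apply abs_le_of_sq_le_sq _ (by positivity)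
    rw [hCR]
    have := mul_nonneg hq0.le (sq_nonneg (V 0 (t, y)))
    linarith [sq_nonneg (V 0 (t, y)), sq_nonneg (V 1 (t, y))]
  have hV1 : |V 1 (t, y)| ≤ 3 * K * R := by
    apply abs_le_of_sq_le_sq _ (by positivity)
    rw [hCR]
    have := mul_nonneg hq0.le (sq_nonneg (V 0 (t, y)))
    linarith [sq_nonneg (V 0 (t, y)), sq_nonneg (V 1 (t, y))]
  -- part (b)
  set pp : ℝ := ppF V (t, y) with hpp
  have hppe : pp = (dY (V 0) (t, y)) ^ 2 + (dY (V 1) (t, y)) ^ 2 + (V 2 (t, y)) ^ 2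
      + (X * dY (V 2) (t, y)) ^ 2 := rfl
  have hpp0 : 0 ≤ pp := by rw [hppe]; positivity
  have hP : X ^ 2 * pp ≤ (K * R * σ) ^ 2 := by
    have h0 : 0 ≤ s * X * pp := by positivity
    have h1 : s * X * pp * (r ^ 4 / Θ ^ 30) ≤ C₀ * R ^ 2 := by
      calc s * X * pp * (r ^ 4 / Θ ^ 30) ≤ s * X * pp * wL 4 30 q Γ t y :=
            mul_le_mul_of_nonneg_left hwl h0
        _ = s * X * wL 4 30 q Γ t y * pp := by ring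
        _ ≤ C₀ * N2 := hB
        _ ≤ C₀ * R ^ 2 := mul_le_mul_of_nonneg_left hE hC₀
    have h2 : s * X * pp * r ^ 4 ≤ C₀ * R ^ 2 * Θ ^ 30 := by
      have : s * X * pp * (r ^ 4 / Θ ^ 30) = s * X * pp * r ^ 4 / Θ ^ 30 := by ring
      rw [this, div_le_iff₀ hΘ30] at h1
      exact h1
    have h3 : r ^ 3 * ρ * (s * X * pp * ρ) ≤ r ^ 3 * ρ * (C₀ * Cw * R ^ 2) := by
      calc r ^ 3 * ρ * (s * X * pp * ρ) = s * X * pp * (r ^ 3 * ρ ^ 2) := by ring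
        _ = s * X * pp * r ^ 4 := by rw [hρ2]; ring
        _ ≤ C₀ * R ^ 2 * Θ ^ 30 := h2
        _ ≤ C₀ * R ^ 2 * (Cw * (r ^ 3 * ρ)) := mul_le_mul_of_nonneg_left hw30 (by positivity)
        _ = _ := by ring
    have h4 : s * X * pp * ρ ≤ C₀ * Cw * R ^ 2 := le_of_mul_le_mul_left h3 hr3ρ
    have h5 : ρ * (X ^ 2 * pp) ≤ ρ * (K * R * σ) ^ 2 := by
      calc ρ * (X ^ 2 * pp) = s * (s * X * pp * ρ) := by
            have : X ^ 2 = s ^ 2 * X := by rw [hs2]; ring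
            rw [this]; ring
        _ ≤ s * (C₀ * Cw * R ^ 2) := mul_le_mul_of_nonneg_left h4 hs0
        _ ≤ 2 * σ ^ 2 * ρ * (C₀ * Cw * R ^ 2) := mul_le_mul_of_nonneg_right hsρ hCC
        _ = ρ * (K ^ 2 * R ^ 2 * σ ^ 2) := by rw [hK2]; ring
        _ = _ := by ring
    exact le_of_mul_le_mul_left h5 hρ0
  have hKRσ : 0 ≤ K * R * σ := by positivity
  have key : ∀ a : ℝ, a ^ 2 ≤ X ^ 2 * pp → |a| ≤ K * R * σ := fun a ha =>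
    abs_le_of_sq_le_sq (ha.trans hP) hKRσ
  have h3K : K * R * σ ≤ 3 * K * R * σ := by linarith
  have hX2 : 0 ≤ X ^ 2 := by positivity
  have e2 : |X * V 2 (t, y)| ≤ K * R * σ := by
    apply key
    rw [hppe, mul_pow]
    apply mul_le_mul_of_nonneg_left _ hX2
    linarith [sq_nonneg (dY (V 0) (t, y)), sq_nonneg (dY (V 1) (t, y)), sq_nonneg (X * dY (V 2) (t, y))]
  have e0 : |tt (sl (V 0) t) y| ≤ K * R * σ := by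
    apply key
    have : tt (sl (V 0) t) y = -X * dY (V 0) (t, y) := rfl
    rw [this, hppe, mul_pow, neg_sq]
    apply mul_le_mul_of_nonneg_left _ hX2
    linarith [sq_nonneg (V 2 (t, y)), sq_nonneg (dY (V 1) (t, y)), sq_nonneg (X * dY (V 2) (t, y))]
  have e1 : |tt (sl (V 1) t) y| ≤ K * R * σ := by
    apply key
    have : tt (sl (V 1) t) y = -X * dY (V 1) (t, y) := rfl
    rw [this, hppe, mul_pow, neg_sq]
    apply mul_le_mul_of_nonneg_left _ hX2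
    linarith [sq_nonneg (V 2 (t, y)), sq_nonneg (dY (V 0) (t, y)), sq_nonneg (X * dY (V 2) (t, y))]
  have e3' : |X * (X * dY (V 2) (t, y))| ≤ K * R * σ := by
    apply key
    rw [hppe, mul_pow]
    apply mul_le_mul_of_nonneg_left _ hX2
    linarith [sq_nonneg (V 2 (t, y)), sq_nonneg (dY (V 0) (t, y)), sq_nonneg (dY (V 1) (t, y))]
  have e3 : |tt (fun z => Xf z * V 2 (t, z)) y| ≤ 3 * K * R * σ := by
    have hd : HasDerivAt (fun z => Xf z * V 2 (t, z)) (-2 * y * V 2 (t, y) + Xf y * dY (V 2) (t, y)) y :=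
      (hasDerivAt_Xf y).mul ((hV 2).hasDerivAt_y ht0 y)
    have h1 : tt (fun z => Xf z * V 2 (t, z)) y
        = -(X * (X * dY (V 2) (t, y))) + 2 * y * (X * V 2 (t, y)) := by
      have : tt (fun z => Xf z * V 2 (t, z)) y = -X * deriv (fun z => Xf z * V 2 (t, z)) y := rfl
      rw [this, hd.deriv]; ring
    rw [h1]
    have hy1 : |y| ≤ 1 := abs_le.mpr hy
    calc |-(X * (X * dY (V 2) (t, y))) + 2 * y * (X * V 2 (t, y))|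
        ≤ |-(X * (X * dY (V 2) (t, y)))| + |2 * y * (X * V 2 (t, y))| := abs_add_le _ _
      _ = |X * (X * dY (V 2) (t, y))| + 2 * |y| * |X * V 2 (t, y)| := by
          rw [abs_neg, abs_mul, abs_mul]; norm_num
      _ ≤ K * R * σ + 2 * 1 * (K * R * σ) := by
          gcongr
      _ = _ := by ring
  exact ⟨hV0, hV1, e2.trans h3K, e0.trans h3K, e1.trans h3K, e3⟩

/-- real-number part of `cl_pt28`, 1:  `√X ≤ 2 σ² √r`, `1 ≤ 2 √r ϖ²`. -/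
theorem cl_pt28_aux1 {ℓ X r σ ϖ : ℝ} (hX0 : 0 ≤ X) (hr0 : 0 < r) (hlX0 : 0 < ℓ + X)
    (hlX : ℓ + X ≤ 4 / 3 * r) (hσ0 : 0 ≤ σ) (hϖ0 : 0 < ϖ) (hσ4 : σ ^ 4 = X / (ℓ + X))
    (hϖ4 : ϖ ^ 4 = 1 / (ℓ + X)) :
    Real.sqrt X ≤ 2 * σ ^ 2 * Real.sqrt r ∧ 1 ≤ 2 * Real.sqrt r * ϖ ^ 2 := by
  have hρ0 : 0 < Real.sqrt r := Real.sqrt_pos.mpr hr0
  have hρ2 : Real.sqrt r ^ 2 = r := Real.sq_sqrt hr0.le
  have hs2 : Real.sqrt X ^ 2 = X := Real.sq_sqrt hX0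
  constructor
  · have h1 : Real.sqrt X ^ 2 ≤ (2 * σ ^ 2 * Real.sqrt r) ^ 2 := by
      have h2 : (2 * σ ^ 2 * Real.sqrt r) ^ 2 = 4 * (X / (ℓ + X)) * r := by
        rw [← hσ4]
        calc (2 * σ ^ 2 * Real.sqrt r) ^ 2 = 4 * σ ^ 4 * Real.sqrt r ^ 2 := by ring
          _ = _ := by rw [hρ2]
      rw [h2, hs2]
      have h3 : X = X / (ℓ + X) * (ℓ + X) := by field_simp
      have h4 : 0 ≤ X / (ℓ + X) := div_nonneg hX0 hlX0.le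
      nlinarith
    exact le_of_sq_le_sq h1 (by positivity)
  · have h1 : (1 : ℝ) ^ 2 ≤ (2 * Real.sqrt r * ϖ ^ 2) ^ 2 := by
      have h2 : (2 * Real.sqrt r * ϖ ^ 2) ^ 2 = 4 * r * (1 / (ℓ + X)) := by
        rw [← hϖ4]
        calc (2 * Real.sqrt r * ϖ ^ 2) ^ 2 = 4 * Real.sqrt r ^ 2 * ϖ ^ 4 := by ring
          _ = _ := by rw [hρ2]
      rw [h2, one_pow, mul_one_div, le_div_iff₀ hlX0]
      linarith
    exact le_of_sq_le_sq h1 (by positivity)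

/-- real-number part of `cl_pt28`, 2:  the bound of `n2`. -/
theorem cl_pt28_aux2 {r ρ T C₀ Cw R N2 ϖ n m : ℝ} (hr0 : 0 < r) (hρ0 : 0 < ρ) (hT : 0 ≤ T)
    (hC₀ : 0 ≤ C₀) (hn : 0 ≤ n) (hm : 0 ≤ m)
    (hA : r ^ 3 * ρ * (n + m) ≤ C₀ * T * N2) (hE : N2 ≤ R ^ 2) (hw : T ≤ Cw * r ^ 3)
    (hρϖ : 1 ≤ 2 * ρ * ϖ ^ 2) : n ≤ 2 * (C₀ * Cw * R ^ 2) * ϖ ^ 2 := by
  have hr3 : 0 < r ^ 3 := by positivity
  have hR2 : 0 ≤ R ^ 2 := by positivity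
  have h1 : C₀ * T * N2 ≤ C₀ * T * R ^ 2 := mul_le_mul_of_nonneg_left hE (by positivity)
  have h2 : C₀ * T * R ^ 2 ≤ C₀ * (Cw * r ^ 3) * R ^ 2 :=
    mul_le_mul_of_nonneg_right (mul_le_mul_of_nonneg_left hw hC₀) hR2
  have h3 : r ^ 3 * (ρ * (n + m)) ≤ r ^ 3 * (C₀ * Cw * R ^ 2) := by
    calc r ^ 3 * (ρ * (n + m)) = r ^ 3 * ρ * (n + m) := by ring
      _ ≤ C₀ * T * N2 := hA
      _ ≤ _ := h1
      _ ≤ _ := h2
      _ = _ := by ring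
  have hsum : ρ * (n + m) ≤ C₀ * Cw * R ^ 2 := le_of_mul_le_mul_left h3 hr3
  have h4 : ρ * n ≤ C₀ * Cw * R ^ 2 := by
    have := mul_nonneg hρ0.le hm
    linarith [mul_add ρ n m]
  calc n = n * 1 := by ring
    _ ≤ n * (2 * ρ * ϖ ^ 2) := mul_le_mul_of_nonneg_left hρϖ hn
    _ = 2 * (ρ * n) * ϖ ^ 2 := by ring
    _ ≤ 2 * (C₀ * Cw * R ^ 2) * ϖ ^ 2 := by gcongr

/-- real-number part of `cl_pt28`, 3:  the bound of `X² ppF`. -/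
theorem cl_pt28_aux3 {r ρ s X T C₀ Cw R N2 ϖ σ w pp : ℝ} (hr0 : 0 < r) (hρ0 : 0 < ρ) (hρ2 : ρ ^ 2 = r)
    (hs0 : 0 ≤ s) (hs2 : s ^ 2 = X) (hX0 : 0 ≤ X) (hT : 0 < T) (hC₀ : 0 ≤ C₀) (hCw : 0 ≤ Cw)
    (hpp0 : 0 ≤ pp) (hwl : r ^ 4 / T ≤ w) (hB : s * X * w * pp ≤ C₀ * N2) (hE : N2 ≤ R ^ 2)
    (hw : T ≤ Cw * r ^ 3) (hsρ : s ≤ 2 * σ ^ 2 * ρ) (hρϖ : 1 ≤ 2 * ρ * ϖ ^ 2) :
    X ^ 2 * pp ≤ 4 * C₀ * Cw * R ^ 2 * ϖ ^ 2 * σ ^ 2 := by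
  have hr3 : 0 < r ^ 3 := by positivity
  have hCC : 0 ≤ C₀ * Cw * R ^ 2 := by positivity
  have h0 : 0 ≤ s * X * pp := by positivity
  have h1 : s * X * pp * (r ^ 4 / T) ≤ C₀ * R ^ 2 := by
    calc s * X * pp * (r ^ 4 / T) ≤ s * X * pp * w := mul_le_mul_of_nonneg_left hwl h0
      _ = s * X * w * pp := by ring
      _ ≤ C₀ * N2 := hB
      _ ≤ C₀ * R ^ 2 := mul_le_mul_of_nonneg_left hE hC₀
  have h2 : s * X * pp * r ^ 4 ≤ C₀ * R ^ 2 * T := by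
    have : s * X * pp * (r ^ 4 / T) = s * X * pp * r ^ 4 / T := by ring
    rw [this, div_le_iff₀ hT] at h1
    exact h1
  have h3 : r ^ 3 * (s * X * pp * r) ≤ r ^ 3 * (C₀ * Cw * R ^ 2) := by
    calc r ^ 3 * (s * X * pp * r) = s * X * pp * r ^ 4 := by ring
      _ ≤ C₀ * R ^ 2 * T := h2
      _ ≤ C₀ * R ^ 2 * (Cw * r ^ 3) := mul_le_mul_of_nonneg_left hw (by positivity)
      _ = _ := by ring
  have h4 : s * X * pp * r ≤ C₀ * Cw * R ^ 2 := le_of_mul_le_mul_left h3 hr3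
  have hs4 : s ≤ 4 * σ ^ 2 * r * ϖ ^ 2 := by
    have hσρ : 0 ≤ 2 * σ ^ 2 * ρ := by positivity
    calc s ≤ 2 * σ ^ 2 * ρ := hsρ
      _ = 2 * σ ^ 2 * ρ * 1 := by ring
      _ ≤ 2 * σ ^ 2 * ρ * (2 * ρ * ϖ ^ 2) := mul_le_mul_of_nonneg_left hρϖ hσρ
      _ = 4 * σ ^ 2 * ρ ^ 2 * ϖ ^ 2 := by ring
      _ = _ := by rw [hρ2]
  have h5 : r * (X ^ 2 * pp) ≤ r * (4 * C₀ * Cw * R ^ 2 * ϖ ^ 2 * σ ^ 2) := by
    calc r * (X ^ 2 * pp) = s * (s * X * pp * r) := by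
          have : X ^ 2 = s ^ 2 * X := by rw [hs2]; ring
          rw [this]; ring
      _ ≤ s * (C₀ * Cw * R ^ 2) := mul_le_mul_of_nonneg_left h4 hs0
      _ ≤ 4 * σ ^ 2 * r * ϖ ^ 2 * (C₀ * Cw * R ^ 2) := mul_le_mul_of_nonneg_right hs4 hCC
      _ = _ := by ring
  exact le_of_mul_le_mul_left h5 hr0

theorem cl_pt28 (q : ℕ) (hq6 : 10 ^ 6 ≤ q) (g : Bg) (hg : BgGood q g) (Γ : ℝ) (hΓ : 0 ≤ Γ) :
    ∃ C Λ₀ : ℝ, 0 ≤ C ∧ 0 < Λ₀ ∧ ∀ V : Tri, (∀ j, Sm (V j)) → ∀ t ∈ Ico (-Λ₀) 0, ∀ R : ℝ, 0 ≤ R →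
      En q (wL 2 28 q Γ t) (slT V t) + En q (wL 4 28 q Γ t) (slT (Lt q g V) t) ≤ R ^ 2 → ∀ y ∈ Icc (-1 : ℝ) 1,
        |V 0 (t, y)| ≤ C * R * clV0 (ell2 q t) y ∧ |V 1 (t, y)| ≤ C * R * clV0 (ell2 q t) y ∧
        |Xf y * V 2 (t, y)| ≤ C * R * clV0 (ell2 q t) y * clSg (ell2 q t) y ∧
        |tt (sl (V 0) t) y| ≤ C * R * clV0 (ell2 q t) y * clSg (ell2 q t) y ∧
        |tt (sl (V 1) t) y| ≤ C * R * clV0 (ell2 q t) y * clSg (ell2 q t) y ∧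
        |tt (fun z => Xf z * V 2 (t, z)) y| ≤ C * R * clV0 (ell2 q t) y * clSg (ell2 q t) y := by
  have hqR : (10 : ℝ) ^ 6 ≤ (q : ℝ) := by exact_mod_cast hq6
  have hq100 : (100 : ℝ) ≤ (q : ℝ) := le_trans (by norm_num) hqR
  have hq1 : (1 : ℝ) < (q : ℝ) := lt_of_lt_of_le (by norm_num) hq100
  have hq0 : (0 : ℝ) < (q : ℝ) := by linarith
  obtain ⟨C₀, Λs, hC₀, hΛs, hsup⟩ := cl_need_sup q hq6 g hg Γ hΓ 28 (Or.inl rfl)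
  obtain ⟨Cw, hCw, hw⟩ := cl_w0c (q : ℝ) hq100
  set K : ℝ := Real.sqrt (4 * C₀ * Cw) with hKdef
  have hK0 : 0 ≤ K := Real.sqrt_nonneg _
  have hK2 : K ^ 2 = 4 * C₀ * Cw := Real.sq_sqrt (by positivity)
  refine ⟨3 * K, min Λs (min (100 / q) 1), by positivity,
    lt_min hΛs (lt_min (by positivity) one_pos), ?_⟩
  intro V hV t ht R hR hE y hy
  have ht0 : t < 0 := ht.2
  have hts : t ∈ Ico (-Λs) 0 := ⟨by have := min_le_left Λs (min (100 / (q:ℝ)) 1); linarith [ht.1], ht0⟩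
  have htq : -(100 / (q:ℝ)) ≤ t := by
    have h1 := min_le_right Λs (min (100 / (q:ℝ)) 1)
    have h2 := min_le_left (100 / (q:ℝ)) 1
    linarith [ht.1]
  have ht1 : -1 ≤ t := by
    have h1 := min_le_right Λs (min (100 / (q:ℝ)) 1)
    have h2 := min_le_right (100 / (q:ℝ)) 1
    linarith [ht.1]
  obtain ⟨hA, hB⟩ := hsup V hV t hts y hy
  obtain ⟨-, hw28⟩ := hw t ⟨htq, ht0⟩ ht1 y hy
  obtain ⟨hr0, hrT, hT2, htT, hlX, hXr⟩ := cl_rh2_Th hq100 ht0 htq ht1 y hy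
  obtain ⟨hwl, -, hwpos⟩ := cl_wL_bounds 4 28 hq1 hΓ ht0 y hy
  have hL : 0 < ell2 q t := cl_ell2_pos hq1 ht0
  obtain ⟨hσ0, -, -⟩ := cl_sg_mem (ell2 q t) hL y hy
  have hϖ0 : 0 < clV0 (ell2 q t) y := cl_v0_pos (ell2 q t) hL y hy
  have hX0 : 0 ≤ Xf y := cl_u_nonneg y hy
  -- abbreviations
  set r : ℝ := rh2 q t y with hr
  set Θ : ℝ := Th t y with hΘ
  set X : ℝ := Xf y with hX
  set ℓ : ℝ := ell2 q t with hℓ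
  set σ : ℝ := clSg ℓ y with hσ
  set ϖ : ℝ := clV0 ℓ y with hϖ
  set N2 : ℝ := En q (wL 2 28 q Γ t) (slT V t) + En q (wL 4 28 q Γ t) (slT (Lt q g V) t) with hN2
  have hρ0 : 0 < Real.sqrt r := Real.sqrt_pos.mpr hr0
  have hρ2 : Real.sqrt r ^ 2 = r := Real.sq_sqrt hr0.le
  have hs0 : 0 ≤ Real.sqrt X := Real.sqrt_nonneg _
  have hs2 : Real.sqrt X ^ 2 = X := Real.sq_sqrt hX0
  have hΘ0 : 0 < Θ := lt_of_lt_of_le hr0 hrT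
  have hΘ28 : 0 < Θ ^ 28 := by positivity
  have hlX0 : 0 < ℓ + X := by linarith
  -- σ⁴ and ϖ⁴
  have hσ4 : σ ^ 4 = X / (ℓ + X) := by
    have hb : 0 ≤ X / (ℓ + X) := div_nonneg hX0 (by linarith)
    have : σ = (X / (ℓ + X)) ^ ((1 : ℝ) / 4) := rfl
    rw [this, ← Real.rpow_natCast, ← Real.rpow_mul hb]
    norm_num
  have hϖ4 : ϖ ^ 4 = 1 / (ℓ + X) := by
    have : ϖ = (ℓ + X) ^ (-((1 : ℝ) / 4)) := rfl
    rw [this, ← Real.rpow_natCast, ← Real.rpow_mul hlX0.le]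
    norm_num
    rw [Real.rpow_neg_one]
  obtain ⟨hsρ, hρϖ⟩ := cl_pt28_aux1 hX0 hr0 hlX0 hlX hσ0 hϖ0 hσ4 hϖ4
  -- part (a)
  have hn2t0 : 0 ≤ n2t q (slT V t) y := by
    unfold n2t
    have : 0 ≤ (q : ℝ) / (q + 1) := by positivity
    positivity
  have hn2e : n2 q (slT V t) y = ((q : ℝ) + 1) * (V 0 (t, y)) ^ 2 + 2 * (V 1 (t, y)) ^ 2
      + (q : ℝ) / (q + 1) * ((1 - y ^ 2) * V 2 (t, y)) ^ 2 := rfl
  have hq3 : 0 ≤ (q : ℝ) / (q + 1) * ((1 - y ^ 2) * V 2 (t, y)) ^ 2 := by positivity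
  have hn20 : 0 ≤ n2 q (slT V t) y := by
    rw [hn2e]; positivity
  have hn2 : n2 q (slT V t) y ≤ 2 * (C₀ * Cw * R ^ 2) * ϖ ^ 2 :=
    cl_pt28_aux2 hr0 hρ0 hΘ28.le hC₀ hn20 hn2t0 hA hE hw28 hρϖ
  have hCR : (3 * K * R * ϖ) ^ 2 = 36 * (C₀ * Cw * R ^ 2) * ϖ ^ 2 := by
    have : (3 * K * R * ϖ) ^ 2 = 9 * K ^ 2 * R ^ 2 * ϖ ^ 2 := by ring
    rw [this, hK2]; ring
  have hCCϖ : 0 ≤ (C₀ * Cw * R ^ 2) * ϖ ^ 2 := by positivity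
  have hV0 : |V 0 (t, y)| ≤ 3 * K * R * ϖ := by
    apply abs_le_of_sq_le_sq _ (by positivity)
    rw [hCR]
    have := mul_nonneg hq0.le (sq_nonneg (V 0 (t, y)))
    linarith [sq_nonneg (V 0 (t, y)), sq_nonneg (V 1 (t, y))]
  have hV1 : |V 1 (t, y)| ≤ 3 * K * R * ϖ := by
    apply abs_le_of_sq_le_sq _ (by positivity)
    rw [hCR]
    have := mul_nonneg hq0.le (sq_nonneg (V 0 (t, y)))
    linarith [sq_nonneg (V 0 (t, y)), sq_nonneg (V 1 (t, y))]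
  -- part (b)
  set pp : ℝ := ppF V (t, y) with hpp
  have hppe : pp = (dY (V 0) (t, y)) ^ 2 + (dY (V 1) (t, y)) ^ 2 + (V 2 (t, y)) ^ 2
      + (X * dY (V 2) (t, y)) ^ 2 := rfl
  have hpp0 : 0 ≤ pp := by rw [hppe]; positivity
  have hP : X ^ 2 * pp ≤ (K * R * ϖ * σ) ^ 2 := by
    have h := cl_pt28_aux3 (σ := σ) (ϖ := ϖ) hr0 hρ0 hρ2 hs0 hs2 hX0 hΘ28 hC₀ hCw hpp0 hwl hB hE hw28
      hsρ hρϖ
    have h' : (K * R * ϖ * σ) ^ 2 = 4 * C₀ * Cw * R ^ 2 * ϖ ^ 2 * σ ^ 2 := by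
      have : (K * R * ϖ * σ) ^ 2 = K ^ 2 * R ^ 2 * ϖ ^ 2 * σ ^ 2 := by ring
      rw [this, hK2]
    rw [h']; exact h
  have hKRσ : 0 ≤ K * R * ϖ * σ := by positivity
  have key : ∀ a : ℝ, a ^ 2 ≤ X ^ 2 * pp → |a| ≤ K * R * ϖ * σ := fun a ha =>
    abs_le_of_sq_le_sq (ha.trans hP) hKRσ
  have h3K : K * R * ϖ * σ ≤ 3 * K * R * ϖ * σ := by linarith
  have hX2 : 0 ≤ X ^ 2 := by positivity
  have e2 : |X * V 2 (t, y)| ≤ K * R * ϖ * σ := by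
    apply key
    rw [hppe, mul_pow]
    apply mul_le_mul_of_nonneg_left _ hX2
    linarith [sq_nonneg (dY (V 0) (t, y)), sq_nonneg (dY (V 1) (t, y)), sq_nonneg (X * dY (V 2) (t, y))]
  have e0 : |tt (sl (V 0) t) y| ≤ K * R * ϖ * σ := by
    apply key
    have : tt (sl (V 0) t) y = -X * dY (V 0) (t, y) := rfl
    rw [this, hppe, mul_pow, neg_sq]
    apply mul_le_mul_of_nonneg_left _ hX2
    linarith [sq_nonneg (V 2 (t, y)), sq_nonneg (dY (V 1) (t, y)), sq_nonneg (X * dY (V 2) (t, y))]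
  have e1 : |tt (sl (V 1) t) y| ≤ K * R * ϖ * σ := by
    apply key
    have : tt (sl (V 1) t) y = -X * dY (V 1) (t, y) := rfl
    rw [this, hppe, mul_pow, neg_sq]
    apply mul_le_mul_of_nonneg_left _ hX2
    linarith [sq_nonneg (V 2 (t, y)), sq_nonneg (dY (V 0) (t, y)), sq_nonneg (X * dY (V 2) (t, y))]
  have e3' : |X * (X * dY (V 2) (t, y))| ≤ K * R * ϖ * σ := by
    apply key
    rw [hppe, mul_pow]
    apply mul_le_mul_of_nonneg_left _ hX2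
    linarith [sq_nonneg (V 2 (t, y)), sq_nonneg (dY (V 0) (t, y)), sq_nonneg (dY (V 1) (t, y))]
  have e3 : |tt (fun z => Xf z * V 2 (t, z)) y| ≤ 3 * K * R * ϖ * σ := by
    have hd : HasDerivAt (fun z => Xf z * V 2 (t, z)) (-2 * y * V 2 (t, y) + Xf y * dY (V 2) (t, y)) y :=
      (hasDerivAt_Xf y).mul ((hV 2).hasDerivAt_y ht0 y)
    have h1 : tt (fun z => Xf z * V 2 (t, z)) y
        = -(X * (X * dY (V 2) (t, y))) + 2 * y * (X * V 2 (t, y)) := by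
      have : tt (fun z => Xf z * V 2 (t, z)) y = -X * deriv (fun z => Xf z * V 2 (t, z)) y := rfl
      rw [this, hd.deriv]; ring
    rw [h1]
    have hy1 : |y| ≤ 1 := abs_le.mpr hy
    calc |-(X * (X * dY (V 2) (t, y))) + 2 * y * (X * V 2 (t, y))|
        ≤ |-(X * (X * dY (V 2) (t, y)))| + |2 * y * (X * V 2 (t, y))| := abs_add_le _ _
      _ = |X * (X * dY (V 2) (t, y))| + 2 * |y| * |X * V 2 (t, y)| := by
          rw [abs_neg, abs_mul, abs_mul]; norm_num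
      _ ≤ K * R * ϖ * σ + 2 * 1 * (K * R * ϖ * σ) := by
          gcongr
      _ = _ := by ring
  exact ⟨hV0, hV1, e2.trans h3K, e0.trans h3K, e1.trans h3K, e3⟩

/-- **the pointwise bounds.** -/
theorem cl_pt (q : ℕ) (hq6 : 10 ^ 6 ≤ q) (g : Bg) (hg : BgGood q g) (Γ : ℝ) (hΓ : 0 ≤ Γ) :
    ∃ C Λ₀ : ℝ, 0 ≤ C ∧ 0 < Λ₀ ∧ ∀ (U : Tri) (t₁ R N : ℝ), (∀ j, Sm (U j)) → t₁ ∈ Ico (-Λ₀) 0 → 0 ≤ R → 0 ≤ N →
      (∀ t ∈ Ico t₁ 0, E0 q Γ U t + E1 q g Γ U t ≤ R ^ 2) →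
      (∀ t ∈ Ico t₁ 0, E0T q Γ U t + E1T q g Γ U t ≤ N ^ 2) → CLPt q U t₁ (C * R) (C * N) := by
  obtain ⟨C₁, Λa, hC₁, hΛa, h30⟩ := cl_pt30 q hq6 g hg Γ hΓ
  obtain ⟨C₂, Λb, hC₂, hΛb, h28⟩ := cl_pt28 q hq6 g hg Γ hΓ
  have hq1 : (1 : ℝ) < (q : ℝ) := by
    have : 1 < q := lt_of_lt_of_le (by norm_num) hq6
    exact_mod_cast this
  refine ⟨max C₁ C₂, min Λa Λb, le_max_of_le_left hC₁, lt_min hΛa hΛb, ?_⟩
  intro U t₁ R N hU ht₁ hR hN hE hT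
  have hta : ∀ t ∈ Ico t₁ 0, t ∈ Ico (-Λa) 0 := fun t ht =>
    ⟨by have := ht₁.1; have := min_le_left Λa Λb; linarith [ht.1], ht.2⟩
  have htb : ∀ t ∈ Ico t₁ 0, t ∈ Ico (-Λb) 0 := fun t ht =>
    ⟨by have := ht₁.1; have := min_le_right Λa Λb; linarith [ht.1], ht.2⟩
  have hCR : C₁ * R ≤ max C₁ C₂ * R := mul_le_mul_of_nonneg_right (le_max_left _ _) hR
  have hCN : C₂ * N ≤ max C₁ C₂ * N := mul_le_mul_of_nonneg_right (le_max_right _ _) hN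
  have hsg : ∀ t ∈ Ico t₁ 0, ∀ y ∈ Icc (-1 : ℝ) 1, 0 ≤ clSg (ell2 q t) y := fun t ht y hy =>
    (cl_sg_mem _ (cl_ell2_pos hq1 ht.2) y hy).1
  have hv0 : ∀ t ∈ Ico t₁ 0, ∀ y ∈ Icc (-1 : ℝ) 1, 0 ≤ clV0 (ell2 q t) y := fun t ht y hy =>
    (cl_v0_pos _ (cl_ell2_pos hq1 ht.2) y hy).le
  refine ⟨?_, ?_, ?_, ?_⟩
  · intro t ht y hy
    obtain ⟨a, b, -⟩ := h30 U hU t (hta t ht) R hR (hE t ht) y hy
    exact ⟨a.trans hCR, b.trans hCR⟩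
  · intro t ht y hy
    obtain ⟨-, -, a, b, c, d⟩ := h30 U hU t (hta t ht) R hR (hE t ht) y hy
    have hm := mul_le_mul_of_nonneg_right hCR (hsg t ht y hy)
    exact ⟨a.trans hm, b.trans hm, c.trans hm, d.trans hm⟩
  · intro t ht y hy
    obtain ⟨a, b, -⟩ := h28 (dTT U) (sm_dTT hU) t (htb t ht) N hN (hT t ht) y hy
    have hm := mul_le_mul_of_nonneg_right hCN (hv0 t ht y hy)
    exact ⟨a.trans hm, b.trans hm⟩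
  · intro t ht y hy
    obtain ⟨-, -, a, b, c, d⟩ := h28 (dTT U) (sm_dTT hU) t (htb t ht) N hN (hT t ht) y hy
    have hm := mul_le_mul_of_nonneg_right (mul_le_mul_of_nonneg_right hCN (hv0 t ht y hy)) (hsg t ht y hy)
    exact ⟨a.trans hm, b.trans hm, c.trans hm, d.trans hm⟩

end Claimed.Agent.R324.Core
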