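/-
Row 324 (S0582), PDE core, module CL.   Architect: helper325.   Blueprint: origin/helper325:docs/R324_CL.md.

ASSEMBLY of `conclusion` (Core/Nonlin.lean) from   C1 (`cl_time_bound`, `cl_pt`),   C2-C3 (`cl_scal_bdd`),   C4 (`cl_curv_blow`)   and   PR4 (`nlu_to_gf`).
The extra hypothesis `hcl : BgCL q g` becomes the field `BgGood.cl` as soon as module AP adds it to Core/Bgd.lean.
-/
import Claimed.Agent.R324.Core.CL.Pt
import Claimed.Agent.R324.Core.CL.Scal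
import Claimed.Agent.R324.Core.CL.Blow
import Claimed.Agent.R324.Core.Interfaces

set_option autoImplicit false

namespace Claimed.Agent.R324.Core

open Set Filter Topology MeasureTheory
open scoped ContDiff

theorem cl_conclusion (q : ℕ) (hq : Odd q) (hq6 : 10 ^ 6 ≤ q) (g : Bg) (hg : BgGood q g) (hcl : BgCL q g) :
    ∃ Γ₄ : ℝ, ∀ Γ : ℝ, Γ₄ ≤ Γ → ∃ ε₁ : ℝ, 0 < ε₁ ∧ ∃ Λ₁ : ℝ, 0 < Λ₁ ∧
    ∀ (t₀ : ℝ) (U : Tri), t₀ ∈ Ico (-Λ₁) 0 → (∀ j, Sm (U j)) → NLU q g t₀ U → XB q g Γ t₀ ε₁ U →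
      ScalBdd q t₀ 0 (mA q U) (mB q g U) (mC g U) ∧ CurvBlow t₀ 0 (mA q U) (mB q g U) (mC g U) := by
  obtain ⟨Γ₄, hΓ₄, hb⟩ := cl_time_bound q hq hq6 g hg
  refine ⟨Γ₄, fun Γ hΓ => ?_⟩
  obtain ⟨εa, Λa, hεa, hΛa, hbd⟩ := hb Γ hΓ
  obtain ⟨C, Λb, hC, hΛb, hpt⟩ := cl_pt q hq6 g hg Γ (hΓ₄.trans hΓ)
  have hq1 : 1 ≤ q := le_trans (by norm_num) hq6
  -- the final radius
  have hden : 0 < 2000 * (C + 1) := by positivity
  refine ⟨min εa (1 / (2000 * (C + 1))), lt_min hεa (by positivity), min Λa Λb, lt_min hΛa hΛb, ?_⟩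
  intro t₀ U ht₀ hU hN hX
  set ε := min εa (1 / (2000 * (C + 1))) with hε
  have hε0 : 0 < ε := lt_min hεa (by positivity)
  have ht₀a : t₀ ∈ Ico (-Λa) 0 := ⟨by have := min_le_left Λa Λb; linarith [ht₀.1], ht₀.2⟩
  have ht0 : t₀ < 0 := ht₀.2
  have hgf := nlu_to_gf q hq1 g hg.sm U hU t₀ ht0 hN
  obtain ⟨N, hN0, hNb⟩ := hbd t₀ U ht₀a hU hN (hX.mono hε0.le (min_le_left _ _))
  have h01 : t₀ < t₀ / 2 := by linarith
  have ht₁ : t₀ / 2 < 0 := by linarith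
  have ht₁b : t₀ / 2 ∈ Ico (-Λb) 0 := ⟨by have := min_le_right Λa Λb; linarith [ht₀.1], ht₁⟩
  have hE : ∀ t ∈ Ico (t₀ / 2) 0, E0 q Γ U t + E1 q g Γ U t ≤ (2 * ε) ^ 2 := by
    intro t ht
    have htI : t ∈ Ioo t₀ 0 := ⟨by linarith [ht.1], ht.2⟩
    have h1 := hX.e0 t htI
    have h2 := hX.e1 t htI
    nlinarith [sq_nonneg ε]
  have hP := hpt U (t₀ / 2) (2 * ε) N hU ht₁b (by positivity) hN0 hE hNb
  have hsmall : C * (2 * ε) ≤ 1 / 1000 := by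
    have h1 : ε ≤ 1 / (2000 * (C + 1)) := min_le_right _ _
    have h2 : C * (2 * ε) ≤ C * (2 * (1 / (2000 * (C + 1)))) := by
      apply mul_le_mul_of_nonneg_left _ hC
      linarith
    refine h2.trans ?_
    rw [show C * (2 * (1 / (2000 * (C + 1)))) = (C / (C + 1)) * (1 / 1000) by field_simp; ring]
    have h3 : C / (C + 1) ≤ 1 := by
      rw [div_le_one (by linarith)]
      linarith
    nlinarith
  exact ⟨cl_scal_bdd q hq6 g hg hcl U hU t₀ (t₀ / 2) (C * (2 * ε)) (C * N) h01 ht₁ (by positivity) hsmall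
      (by positivity) hgf hP,
    cl_curv_blow q hq6 g hg U hU t₀ (t₀ / 2) (C * (2 * ε)) (C * N) ht₁ hP⟩

end Claimed.Agent.R324.Core
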