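/-
Row 324 (S0582), PDE core, module CL.   Architect: helper325.   Blueprint: origin/helper325:docs/R324_CL.md, section C3.

Leaf CL.Scal: the barrier for the scalar curvature.      `ϱ = rhoF q (t,y) = sqrt (ℓ² + X)`,  `ℓ² = ell2 q t = (q-1)/100 (-t)^{2γ}`,  `1/ϱ = (clV0 ℓ² y)²`.
 (S1) `cl_rho`:   on the open set `O = {t < 0, ℓ² + X > 0} ⊇ (-∞,0) × [-1,1]` `ϱ` is smooth (`(-t)^{2γ}` is smooth for `t<0`: `Real.rpow` with positive base), and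
        ∂_t ϱ = ∂_t ℓ²/(2ϱ) ≤ 0   (`∂_t ℓ² = -2γ ℓ²/(-t) < 0`),      ϱ' = - y/ϱ,      ϱ'' = - 1/ϱ - y²/ϱ³.
 (S2) `cl_rho_super`:    X Z e₁ ϱ'' + 𝔟 ϱ' = (1/ϱ) { Z [ q y² e₂ + y² e₁ - e₁ X - e₁ y² s + y e₁ X a'/2 - y X w' e₃ ] - y X W },    s = X/(ℓ²+X) ≤ 1.
        north zone `y ∈ [y₁,1]` (`BgCL`: 1/2 ≤ Z ≤ 2, |X w'| ≤ 4, |X a'| ≤ 1;  `|X W| ≤ 1` by `symJ` + `cl_bg_small`;  e_i ∈ [e^{-2ε}, e^{2ε}]):   { } ≥ (1/2)(0.9 q e^{-2ε}) - 2 (2 + 1 + 8) - 1 ≥ q/4;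
        south zone `y ≤ -19/20` (`Z = 1`, `a' = w' = W = 0`):   { } ≥ 0.9 q e^{-2ε} - 2 ≥ q/4;
        middle `-19/20 ≤ y ≤ y₁`:  |{ }| ≤ C (`BgGood.sym`), `ϱ ≥ sqrt (1 - y₁²)`:   LHS ≥ -C' ≥ (q/8)/ϱ - C₆.
 (S3) `cl_scal_upper`:   `C_ρ` from `cl_ric_bound`, `A₃ = 4 C_ρ/q`, `C₅ = A₃ C₆`, `u = scF + A₃ ϱ - C₅ (t - t₂)`:
        u_t - (X Z e₁ u'' + 𝔟 u') = ricF/2 + A₃ ∂_t ϱ - C₅ - A₃ (X Z e₁ ϱ'' + 𝔟 ϱ') ≤ C_ρ/(2ϱ) - C₅ - A₃ (q/8)/ϱ + A₃ C₆ = 0       (`cl_scal_evol`).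
      `max_principle` (R324/MaxPrin.lean) on `[t₂,t₃]`, any `t₃ < 0`, `al = X Z e₁ ≥ 0`, `be = drF`, `O` as in (S1) intersected with nothing else;  `hend`: at `y = ±1`, `X = 0`, `drF = ∓ Z (e₁ + q e₂)`, `κ = Z (e₁ + q e₂) ≥ 0`;
      `M = max_{[-1,1]} u(t₂,·)` (continuity on a compact set).      Then `scF = u - A₃ ϱ + C₅ (t - t₂) ≤ M + C₅ |t₂|`.        (`deriv (fun s => u (s,y)) t = dT u (t,y)`, `iteratedDeriv 2 (fun z => u (t,z)) y = dY (dY u) (t,y)`.)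
 (S4) `cl_scal_lower`:   `u = - scF`:  `u_t - (X Z e₁ u'' + 𝔟 u') = - ricF/2 ≤ 0`.      No smallness, no barrier: valid on `[t₂,0)` for every `t₂ ∈ (t₀,0)`.
 (S5) `cl_scal_bdd`:   on `(t₀,t₂]`: `scF` is continuous on the compact `[t₀,t₂] × [-1,1]` (`Sm`, `t₂ < 0`);   `cl_repr` turns `scF` into `scalRed`.
-/
import Claimed.Agent.R324.Core.CL.Gauge
import Claimed.Agent.R324.Core.CL.Evol
import Claimed.Agent.R324.Core.CL.ScalA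

set_option autoImplicit false

namespace Claimed.Agent.R324.Core

open Set Filter Topology MeasureTheory
open scoped ContDiff

/-- `ϱ = sqrt (ℓ² + X)`. -/
noncomputable def rhoF (q : ℝ) : Fn := fun p => Real.sqrt (ell2 q p.1 + Xf p.2)

/-- the domain of smoothness of `ϱ`. -/
def rhoO (q : ℝ) : Set (ℝ × ℝ) := {p | p.1 < 0 ∧ 0 < ell2 q p.1 + Xf p.2}

theorem cl_rho (q : ℝ) (hq : 1 < q) :
    IsOpen (rhoO q) ∧ Iio (0 : ℝ) ×ˢ Icc (-1 : ℝ) 1 ⊆ rhoO q ∧ ContDiffOn ℝ ∞ (rhoF q) (rhoO q) ∧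
    ∀ p ∈ rhoO q, 0 < rhoF q p ∧ dT (rhoF q) p ≤ 0 ∧ dY (rhoF q) p = -p.2 / rhoF q p ∧
      dY (dY (rhoF q)) p = -1 / rhoF q p - p.2 ^ 2 / (rhoF q p) ^ 3 ∧
      (clV0 (ell2 q p.1) p.2) ^ 2 = 1 / rhoF q p :=
  cl_sa_rho_aux q hq (rhoF q) rfl (rhoO q) rfl

theorem cl_rho_super (q : ℕ) (hq6 : 10 ^ 6 ≤ q) (g : Bg) (hg : BgGood q g) (hcl : BgCL q g) (U : Tri)
    (hU : ∀ j, Sm (U j)) (t₁ ε N : ℝ) (ht₁ : t₁ < 0) (hε0 : 0 ≤ ε) (hε : ε ≤ 1 / 1000)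
    (hpt : CLPt q U t₁ ε N) :
    ∃ Λ₄ C₆ : ℝ, 0 < Λ₄ ∧ 0 ≤ C₆ ∧ ∀ t ∈ Ico (max t₁ (-Λ₄)) 0, ∀ y ∈ Icc (-1 : ℝ) 1,
      (q : ℝ) / 8 / rhoF q (t, y) - C₆ ≤ Xf y * g.Z (t, y) * e1F q U (t, y) * dY (dY (rhoF q)) (t, y)
        + drF q g U (t, y) * dY (rhoF q) (t, y) := by
  have hq : (1 : ℝ) < q := by
    have : (10 ^ 6 : ℝ) ≤ q := by exact_mod_cast hq6
    linarith
  obtain ⟨Λ₄, C₆, hΛ, hC, H⟩ := cl_sa_rho_super_aux q hq6 g hg hcl U t₁ ε N hε0 hε hpt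
  obtain ⟨-, hsub, -, hρ⟩ := cl_rho (q : ℝ) hq
  refine ⟨Λ₄, C₆, hΛ, hC, ?_⟩
  intro t ht y hy
  obtain ⟨-, -, h1, h2, -⟩ := hρ (t, y) (hsub ⟨ht.2, hy⟩)
  rw [h1, h2]
  exact H t ht y hy (rhoF q (t, y)) rfl

/-! ### helpers for (S3)-(S5)  (helper328) -/

theorem cl_sb_two_le : (2 : WithTop ℕ∞) ≤ ∞ := by
  have : ((2 : ℕ∞) : WithTop ℕ∞) ≤ ((⊤ : ℕ∞) : WithTop ℕ∞) := WithTop.coe_le_coe.2 le_top
  exact this

/-- second `y`-derivative as `iteratedDeriv`. -/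
theorem cl_sb_iter2 (f : Fn) (t y : ℝ) : iteratedDeriv 2 (fun z => f (t, z)) y = dY (dY f) (t, y) := by
  rw [show (2 : ℕ) = 1 + 1 from rfl, iteratedDeriv_succ, iteratedDeriv_one]
  rfl

theorem cl_sb_slY {f : Fn} {O : Set (ℝ × ℝ)} {n : WithTop ℕ∞} (hO : IsOpen O) (hf : ContDiffOn ℝ n f O)
    {t y : ℝ} (hp : (t, y) ∈ O) : ContDiffAt ℝ n (fun z => f (t, z)) y :=
  (hf.contDiffAt (hO.mem_nhds hp)).comp y (contDiffAt_const.prodMk contDiffAt_id)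

theorem cl_sb_slT {f : Fn} {O : Set (ℝ × ℝ)} {n : WithTop ℕ∞} (hO : IsOpen O) (hf : ContDiffOn ℝ n f O)
    {t y : ℝ} (hp : (t, y) ∈ O) : ContDiffAt ℝ n (fun s => f (s, y)) t :=
  (hf.contDiffAt (hO.mem_nhds hp)).comp t (contDiffAt_id.prodMk contDiffAt_const)

theorem cl_sb_dT_neg (f : Fn) : dT (fun p => -f p) = fun p => -dT f p := by
  funext p
  exact deriv.fun_neg

theorem cl_sb_dY_neg (f : Fn) : dY (fun p => -f p) = fun p => -dY f p := by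
  funext p
  exact deriv.fun_neg

/-- derivatives of `S + A R - C (t - t₂)`. -/
theorem cl_sb_comb {S R : Fn} {O : Set (ℝ × ℝ)} (hO : IsOpen O) (hS : ContDiffOn ℝ 2 S O)
    (hR : ContDiffOn ℝ 2 R O) (A C t₂ : ℝ) {t y : ℝ} (hp : (t, y) ∈ O) :
    dT (fun p => S p + A * R p - C * (p.1 - t₂)) (t, y) = dT S (t, y) + A * dT R (t, y) - C ∧
    dY (fun p => S p + A * R p - C * (p.1 - t₂)) (t, y) = dY S (t, y) + A * dY R (t, y) ∧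
    dY (dY (fun p => S p + A * R p - C * (p.1 - t₂))) (t, y)
      = dY (dY S) (t, y) + A * dY (dY R) (t, y) := by
  refine ⟨?_, ?_, ?_⟩
  · have h1 : HasDerivAt (fun s => S (s, y)) (dT S (t, y)) t :=
      ((cl_sb_slT hO hS hp).differentiableAt (by norm_num)).hasDerivAt
    have h2 : HasDerivAt (fun s => R (s, y)) (dT R (t, y)) t :=
      ((cl_sb_slT hO hR hp).differentiableAt (by norm_num)).hasDerivAt
    have h3 := ((h1.add (h2.const_mul A)).sub (((hasDerivAt_id t).sub_const t₂).const_mul C)).deriv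
    rw [mul_one] at h3
    exact h3
  · have h1 : HasDerivAt (fun z => S (t, z)) (dY S (t, y)) y :=
      ((cl_sb_slY hO hS hp).differentiableAt (by norm_num)).hasDerivAt
    have h2 : HasDerivAt (fun z => R (t, z)) (dY R (t, y)) y :=
      ((cl_sb_slY hO hR hp).differentiableAt (by norm_num)).hasDerivAt
    exact ((h1.add (h2.const_mul A)).sub_const (C * (t - t₂))).deriv
  · rw [← cl_sb_iter2, ← cl_sb_iter2, ← cl_sb_iter2]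
    have h1 : ContDiffAt ℝ ((2 : ℕ) : WithTop ℕ∞) (fun z => S (t, z)) y := cl_sb_slY hO hS hp
    have h2 : ContDiffAt ℝ ((2 : ℕ) : WithTop ℕ∞) (fun z => R (t, z)) y := cl_sb_slY hO hR hp
    have h2' : ContDiffAt ℝ ((2 : ℕ) : WithTop ℕ∞) (fun z => A * R (t, z)) y :=
      contDiffAt_const.mul h2
    show iteratedDeriv 2 (fun z => S (t, z) + A * R (t, z) - C * (t - t₂)) y = _
    rw [iteratedDeriv_fun_sub (h1.add h2') contDiffAt_const, iteratedDeriv_fun_add h1 h2',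
      iteratedDeriv_const_mul_field, iteratedDeriv_const]
    simp

/-- the maximum principle for the scalar heat operator `∂_t - X Z e₁ ∂_y² - 𝔟 ∂_y`. -/
theorem cl_sb_mp (q : ℝ) (hq : 0 ≤ q) (g : Bg) (hg : BgSm g) (U : Tri) (t₂ t₃ : ℝ) (h23 : t₂ ≤ t₃)
    (ht₃ : t₃ < 0) (u : Fn) (O : Set (ℝ × ℝ)) (hO : IsOpen O)
    (hsub : Icc t₂ t₃ ×ˢ Icc (-1 : ℝ) 1 ⊆ O) (hu : ContDiffOn ℝ 2 u O)
    (hineq : ∀ t ∈ Icc t₂ t₃, ∀ y ∈ Icc (-1 : ℝ) 1,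
      dT u (t, y) ≤ Xf y * g.Z (t, y) * e1F q U (t, y) * dY (dY u) (t, y) + drF q g U (t, y) * dY u (t, y))
    (M : ℝ) (h0 : ∀ y ∈ Icc (-1 : ℝ) 1, u (t₂, y) ≤ M) :
    ∀ t ∈ Icc t₂ t₃, ∀ y ∈ Icc (-1 : ℝ) 1, u (t, y) ≤ M := by
  have hZ : ∀ t ∈ Icc t₂ t₃, ∀ y, 0 < g.Z (t, y) := fun t ht y =>
    one_div_pos.2 (hg.pos t (ht.2.trans_lt ht₃) y)
  refine max_principle t₂ t₃ h23 u (fun p => Xf p.2 * g.Z p * e1F q U p) (drF q g U) O hO hsub hu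
    ?_ ?_ ?_ M h0
  · intro t ht y hy
    have hX : 0 ≤ Xf y := by
      unfold Xf
      nlinarith [hy.1, hy.2]
    exact mul_nonneg (mul_nonneg hX (hZ t ht y).le) (Real.exp_pos _).le
  · intro t ht y hy
    rw [cl_sb_iter2]
    exact hineq t ht y (Ioo_subset_Icc_self hy)
  · intro t ht y hy
    have he1 : 0 < e1F q U (t, y) := Real.exp_pos _
    have he2 : 0 < e2F q U (t, y) := Real.exp_pos _
    refine ⟨g.Z (t, y) * (e1F q U (t, y) + q * e2F q U (t, y)), ?_, ?_⟩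
    · exact mul_nonneg (hZ t ht y).le (add_nonneg he1.le (mul_nonneg hq he2.le))
    · have hX : Xf y = 0 := by
        rcases hy with rfl | rfl <;> norm_num [Xf]
      have hyI : y ∈ Icc (-1 : ℝ) 1 := by
        rcases hy with rfl | rfl <;> norm_num
      have h1 := hineq t ht y hyI
      have hdr : drF q g U (t, y) = -y * g.Z (t, y) * (e1F q U (t, y) + q * e2F q U (t, y)) := by
        show -y * g.Z (t, y) * (e1F q U (t, y) + q * e2F q U (t, y))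
          - Xf y * g.Z (t, y) * e1F q U (t, y) * g.ap (t, y) / 2
          + Xf y * g.Z (t, y) * g.wp (t, y) * e3F U (t, y) + Xf y * g.W (t, y) = _
        rw [hX]
        ring
      rw [hX, hdr] at h1
      show dT u (t, y) ≤ -(g.Z (t, y) * (e1F q U (t, y) + q * e2F q U (t, y))) * y * dY u (t, y)
      linarith

theorem cl_sb_ric_nonneg (q : ℝ) (hq : 0 ≤ q) (g : Bg) (U : Tri) (p : ℝ × ℝ) : 0 ≤ ricF q g U p := by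
  unfold ricF
  positivity

theorem cl_scal_upper (q : ℕ) (hq6 : 10 ^ 6 ≤ q) (g : Bg) (hg : BgGood q g) (hcl : BgCL q g) (U : Tri)
    (hU : ∀ j, Sm (U j)) (t₀ t₁ ε N : ℝ) (h01 : t₀ < t₁) (ht₁ : t₁ < 0) (hε0 : 0 ≤ ε) (hε : ε ≤ 1 / 1000) (hN : 0 ≤ N)
    (hgf : RedGF q t₀ 0 (mA q U) (mB q g U) (mC g U) (mW q g U)) (hpt : CLPt q U t₁ ε N) :
    ∃ t₂ C : ℝ, t₁ ≤ t₂ ∧ t₂ < 0 ∧ ∀ t ∈ Ico t₂ 0, ∀ y ∈ Icc (-1 : ℝ) 1, scF q g U (t, y) ≤ C := by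
  have hq1 : 1 ≤ q := le_trans (by norm_num) hq6
  have hq0 : (0 : ℝ) < q := by exact_mod_cast hq1
  have hq1' : (1 : ℝ) < q := by
    have : 1 < q := lt_of_lt_of_le (by norm_num) hq6
    exact_mod_cast this
  obtain ⟨Λ₃, Cρ, hΛ₃, hCρ, hric⟩ := cl_ric_bound q hq6 g hg hcl U hU t₀ t₁ ε N h01 ht₁ hε0 hε hN hgf hpt
  obtain ⟨Λ₄, C₆, hΛ₄, hC₆, hsup⟩ := cl_rho_super q hq6 g hg hcl U hU t₁ ε N ht₁ hε0 hε hpt
  obtain ⟨hOo, hOsub, hρsm, hρ⟩ := cl_rho (q : ℝ) hq1'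
  obtain ⟨-, -, -, hsc, -⟩ := cl_sm_ric (q : ℝ) hq0 g hg.sm U hU
  obtain ⟨t₂, ht₂def⟩ : ∃ t₂, t₂ = max t₁ (max (-Λ₃) (-Λ₄)) := ⟨_, rfl⟩
  have h12 : t₁ ≤ t₂ := by rw [ht₂def]; exact le_max_left _ _
  have h32 : -Λ₃ ≤ t₂ := by rw [ht₂def]; exact (le_max_left _ _).trans (le_max_right _ _)
  have h42 : -Λ₄ ≤ t₂ := by rw [ht₂def]; exact (le_max_right _ _).trans (le_max_right _ _)
  have ht₂ : t₂ < 0 := by
    rw [ht₂def]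
    exact max_lt ht₁ (max_lt (by linarith) (by linarith))
  obtain ⟨A₃, hA₃⟩ : ∃ A₃, A₃ = 4 * Cρ / q := ⟨_, rfl⟩
  have hA₃0 : 0 ≤ A₃ := by rw [hA₃]; positivity
  obtain ⟨C₅, hC₅⟩ : ∃ C₅, C₅ = A₃ * C₆ := ⟨_, rfl⟩
  have hC₅0 : 0 ≤ C₅ := by rw [hC₅]; exact mul_nonneg hA₃0 hC₆
  have hOsm : rhoO (q : ℝ) ⊆ Iio (0 : ℝ) ×ˢ (univ : Set ℝ) := fun p hp => ⟨hp.1, mem_univ _⟩
  have hS2 : ContDiffOn ℝ 2 (scF q g U) (rhoO (q : ℝ)) := (hsc.mono hOsm).of_le cl_sb_two_le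
  have hR2 : ContDiffOn ℝ 2 (rhoF (q : ℝ)) (rhoO (q : ℝ)) := hρsm.of_le cl_sb_two_le
  obtain ⟨u, hudef⟩ : ∃ u : Fn, u = fun p => scF q g U p + A₃ * rhoF q p - C₅ * (p.1 - t₂) := ⟨_, rfl⟩
  have hu2 : ContDiffOn ℝ 2 u (rhoO (q : ℝ)) := by
    rw [hudef]
    exact (hS2.add (contDiffOn_const.mul hR2)).sub
      (contDiffOn_const.mul (contDiff_fst.sub contDiff_const).contDiffOn)
  have hmemO : ∀ t < 0, ∀ y ∈ Icc (-1 : ℝ) 1, (t, y) ∈ rhoO (q : ℝ) := fun t ht y hy => hOsub ⟨ht, hy⟩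
  -- the differential inequality
  have hineq : ∀ t ∈ Ico t₂ 0, ∀ y ∈ Icc (-1 : ℝ) 1,
      dT u (t, y) ≤ Xf y * g.Z (t, y) * e1F q U (t, y) * dY (dY u) (t, y)
        + drF q g U (t, y) * dY u (t, y) := by
    intro t ht y hy
    have hp := hmemO t ht.2 y hy
    obtain ⟨d1, d2, d3⟩ := cl_sb_comb hOo hS2 hR2 A₃ C₅ t₂ hp
    rw [hudef, d1, d2, d3]
    have hev := cl_scal_evol q hq1 g hg.sm U hU t₀ hgf t ⟨by linarith [ht.1], ht.2⟩ y hy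
    have h1 := hric t ⟨max_le (h12.trans ht.1) (h32.trans ht.1), ht.2⟩ y hy
    have h2 := hsup t ⟨max_le (h12.trans ht.1) (h42.trans ht.1), ht.2⟩ y hy
    obtain ⟨r0, r1, -, -, r4⟩ := hρ (t, y) hp
    have r4' : (clV0 (ell2 q t) y) ^ 2 = 1 / rhoF q (t, y) := r4
    rw [r4'] at h1
    rw [hev]
    have h3 := mul_le_mul_of_nonneg_left h2 hA₃0
    have h4 : A₃ * ((q : ℝ) / 8 / rhoF q (t, y) - C₆) = Cρ * (1 / rhoF q (t, y)) / 2 - C₅ := by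
      rw [hA₃, hC₅, hA₃]
      field_simp
      ring
    have h5 : A₃ * dT (rhoF q) (t, y) ≤ 0 := mul_nonpos_of_nonneg_of_nonpos hA₃0 r1
    rw [h4] at h3
    linarith
  -- the initial bound
  have hcont : ContinuousOn (fun y => u (t₂, y)) (Icc (-1 : ℝ) 1) :=
    hu2.continuousOn.comp (by fun_prop) (fun y hy => hmemO t₂ ht₂ y hy)
  obtain ⟨M, hM⟩ := isCompact_Icc.bddAbove_image hcont
  refine ⟨t₂, M + C₅ * (-t₂), h12, ht₂, fun t ht y hy => ?_⟩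
  have key := cl_sb_mp (q : ℝ) hq0.le g hg.sm U t₂ t ht.1 ht.2 u (rhoO (q : ℝ)) hOo
    (fun p hp => hmemO p.1 (hp.1.2.trans_lt ht.2) p.2 hp.2) hu2
    (fun s hs z hz => hineq s ⟨hs.1, hs.2.trans_lt ht.2⟩ z hz) M
    (fun z hz => hM ⟨z, hz, rfl⟩) t ⟨ht.1, le_rfl⟩ y hy
  rw [hudef] at key
  have key' : scF q g U (t, y) + A₃ * rhoF q (t, y) - C₅ * (t - t₂) ≤ M := key
  have hr0 := (hρ (t, y) (hmemO t ht.2 y hy)).1
  have h6 : 0 ≤ A₃ * rhoF q (t, y) := mul_nonneg hA₃0 hr0.le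
  have h7 : C₅ * (t - t₂) ≤ C₅ * (-t₂) := mul_le_mul_of_nonneg_left (by linarith [ht.2]) hC₅0
  linarith

theorem cl_scal_lower (q : ℕ) (hq : 1 ≤ q) (g : Bg) (hg : BgSm g) (U : Tri) (hU : ∀ j, Sm (U j)) (t₀ t₂ : ℝ)
    (h02 : t₀ < t₂) (ht₂ : t₂ < 0) (hgf : RedGF q t₀ 0 (mA q U) (mB q g U) (mC g U) (mW q g U)) :
    ∃ C : ℝ, ∀ t ∈ Ico t₂ 0, ∀ y ∈ Icc (-1 : ℝ) 1, -C ≤ scF q g U (t, y) := by
  have hq0 : (0 : ℝ) < q := by exact_mod_cast hq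
  obtain ⟨-, -, -, hsc, -⟩ := cl_sm_ric (q : ℝ) hq0 g hg U hU
  have hO : IsOpen (Iio (0 : ℝ) ×ˢ (univ : Set ℝ)) := isOpen_Iio.prod isOpen_univ
  have hu2 : ContDiffOn ℝ 2 (fun p => -scF q g U p) (Iio (0 : ℝ) ×ˢ (univ : Set ℝ)) :=
    hsc.neg.of_le cl_sb_two_le
  have hineq : ∀ t ∈ Ico t₂ 0, ∀ y ∈ Icc (-1 : ℝ) 1,
      dT (fun p => -scF q g U p) (t, y)
        ≤ Xf y * g.Z (t, y) * e1F q U (t, y) * dY (dY (fun p => -scF q g U p)) (t, y)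
          + drF q g U (t, y) * dY (fun p => -scF q g U p) (t, y) := by
    intro t ht y hy
    have hev := cl_scal_evol q hq g hg U hU t₀ hgf t ⟨by linarith [ht.1], ht.2⟩ y hy
    have hr := cl_sb_ric_nonneg (q : ℝ) hq0.le g U (t, y)
    rw [cl_sb_dT_neg, cl_sb_dY_neg, cl_sb_dY_neg]
    show -dT (scF q g U) (t, y) ≤ Xf y * g.Z (t, y) * e1F q U (t, y) * -dY (dY (scF q g U)) (t, y)
      + drF q g U (t, y) * -dY (scF q g U) (t, y)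
    rw [hev]
    linarith
  have hcont : ContinuousOn (fun y => (fun p => -scF q g U p) (t₂, y)) (Icc (-1 : ℝ) 1) :=
    hu2.continuousOn.comp (by fun_prop) (fun y _ => ⟨ht₂, mem_univ _⟩)
  obtain ⟨M, hM⟩ := isCompact_Icc.bddAbove_image hcont
  refine ⟨M, fun t ht y hy => ?_⟩
  have key := cl_sb_mp (q : ℝ) hq0.le g hg U t₂ t ht.1 ht.2 (fun p => -scF q g U p) _ hO
    (fun p hp => ⟨hp.1.2.trans_lt ht.2, mem_univ _⟩) hu2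
    (fun s hs z hz => hineq s ⟨hs.1, hs.2.trans_lt ht.2⟩ z hz) M
    (fun z hz => hM ⟨z, hz, rfl⟩) t ⟨ht.1, le_rfl⟩ y hy
  have key' : -scF q g U (t, y) ≤ M := key
  linarith

theorem cl_scal_bdd (q : ℕ) (hq6 : 10 ^ 6 ≤ q) (g : Bg) (hg : BgGood q g) (hcl : BgCL q g) (U : Tri)
    (hU : ∀ j, Sm (U j)) (t₀ t₁ ε N : ℝ) (h01 : t₀ < t₁) (ht₁ : t₁ < 0) (hε0 : 0 ≤ ε) (hε : ε ≤ 1 / 1000) (hN : 0 ≤ N)
    (hgf : RedGF q t₀ 0 (mA q U) (mB q g U) (mC g U) (mW q g U)) (hpt : CLPt q U t₁ ε N) :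
    ScalBdd q t₀ 0 (mA q U) (mB q g U) (mC g U) := by
  have hq1 : 1 ≤ q := le_trans (by norm_num) hq6
  have hq0 : (0 : ℝ) < q := by exact_mod_cast hq1
  obtain ⟨t₂, C₁, h12, ht₂, hup⟩ := cl_scal_upper q hq6 g hg hcl U hU t₀ t₁ ε N h01 ht₁ hε0 hε hN hgf hpt
  obtain ⟨C₂, hlo⟩ := cl_scal_lower q hq1 g hg.sm U hU t₀ t₂ (h01.trans_le h12) ht₂ hgf
  obtain ⟨-, -, -, hsc, -⟩ := cl_sm_ric (q : ℝ) hq0 g hg.sm U hU
  have hcont : ContinuousOn (scF q g U) (Icc t₀ t₂ ×ˢ Icc (-1 : ℝ) 1) :=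
    hsc.continuousOn.mono (fun p hp => ⟨hp.1.2.trans_lt ht₂, mem_univ _⟩)
  obtain ⟨C₃, hC₃⟩ := (isCompact_Icc.prod isCompact_Icc).exists_bound_of_continuousOn hcont
  refine ⟨max (max C₁ C₂) C₃, fun t ht y hy => ?_⟩
  rw [(cl_repr q hq1 g hg.sm U hU t₀ hgf t ht y hy).2.2.2]
  have hyI : y ∈ Icc (-1 : ℝ) 1 := Ioo_subset_Icc_self hy
  rcases le_or_gt t₂ t with h | h
  · have h1 := hup t ⟨h, ht.2⟩ y hyI
    have h2 := hlo t ⟨h, ht.2⟩ y hyI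
    rw [abs_le]
    constructor
    · have : C₂ ≤ max (max C₁ C₂) C₃ := (le_max_right _ _).trans (le_max_left _ _)
      linarith
    · exact h1.trans ((le_max_left _ _).trans (le_max_left _ _))
  · have := hC₃ (t, y) ⟨⟨ht.1.le, h.le⟩, hyI⟩
    rw [Real.norm_eq_abs] at this
    exact this.trans (le_max_right _ _)

end Claimed.Agent.R324.Core
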