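/-
Row 324 (S0582), PDE core, module CL.   Auxiliary file of CL.Scal (helper146): the function `ϱ = sqrt (ℓ² + X)` and the supersolution inequality, in unfolded form.
-/
import Claimed.Agent.R324.Core.CL.Gauge

set_option autoImplicit false

namespace Claimed.Agent.R324.Core

open Set Filter Topology MeasureTheory
open scoped ContDiff

theorem cl_sa_bAl_pos (q : ℝ) (hq : 1 < q) : 0 < bAl q := by
  unfold bAl
  have h1 : Real.sqrt ((q + 1) ^ 2 - 8 * (q + 1)) < q + 1 := by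
    rw [Real.sqrt_lt' (by linarith)]
    nlinarith
  linarith

theorem cl_sa_gaF_pos (q : ℝ) (hq : 1 < q) : 0 < gaF q := div_pos (by norm_num) (cl_sa_bAl_pos q hq)

theorem cl_sa_ell2_pos (q : ℝ) (hq : 1 < q) {t : ℝ} (ht : t < 0) : 0 < ell2 q t := by
  unfold ell2 lam2
  have h1 : 0 < (-t) ^ (2 * gaF q) := Real.rpow_pos_of_pos (by linarith) _
  have h2 : 0 < (q - 1) / 100 := by linarith
  exact mul_pos h2 h1

theorem cl_sa_ell2_hasDerivAt (q : ℝ) {t : ℝ} (ht : t < 0) :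
    HasDerivAt (ell2 q) (-((q - 1) / 100 * (2 * gaF q * (-t) ^ (2 * gaF q - 1)))) t := by
  have h1 : HasDerivAt (fun s : ℝ => -s) (-1) t := (hasDerivAt_id t).neg
  have h2 := h1.rpow_const (p := 2 * gaF q) (Or.inl (by linarith : -t ≠ 0))
  have h3 := h2.const_mul ((q - 1) / 100)
  have e : ell2 q = fun s => (q - 1) / 100 * (-s) ^ (2 * gaF q) := by
    funext s; rfl
  rw [e]
  exact h3.congr_deriv (by ring)

theorem cl_sa_F_contDiffAt (q : ℝ) {p : ℝ × ℝ} (hp : p.1 < 0) :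
    ContDiffAt ℝ ∞ (fun p : ℝ × ℝ => ell2 q p.1 + Xf p.2) p := by
  have h1 : ContDiffAt ℝ ∞ (fun p : ℝ × ℝ => (-p.1) ^ (2 * gaF q)) p :=
    (contDiffAt_fst.neg).rpow_const_of_ne (by linarith : -p.1 ≠ 0)
  have h2 : ContDiffAt ℝ ∞ (fun p : ℝ × ℝ => 1 - p.2 ^ 2) p := contDiffAt_const.sub (contDiffAt_snd.pow 2)
  exact (contDiffAt_const.mul h1).add h2

theorem cl_sa_sqrt_hasDerivAt (L z : ℝ) (h : 0 < L + Xf z) :
    HasDerivAt (fun z => Real.sqrt (L + Xf z)) (-z / Real.sqrt (L + Xf z)) z := by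
  have h1 : HasDerivAt (fun z : ℝ => L + Xf z) (-(2 * z)) z := by
    have h0 := ((hasDerivAt_pow 2 z).const_sub 1).const_add L
    exact h0.congr_deriv (by simp)
  have h2 := h1.sqrt h.ne'
  have hs : 0 < Real.sqrt (L + Xf z) := Real.sqrt_pos.2 h
  exact h2.congr_deriv (by field_simp)

theorem cl_sa_sqrt_hasDerivAt2 (L z : ℝ) (h : 0 < L + Xf z) :
    HasDerivAt (fun z => -z / Real.sqrt (L + Xf z))
      (-1 / Real.sqrt (L + Xf z) - z ^ 2 / Real.sqrt (L + Xf z) ^ 3) z := by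
  have hs : 0 < Real.sqrt (L + Xf z) := Real.sqrt_pos.2 h
  have hn : HasDerivAt (fun z : ℝ => -z) (-1) z := (hasDerivAt_id' z).neg
  have h1 := hn.div (cl_sa_sqrt_hasDerivAt L z h) hs.ne'
  exact h1.congr_deriv (by field_simp)

theorem cl_sa_rho_aux (q : ℝ) (hq : 1 < q) (ρ : Fn) (hρ : ρ = fun p => Real.sqrt (ell2 q p.1 + Xf p.2))
    (O : Set (ℝ × ℝ)) (hO : O = {p | p.1 < 0 ∧ 0 < ell2 q p.1 + Xf p.2}) :
    IsOpen O ∧ Iio (0 : ℝ) ×ˢ Icc (-1 : ℝ) 1 ⊆ O ∧ ContDiffOn ℝ ∞ ρ O ∧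
    ∀ p ∈ O, 0 < ρ p ∧ dT ρ p ≤ 0 ∧ dY ρ p = -p.2 / ρ p ∧
      dY (dY ρ) p = -1 / ρ p - p.2 ^ 2 / (ρ p) ^ 3 ∧
      (clV0 (ell2 q p.1) p.2) ^ 2 = 1 / ρ p := by
  subst hρ hO
  have hopen : IsOpen {p : ℝ × ℝ | p.1 < 0 ∧ 0 < ell2 q p.1 + Xf p.2} := by
    have hs : IsOpen {p : ℝ × ℝ | p.1 < 0} := isOpen_lt continuous_fst continuous_const
    have hc : ContinuousOn (fun p : ℝ × ℝ => ell2 q p.1 + Xf p.2) {p : ℝ × ℝ | p.1 < 0} :=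
      fun p hp => (cl_sa_F_contDiffAt q hp).continuousAt.continuousWithinAt
    exact hc.isOpen_inter_preimage hs isOpen_Ioi
  have hdY : ∀ p ∈ {p : ℝ × ℝ | p.1 < 0 ∧ 0 < ell2 q p.1 + Xf p.2},
      dY (fun p => Real.sqrt (ell2 q p.1 + Xf p.2)) p = -p.2 / Real.sqrt (ell2 q p.1 + Xf p.2) :=
    fun p hp => (cl_sa_sqrt_hasDerivAt (ell2 q p.1) p.2 hp.2).deriv
  refine ⟨hopen, ?_, ?_, ?_⟩
  · rintro ⟨t, y⟩ ⟨ht, hy⟩
    have h1 := cl_sa_ell2_pos q hq (t := t) ht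
    have h2 : 0 ≤ Xf y := cl_u_nonneg y hy
    exact ⟨ht, by simp only; linarith⟩
  · intro p hp
    exact ((cl_sa_F_contDiffAt q hp.1).sqrt hp.2.ne').contDiffWithinAt
  · rintro ⟨t, y⟩ hp
    have ht : t < 0 := hp.1
    have hF : 0 < ell2 q t + Xf y := hp.2
    have hs : 0 < Real.sqrt (ell2 q t + Xf y) := Real.sqrt_pos.2 hF
    refine ⟨hs, ?_, hdY _ hp, ?_, ?_⟩
    · have h1 := ((cl_sa_ell2_hasDerivAt q ht).add_const (Xf y)).sqrt hF.ne'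
      have h2 : dT (fun p => Real.sqrt (ell2 q p.1 + Xf p.2)) (t, y) = _ := h1.deriv
      rw [h2]
      apply div_nonpos_of_nonpos_of_nonneg _ (by positivity)
      have h3 : 0 ≤ (-t) ^ (2 * gaF q - 1) := Real.rpow_nonneg (by linarith) _
      have h4 := (cl_sa_gaF_pos q hq).le
      have h5 : 0 ≤ (q - 1) / 100 := by linarith
      have : 0 ≤ (q - 1) / 100 * (2 * gaF q * (-t) ^ (2 * gaF q - 1)) := by positivity
      linarith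
    · have hev : (fun z => dY (fun p => Real.sqrt (ell2 q p.1 + Xf p.2)) (t, z))
          =ᶠ[𝓝 y] fun z => -z / Real.sqrt (ell2 q t + Xf z) := by
        have hc : ContinuousAt (fun z : ℝ => ((t, z) : ℝ × ℝ)) y := by fun_prop
        filter_upwards [hc.preimage_mem_nhds (hopen.mem_nhds hp)] with z hz
        exact hdY _ hz
      have h2 : dY (dY (fun p => Real.sqrt (ell2 q p.1 + Xf p.2))) (t, y)
          = deriv (fun z => -z / Real.sqrt (ell2 q t + Xf z)) y := hev.deriv_eq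
      rw [h2]
      exact (cl_sa_sqrt_hasDerivAt2 (ell2 q t) y hF).deriv
    · show ((ell2 q t + (1 - y ^ 2)) ^ (-((1 : ℝ) / 4))) ^ 2 = 1 / Real.sqrt (ell2 q t + Xf y)
      have hF' : 0 < ell2 q t + (1 - y ^ 2) := hF
      have e : Xf y = 1 - y ^ 2 := rfl
      rw [e, ← Real.rpow_natCast, ← Real.rpow_mul hF'.le, Real.sqrt_eq_rpow,
        one_div ((ell2 q t + (1 - y ^ 2)) ^ ((1 : ℝ) / 2)), ← Real.rpow_neg hF'.le]
      norm_num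

/-! ### the supersolution inequality -/

theorem cl_sa_abs_mul_le {a b A B : ℝ} (ha : |a| ≤ A) (hb : |b| ≤ B) : |a * b| ≤ A * B := by
  rw [abs_mul]
  exact mul_le_mul ha hb (abs_nonneg _) ((abs_nonneg _).trans ha)

theorem cl_sa_Xt_eq {y : ℝ} (hy : 1 / 2 ≤ y) : Xt y = Xf y := by
  unfold Xt Xf sgY
  rw [Real.smoothTransition.one_of_one_le (by linarith)]
  ring

theorem cl_sa_Xt_ge {y : ℝ} (hy : y ≤ 1 / 2) : 3 / 4 ≤ Xt y := by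
  have hs0 := Real.smoothTransition.nonneg (2 * y)
  have hs1 := Real.smoothTransition.le_one (2 * y)
  have key : 0 ≤ sgY y ∧ sgY y ≤ 1 / 2 := by
    unfold sgY
    rcases le_total y 0 with h | h
    · rw [Real.smoothTransition.zero_of_nonpos (by linarith)]
      constructor <;> norm_num
    · constructor
      · nlinarith [mul_nonneg hs0 h]
      · nlinarith [mul_nonneg hs0 (by linarith : 0 ≤ 1 / 2 - y)]
  unfold Xt
  nlinarith [key.1, key.2]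

/-- `X̃ ≥ 1 - y₀²` on `y ≤ y₀`, `y₀ ≥ 19/20`. -/
theorem cl_sa_Xt_lower {y y₀ : ℝ} (h0 : 19 / 20 ≤ y₀) (hy : y ≤ y₀) : 1 - y₀ ^ 2 ≤ Xt y := by
  rcases le_total y (1 / 2) with h | h
  · have := cl_sa_Xt_ge h
    nlinarith
  · rw [cl_sa_Xt_eq h]
    unfold Xf
    nlinarith

theorem cl_sa_super_identity {ρ X y Z e1 e2 e3 q ap wp W L : ℝ} (hρ : 0 < ρ) (hρ2 : ρ ^ 2 = L + X) :
    X * Z * e1 * (-1 / ρ - y ^ 2 / ρ ^ 3)
      + (-y * Z * (e1 + q * e2) - X * Z * e1 * ap / 2 + X * Z * wp * e3 + X * W) * (-y / ρ)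
    = (Z * (q * y ^ 2 * e2 + y ^ 2 * e1 - e1 * X - e1 * y ^ 2 * (X / (L + X)) + y * e1 * (X * ap) / 2
        - y * (X * wp) * e3) - y * (X * W)) / ρ := by
  rw [← hρ2]
  field_simp
  ring

theorem cl_sa_G_bracket {q y X s e1 e2 e3 Xa Xw Ca Cw : ℝ} (hy1 : y ^ 2 ≤ 1)
    (hX0 : 0 ≤ X) (hX1 : X ≤ 1) (hs0 : 0 ≤ s) (hs1 : s ≤ 1)
    (h1 : |e1 - 1| ≤ 1 / 100) (h3 : |e3 - 1| ≤ 1 / 100)
    (ha : |Xa| ≤ Ca) (hw : |Xw| ≤ Cw) :
    q * y ^ 2 * e2 - (3 + Ca + 2 * Cw) ≤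
      q * y ^ 2 * e2 + y ^ 2 * e1 - e1 * X - e1 * y ^ 2 * s + y * e1 * Xa / 2 - y * Xw * e3 := by
  have hy : |y| ≤ 1 := abs_le_one_iff_mul_self_le_one.2 (by nlinarith)
  obtain ⟨a1, b1⟩ := abs_le.1 h1
  obtain ⟨a3, b3⟩ := abs_le.1 h3
  have he1 : |e1| ≤ 101 / 100 := abs_le.2 ⟨by linarith, by linarith⟩
  have he3 : |e3| ≤ 101 / 100 := abs_le.2 ⟨by linarith, by linarith⟩
  have hCa : 0 ≤ Ca := (abs_nonneg _).trans ha
  have hCw : 0 ≤ Cw := (abs_nonneg _).trans hw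
  have t2 : 0 ≤ y ^ 2 * e1 := mul_nonneg (sq_nonneg _) (by linarith)
  have t3 : e1 * X ≤ 101 / 100 := by nlinarith
  have t4 : e1 * y ^ 2 * s ≤ 101 / 100 := by
    have : y ^ 2 * s ≤ 1 := by nlinarith [sq_nonneg y]
    have h0 : 0 ≤ y ^ 2 * s := mul_nonneg (sq_nonneg _) hs0
    nlinarith
  have t5 : |y * e1 * Xa| ≤ 1 * (101 / 100) * Ca := cl_sa_abs_mul_le (cl_sa_abs_mul_le hy he1) ha
  have t6 : |y * Xw * e3| ≤ 1 * Cw * (101 / 100) := cl_sa_abs_mul_le (cl_sa_abs_mul_le hy hw) he3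
  have t5' := (abs_le.1 t5).1
  have t6' := (abs_le.1 t6).2
  linarith

theorem cl_sa_G_pole {q y X s Z e1 e2 e3 Xa Xw XW : ℝ} (hq : 10 ^ 6 ≤ q) (hy0 : 361 / 400 ≤ y ^ 2)
    (hy1 : y ^ 2 ≤ 1) (hX0 : 0 ≤ X) (hX1 : X ≤ 1) (hs0 : 0 ≤ s) (hs1 : s ≤ 1) (hZ0 : 1 / 2 ≤ Z)
    (h1 : |e1 - 1| ≤ 1 / 100) (h2 : |e2 - 1| ≤ 1 / 100) (h3 : |e3 - 1| ≤ 1 / 100)
    (ha : |Xa| ≤ 1) (hw : |Xw| ≤ 4) (hW : |XW| ≤ 1) :
    q / 8 ≤ Z * (q * y ^ 2 * e2 + y ^ 2 * e1 - e1 * X - e1 * y ^ 2 * s + y * e1 * Xa / 2 - y * Xw * e3)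
      - y * XW := by
  have hb := cl_sa_G_bracket (q := q) (e2 := e2) hy1 hX0 hX1 hs0 hs1 h1 h3 ha hw
  have hy : |y| ≤ 1 := abs_le_one_iff_mul_self_le_one.2 (by nlinarith)
  obtain ⟨a2, b2⟩ := abs_le.1 h2
  have t1 : q * (361 / 400) * (99 / 100) ≤ q * y ^ 2 * e2 := by
    have hq0 : (0 : ℝ) ≤ q := by linarith
    have h5 : q * (361 / 400) ≤ q * y ^ 2 := mul_le_mul_of_nonneg_left hy0 hq0
    have h6 : 0 ≤ q * y ^ 2 := mul_nonneg hq0 (sq_nonneg _)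
    nlinarith
  have t7 := (abs_le.1 (cl_sa_abs_mul_le hy hW)).2
  set Bk := q * y ^ 2 * e2 + y ^ 2 * e1 - e1 * X - e1 * y ^ 2 * s + y * e1 * Xa / 2 - y * Xw * e3
  have hBk : q * (361 / 400) * (99 / 100) - 12 ≤ Bk := by linarith
  have hBk0 : 0 ≤ Bk := by linarith
  have : Bk / 2 ≤ Z * Bk := by nlinarith
  linarith

theorem cl_sa_G_mid {q y X s Z e1 e2 e3 Xa Xw XW CZ Ca Cw CW : ℝ} (hq : 0 ≤ q)
    (hy1 : y ^ 2 ≤ 1) (hX0 : 0 ≤ X) (hX1 : X ≤ 1) (hs0 : 0 ≤ s) (hs1 : s ≤ 1) (hZ0 : 0 ≤ Z) (hZ1 : Z ≤ CZ)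
    (h1 : |e1 - 1| ≤ 1 / 100) (h2 : |e2 - 1| ≤ 1 / 100) (h3 : |e3 - 1| ≤ 1 / 100)
    (ha : |Xa| ≤ Ca) (hw : |Xw| ≤ Cw) (hW : |XW| ≤ CW) :
    -(CZ * (3 + Ca + 2 * Cw) + CW) ≤
      Z * (q * y ^ 2 * e2 + y ^ 2 * e1 - e1 * X - e1 * y ^ 2 * s + y * e1 * Xa / 2 - y * Xw * e3)
      - y * XW := by
  have hb := cl_sa_G_bracket (q := q) (e2 := e2) hy1 hX0 hX1 hs0 hs1 h1 h3 ha hw
  have hy : |y| ≤ 1 := abs_le_one_iff_mul_self_le_one.2 (by nlinarith)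
  obtain ⟨a2, b2⟩ := abs_le.1 h2
  have hCa : 0 ≤ Ca := (abs_nonneg _).trans ha
  have hCw : 0 ≤ Cw := (abs_nonneg _).trans hw
  have t1 : 0 ≤ q * y ^ 2 * e2 := mul_nonneg (mul_nonneg hq (sq_nonneg _)) (by linarith)
  have t7 := (abs_le.1 (cl_sa_abs_mul_le hy hW)).2
  set Bk := q * y ^ 2 * e2 + y ^ 2 * e1 - e1 * X - e1 * y ^ 2 * s + y * e1 * Xa / 2 - y * Xw * e3
  have hBk : -(3 + Ca + 2 * Cw) ≤ Bk := by linarith
  have h5 : -(Z * (3 + Ca + 2 * Cw)) ≤ Z * Bk := by nlinarith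
  have h6 : Z * (3 + Ca + 2 * Cw) ≤ CZ * (3 + Ca + 2 * Cw) :=
    mul_le_mul_of_nonneg_right hZ1 (by linarith)
  linarith

theorem cl_sa_e_bounds (q : ℝ) (hq : 1 < q) (U : Tri) (t₁ ε N : ℝ) (hε0 : 0 ≤ ε) (hε : ε ≤ 1 / 1000)
    (hpt : CLPt q U t₁ ε N) {t y : ℝ} (ht : t ∈ Ico t₁ 0) (hy : y ∈ Icc (-1 : ℝ) 1) :
    |e1F q U (t, y) - 1| ≤ 1 / 100 ∧ |e2F q U (t, y) - 1| ≤ 1 / 100 ∧ |e3F U (t, y) - 1| ≤ 1 / 100 := by
  obtain ⟨hu0, hu1⟩ := hpt.u0 t ht y hy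
  have hβ := (hpt.u1 t ht y hy).1
  obtain ⟨hs0, hs1, -⟩ := cl_sg_mem (ell2 q t) (cl_sa_ell2_pos q hq ht.2) y hy
  have hβ' : |Xf y * U 2 (t, y)| ≤ ε := hβ.trans (by nlinarith)
  have key : ∀ x : ℝ, |x| ≤ 2 * ε → |Real.exp (-x) - 1| ≤ 1 / 100 := by
    intro x hx
    have h1 : |-x| ≤ 1 := by rw [abs_neg]; linarith
    have h2 := Real.abs_exp_sub_one_le h1
    rw [abs_neg] at h2
    linarith
  have hq1 : 0 < q + 1 := by linarith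
  refine ⟨key _ ?_, key _ ?_, key _ (by linarith)⟩
  · show |U 0 (t, y) + q / (q + 1) * (Xf y * U 2 (t, y))| ≤ 2 * ε
    have hc : |q / (q + 1)| ≤ 1 := by
      rw [abs_of_nonneg (by positivity), div_le_one hq1]; linarith
    have h5 := cl_sa_abs_mul_le hc hβ'
    have h6 := abs_add_le (U 0 (t, y)) (q / (q + 1) * (Xf y * U 2 (t, y)))
    linarith
  · show |U 0 (t, y) - 1 / (q + 1) * (Xf y * U 2 (t, y))| ≤ 2 * ε
    have hc : |1 / (q + 1)| ≤ 1 := by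
      rw [abs_of_nonneg (by positivity), div_le_one hq1]; linarith
    have h5 := cl_sa_abs_mul_le hc hβ'
    have h6 := abs_sub (U 0 (t, y)) (1 / (q + 1) * (Xf y * U 2 (t, y)))
    linarith

theorem cl_sa_bg_south (q : ℝ) (g : Bg) (hg : BgGood q g) {t y : ℝ} (ht : t < 0) (hy : y < 3 / 4) :
    g.Z (t, y) = 1 ∧ g.ap (t, y) = 0 ∧ g.wp (t, y) = 0 ∧ g.W (t, y) = 0 := by
  obtain ⟨hB, hw, hW⟩ := hg.out t ht y hy.le
  have hZ : g.Z (t, y) = 1 := by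
    show 1 / (1 + Xf y * g.B (t, y)) = 1
    rw [hB]; simp
  have hev : ∀ᶠ z in 𝓝 y, z ≤ 3 / 4 := by
    filter_upwards [Iio_mem_nhds hy] with z hz
    exact le_of_lt hz
  have hdd : g.dd (t, y) = 0 := by
    show deriv (fun z => Xf z * g.B (t, z)) y = 0
    have h : (fun z => Xf z * g.B (t, z)) =ᶠ[𝓝 y] fun _ => 0 := by
      filter_upwards [hev] with z hz
      rw [(hg.out t ht z hz).1, mul_zero]
    rw [h.deriv_eq, deriv_const]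
  have hwp : g.wp (t, y) = 0 := by
    show deriv (fun z => g.w (t, z)) y = 0
    have h : (fun z => g.w (t, z)) =ᶠ[𝓝 y] fun _ => 0 := by
      filter_upwards [hev] with z hz
      rw [(hg.out t ht z hz).2.1]
    rw [h.deriv_eq, deriv_const]
  refine ⟨hZ, ?_, hwp, hW⟩
  show g.Z (t, y) * g.dd (t, y) = 0
  rw [hdd, mul_zero]

theorem cl_sa_Xf_abs {y : ℝ} (hy : y ∈ Icc (-1 : ℝ) 1) : 0 ≤ Xf y ∧ Xf y ≤ 1 ∧ |Xf y| ≤ 1 := by
  have h0 : 0 ≤ Xf y := cl_u_nonneg y hy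
  have h1 : Xf y ≤ 1 := by unfold Xf; nlinarith [sq_nonneg y]
  exact ⟨h0, h1, by rw [abs_of_nonneg h0]; exact h1⟩

theorem cl_sa_bg_mid (q : ℝ) (hq : 1 < q) (g : Bg) (hg : BgGood q g) (y₀ : ℝ) (h0 : 19 / 20 ≤ y₀) (h1 : y₀ < 1) :
    ∃ Λ CZ Ca Cw CW : ℝ, 0 < Λ ∧ ∀ t ∈ Ico (-Λ) 0, ∀ y ∈ Icc (-1 : ℝ) y₀,
      0 ≤ g.Z (t, y) ∧ g.Z (t, y) ≤ CZ ∧ |Xf y * g.ap (t, y)| ≤ Ca ∧ |Xf y * g.wp (t, y)| ≤ Cw ∧
        |Xf y * g.W (t, y)| ≤ CW := by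
  obtain ⟨Λ, C, hΛ, hB, hw, -, hW, hlow⟩ := hg.sym
  have hc0 : 0 < 1 - y₀ ^ 2 := by nlinarith
  obtain ⟨c₀, hc₀⟩ : ∃ c₀ : ℝ, c₀ = 1 - y₀ ^ 2 := ⟨_, rfl⟩
  rw [← hc₀] at hc0
  refine ⟨Λ, C + 1, 1 * ((C + 1) * (2 * (C / c₀) + 1 * (C / c₀ / c₀))), 1 * (C / c₀), 1 * (C / c₀), hΛ, ?_⟩
  intro t ht y hy
  have hy' : y ∈ Icc (-1 : ℝ) 1 := ⟨hy.1, hy.2.trans h1.le⟩
  obtain ⟨hX0, hX1, hXa⟩ := cl_sa_Xf_abs hy'
  have hXt : c₀ ≤ Xt y := by rw [hc₀]; exact cl_sa_Xt_lower h0 hy.2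
  have hell := cl_sa_ell2_pos q hq ht.2
  have hrh : c₀ ≤ rh2 q t y := by unfold rh2; linarith
  have hTh : c₀ ≤ Th t y := by unfold Th; linarith [ht.2]
  have hrh0 : 0 < rh2 q t y := hc0.trans_le hrh
  have hTh0 : 0 < Th t y := hc0.trans_le hTh
  have i1 : 1 / rh2 q t y ≤ 1 / c₀ := one_div_le_one_div_of_le hc0 hrh
  have i2 : 1 / Th t y ≤ 1 / c₀ := one_div_le_one_div_of_le hc0 hTh
  have B0 := hB t ht y hy' 0 (by norm_num)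
  have B1 := hB t ht y hy' 1 (by norm_num)
  have w0 := hw t ht y hy' 0 (by norm_num)
  have W0 := hW t ht y hy' 0 (by norm_num)
  simp only [iteratedDeriv_zero, pow_zero, div_one, sl] at B0 w0 W0
  simp only [iteratedDeriv_one, pow_one] at B1
  have hC : 0 ≤ C := by
    have h5 : 0 ≤ C * (1 / rh2 q t y) := (abs_nonneg _).trans B0
    by_contra hneg
    push Not at hneg
    have : C * (1 / rh2 q t y) < 0 := mul_neg_of_neg_of_pos hneg (by positivity)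
    linarith
  have hK : C * (1 / rh2 q t y) ≤ C / c₀ := by
    rw [div_eq_mul_one_div C c₀]; exact mul_le_mul_of_nonneg_left i1 hC
  have hK' : C * (1 / Th t y) ≤ C / c₀ := by
    rw [div_eq_mul_one_div C c₀]; exact mul_le_mul_of_nonneg_left i2 hC
  have hK0 : 0 ≤ C / c₀ := by positivity
  have bB : |g.B (t, y)| ≤ C / c₀ := B0.trans hK
  have bB1 : |deriv (sl g.B t) y| ≤ C / c₀ / c₀ := by
    refine B1.trans ?_
    rw [div_eq_mul_one_div (C * (1 / rh2 q t y)), div_eq_mul_one_div (C / c₀) c₀]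
    exact mul_le_mul hK i1 (by positivity) hK0
  have bw : |g.wp (t, y)| ≤ C / c₀ := w0.trans hK
  have bW : |g.W (t, y)| ≤ C / c₀ := W0.trans hK'
  have hpos := hg.sm.pos t ht.2 y
  have hZ0 : 0 ≤ g.Z (t, y) := by
    show 0 ≤ 1 / (1 + Xf y * g.B (t, y))
    positivity
  have hZ1 : g.Z (t, y) ≤ C + 1 := by
    show 1 / (1 + Xf y * g.B (t, y)) ≤ C + 1
    rcases hC.eq_or_lt with h | h
    · have hB0 : g.B (t, y) = 0 := by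
        rw [← h] at bB
        simpa using bB
      rw [hB0, ← h]; simp
    · have h5 := hlow t ht y hy'
      have h6 : 1 / (1 + Xf y * g.B (t, y)) ≤ C := by
        rw [div_le_iff₀ hpos]
        rw [div_le_iff₀ h] at h5
        linarith
      linarith
  have hdd : g.dd (t, y) = -(2 * y) * g.B (t, y) + Xf y * deriv (sl g.B t) y := by
    show deriv (fun z => Xf z * g.B (t, z)) y = _
    have d1 : HasDerivAt (fun z : ℝ => Xf z) (-(2 * y)) y := by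
      have h5 := (hasDerivAt_pow 2 y).const_sub 1
      exact h5.congr_deriv (by simp)
    have d2 : HasDerivAt (sl g.B t) (deriv (sl g.B t) y) y :=
      (((cl_sl_contDiff g.B hg.sm.smB t ht.2).differentiable (by simp)) y).hasDerivAt
    exact (d1.mul d2).deriv
  have hyabs : |y| ≤ 1 := abs_le.2 hy'
  have bdd : |g.dd (t, y)| ≤ 2 * (C / c₀) + 1 * (C / c₀ / c₀) := by
    rw [hdd]
    refine (abs_add_le _ _).trans (add_le_add ?_ (cl_sa_abs_mul_le hXa bB1))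
    have : |-(2 * y)| ≤ 2 := by rw [abs_neg, abs_mul]; norm_num; linarith
    exact cl_sa_abs_mul_le this bB
  have hZa : |g.Z (t, y)| ≤ C + 1 := by rw [abs_of_nonneg hZ0]; exact hZ1
  exact ⟨hZ0, hZ1, cl_sa_abs_mul_le hXa (cl_sa_abs_mul_le hZa bdd), cl_sa_abs_mul_le hXa bw, cl_sa_abs_mul_le hXa bW⟩

theorem cl_sa_bg_north (q : ℕ) (hq6 : 10 ^ 6 ≤ q) (g : Bg) (hg : BgGood q g) (hcl : BgCL q g) :
    ∃ Λ y₀ : ℝ, 0 < Λ ∧ 19 / 20 ≤ y₀ ∧ y₀ < 1 ∧ ∀ t ∈ Ico (-Λ) 0, ∀ y ∈ Icc y₀ 1,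
      1 / 2 ≤ g.Z (t, y) ∧ |Xf y * g.ap (t, y)| ≤ 1 ∧ |Xf y * g.wp (t, y)| ≤ 4 ∧
        |Xf y * g.W (t, y)| ≤ 1 := by
  have hq : (1 : ℝ) < q := by
    have : (10 ^ 6 : ℝ) ≤ q := by exact_mod_cast hq6
    linarith
  obtain ⟨Λ₀, y₁, hΛ₀, hy₁, hy₁', H⟩ := hcl
  obtain ⟨ΛJ, CJ, hΛJ, -, -, hW⟩ := hg.symJ
  obtain ⟨Λb, yb, hΛb, hyb, hyb', Hb⟩ := cl_bg_small q hq6 (1 / (|CJ| + 1)) (by positivity)
  refine ⟨min Λ₀ (min ΛJ Λb), max y₁ yb, lt_min hΛ₀ (lt_min hΛJ hΛb), hy₁.trans (le_max_left _ _),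
    max_lt hy₁' hyb', ?_⟩
  intro t ht y hy
  have ht0 : t ∈ Ico (-Λ₀) 0 := ⟨by linarith [ht.1, min_le_left Λ₀ (min ΛJ Λb)], ht.2⟩
  have htJ : t ∈ Ico (-ΛJ) 0 :=
    ⟨by linarith [ht.1, min_le_right Λ₀ (min ΛJ Λb), min_le_left ΛJ Λb], ht.2⟩
  have htb : t ∈ Ico (-Λb) 0 :=
    ⟨by linarith [ht.1, min_le_right Λ₀ (min ΛJ Λb), min_le_right ΛJ Λb], ht.2⟩
  have hy1 : y ∈ Icc y₁ 1 := ⟨(le_max_left _ _).trans hy.1, hy.2⟩
  have hyb1 : y ∈ Icc yb 1 := ⟨(le_max_right _ _).trans hy.1, hy.2⟩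
  have hy' : y ∈ Icc (-1 : ℝ) 1 := ⟨by linarith [hy1.1], hy.2⟩
  obtain ⟨hX0, hX1, hXa⟩ := cl_sa_Xf_abs hy'
  have hell := cl_sa_ell2_pos q hq ht.2
  have hs0 : 0 ≤ Xf y / (ell2 q t + Xf y) := by positivity
  have hs1 : Xf y / (ell2 q t + Xf y) ≤ 1 := by
    rw [div_le_one (by linarith)]; linarith
  obtain ⟨hZ0, -, hwp, hap, -⟩ := H t ht0 y hy1
  have W0 := hW t htJ y hy' 0 (by norm_num)
  simp only [iteratedDeriv_zero, pow_zero, div_one, sl] at W0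
  have hXt : Xt y = Xf y := cl_sa_Xt_eq (by linarith [hy1.1])
  have hTh : 0 < Th t y := by unfold Th; rw [hXt]; linarith [ht.2]
  have hrh : 0 < rh2 q t y := by unfold rh2; rw [hXt]; linarith
  have hv : 0 ≤ JJ q t y / Th t y := by
    unfold JJ
    have := Real.rpow_nonneg hrh.le (-(alF q) / 2)
    positivity
  have hsm := (Hb t htb y hyb1).1
  refine ⟨hZ0, hap, hwp.trans (by linarith), ?_⟩
  rw [abs_mul, abs_of_nonneg hX0]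
  have h5 : CJ * (JJ q t y / Th t y) ≤ |CJ| * (JJ q t y / Th t y) :=
    mul_le_mul_of_nonneg_right (le_abs_self _) hv
  have h6 : Xf y * |g.W (t, y)| ≤ |CJ| * (Xf y * (JJ q t y / Th t y)) := by
    calc Xf y * |g.W (t, y)| ≤ Xf y * (|CJ| * (JJ q t y / Th t y)) :=
          mul_le_mul_of_nonneg_left (W0.trans h5) hX0
      _ = _ := by ring
  have h7 : |CJ| * (Xf y * (JJ q t y / Th t y)) ≤ |CJ| * (1 / (|CJ| + 1) * (Xf y / (ell2 q t + Xf y))) :=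
    mul_le_mul_of_nonneg_left hsm (abs_nonneg _)
  have h8 : |CJ| * (1 / (|CJ| + 1) * (Xf y / (ell2 q t + Xf y))) ≤ 1 := by
    have h9 : |CJ| * (1 / (|CJ| + 1)) ≤ 1 := by
      rw [mul_one_div, div_le_one (by positivity)]; linarith
    have h10 : 0 ≤ |CJ| * (1 / (|CJ| + 1)) := by positivity
    calc |CJ| * (1 / (|CJ| + 1) * (Xf y / (ell2 q t + Xf y)))
        = (|CJ| * (1 / (|CJ| + 1))) * (Xf y / (ell2 q t + Xf y)) := by ring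
      _ ≤ 1 * 1 := mul_le_mul h9 hs1 hs0 (by norm_num)
      _ = 1 := by norm_num
  linarith

set_option maxHeartbeats 1000000 in
theorem cl_sa_rho_super_aux (q : ℕ) (hq6 : 10 ^ 6 ≤ q) (g : Bg) (hg : BgGood q g) (hcl : BgCL q g) (U : Tri)
    (t₁ ε N : ℝ) (hε0 : 0 ≤ ε) (hε : ε ≤ 1 / 1000) (hpt : CLPt q U t₁ ε N) :
    ∃ Λ₄ C₆ : ℝ, 0 < Λ₄ ∧ 0 ≤ C₆ ∧ ∀ t ∈ Ico (max t₁ (-Λ₄)) 0, ∀ y ∈ Icc (-1 : ℝ) 1,
      ∀ ρ : ℝ, ρ = Real.sqrt (ell2 q t + Xf y) →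
      (q : ℝ) / 8 / ρ - C₆ ≤ Xf y * g.Z (t, y) * e1F q U (t, y) * (-1 / ρ - y ^ 2 / ρ ^ 3)
        + drF q g U (t, y) * (-y / ρ) := by
  have hq6' : (10 ^ 6 : ℝ) ≤ q := by exact_mod_cast hq6
  have hq : (1 : ℝ) < q := by linarith
  obtain ⟨Λn, y₀, hΛn, hy0, hy0', Hn⟩ := cl_sa_bg_north q hq6 g hg hcl
  obtain ⟨Λm, CZ, Ca, Cw, CW, hΛm, Hm⟩ := cl_sa_bg_mid q hq g hg y₀ hy0 hy0'
  have hc0 : 0 < 1 - y₀ ^ 2 := by nlinarith
  obtain ⟨ρm, hρm⟩ : ∃ ρm : ℝ, ρm = Real.sqrt (1 - y₀ ^ 2) := ⟨_, rfl⟩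
  have hρm0 : 0 < ρm := by rw [hρm]; exact Real.sqrt_pos.2 hc0
  obtain ⟨K, hK⟩ : ∃ K : ℝ, K = CZ * (3 + Ca + 2 * Cw) + CW := ⟨_, rfl⟩
  have hC6 : 0 ≤ (|K| + q / 8) / ρm := by positivity
  refine ⟨min Λn Λm, (|K| + q / 8) / ρm, lt_min hΛn hΛm, hC6, ?_⟩
  intro t ht y hy ρ hρ
  have ht0 : t < 0 := ht.2
  have ht1 : t ∈ Ico t₁ 0 := ⟨(le_max_left _ _).trans ht.1, ht.2⟩
  have htΛ : -(min Λn Λm) ≤ t := (le_max_right _ _).trans ht.1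
  have htn : t ∈ Ico (-Λn) 0 := ⟨by linarith [min_le_left Λn Λm], ht.2⟩
  have htm : t ∈ Ico (-Λm) 0 := ⟨by linarith [min_le_right Λn Λm], ht.2⟩
  obtain ⟨hX0, hX1, -⟩ := cl_sa_Xf_abs hy
  have hell := cl_sa_ell2_pos q hq ht0
  have hF : 0 < ell2 q t + Xf y := by linarith
  have hρ0 : 0 < ρ := by rw [hρ]; exact Real.sqrt_pos.2 hF
  have hρ2 : ρ ^ 2 = ell2 q t + Xf y := by rw [hρ]; exact Real.sq_sqrt hF.le
  have hs0 : 0 ≤ Xf y / (ell2 q t + Xf y) := by positivity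
  have hs1 : Xf y / (ell2 q t + Xf y) ≤ 1 := by rw [div_le_one hF]; linarith
  obtain ⟨h1, h2, h3⟩ := cl_sa_e_bounds q hq U t₁ ε N hε0 hε hpt ht1 hy
  have hy2 : y ^ 2 ≤ 1 := by nlinarith [hy.1, hy.2]
  have hid := cl_sa_super_identity (ρ := ρ) (X := Xf y) (y := y) (Z := g.Z (t, y)) (e1 := e1F q U (t, y))
    (e2 := e2F q U (t, y)) (e3 := e3F U (t, y)) (q := q) (ap := g.ap (t, y)) (wp := g.wp (t, y))
    (W := g.W (t, y)) (L := ell2 q t) hρ0 hρ2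
  have hdr : drF q g U (t, y) = -y * g.Z (t, y) * (e1F q U (t, y) + q * e2F q U (t, y))
      - Xf y * g.Z (t, y) * e1F q U (t, y) * g.ap (t, y) / 2
      + Xf y * g.Z (t, y) * g.wp (t, y) * e3F U (t, y) + Xf y * g.W (t, y) := rfl
  rw [hdr, hid]
  clear hdr hid
  have pole : ∀ G : ℝ, (q : ℝ) / 8 ≤ G → (q : ℝ) / 8 / ρ - (|K| + q / 8) / ρm ≤ G / ρ := by
    intro G hG
    have : (q : ℝ) / 8 / ρ ≤ G / ρ := div_le_div_of_nonneg_right hG hρ0.le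
    linarith
  rcases le_total y₀ y with hyn | hyn
  · obtain ⟨hZ, ha, hw, hW⟩ := Hn t htn y ⟨hyn, hy.2⟩
    exact pole _ (cl_sa_G_pole hq6' (by nlinarith) hy2 hX0 hX1 hs0 hs1 hZ h1 h2 h3 ha hw hW)
  rcases le_total y (-19 / 20) with hys | hys
  · obtain ⟨hZ, ha, hw, hW⟩ := cl_sa_bg_south q g hg ht0 (by linarith : y < 3 / 4)
    apply pole
    apply cl_sa_G_pole hq6' (by nlinarith) hy2 hX0 hX1 hs0 hs1 (by rw [hZ]; norm_num) h1 h2 h3 <;>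
      simp [ha, hw, hW]
  · obtain ⟨hZ0, hZ1, ha, hw, hW⟩ := Hm t htm y ⟨hy.1, hyn⟩
    have hG := cl_sa_G_mid (q := (q : ℝ)) (e2 := e2F q U (t, y)) (by linarith) hy2 hX0 hX1 hs0 hs1 hZ0 hZ1
      h1 h2 h3 ha hw hW
    rw [← hK] at hG
    have hρge : ρm ≤ ρ := by
      rw [hρ, hρm]
      apply Real.sqrt_le_sqrt
      have := mul_nonneg (sub_nonneg.2 hyn) (by linarith : 0 ≤ y₀ + y)
      unfold Xf
      nlinarith
    have hG' := (neg_le_neg (le_abs_self K)).trans hG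
    have a1 : -|K| / ρ ≤ _ / ρ := div_le_div_of_nonneg_right hG' hρ0.le
    have a2 : |K| / ρ ≤ |K| / ρm := div_le_div_of_nonneg_left (abs_nonneg _) hρm0 hρge
    have a3 : (q : ℝ) / 8 / ρ ≤ (q : ℝ) / 8 / ρm :=
      div_le_div_of_nonneg_left (by positivity) hρm0 hρge
    rw [add_div]
    rw [neg_div] at a1
    linarith

end Claimed.Agent.R324.Core
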